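import Vale.Agent.P179.H737.LBM
import Vale.Agent.P179.Allb.DefsR

/-!
# ALLB: module CUTM (the new algebra `j M_J(Λ) j`)
-/

namespace Vale.P179.H737

open Module Vale.P179.Sgn Vale.P179.Allb

/-! ## Kronecker products with one algebra element -/

section Kr

variable {k Λ J : Type} [Field k] [Ring Λ] [Algebra k Λ] [Fintype J] [DecidableEq J]

/-- the matrix `M ⊗ a` -/
def kr (M : Matrix J J k) (a : Λ) : Matrix J J Λ := Matrix.of fun i l => M i l • a

omit [Fintype J] [DecidableEq J] in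
theorem kr_apply (M : Matrix J J k) (a : Λ) (i l : J) : kr M a i l = M i l • a := rfl

omit [DecidableEq J] in
theorem kr_mul (M N : Matrix J J k) (a b : Λ) : kr M a * kr N b = kr (M * N) (a * b) := by
  ext i l
  simp only [Matrix.mul_apply, kr_apply, smul_mul_smul_comm, Finset.sum_smul]

omit [Fintype J] in
theorem kr_one : kr (1 : Matrix J J k) (1 : Λ) = 1 := by
  ext i l
  rw [kr_apply]
  by_cases h : i = l
  · subst h
    simp
  · simp [h]

theorem kr_pow (M : Matrix J J k) (a : Λ) (m : ℕ) : kr M a ^ m = kr (M ^ m) (a ^ m) := by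
  induction m with
  | zero => rw [pow_zero, pow_zero, pow_zero, kr_one]
  | succ m ih => rw [pow_succ, ih, kr_mul, pow_succ, pow_succ]

end Kr

/-! ## Generalities on `PX` -/

section PX

variable {k D Λ : Type} [Field k] [CommGroup D] [Ring Λ] [Algebra k Λ]

theorem finite_PX (A : PX k D Λ) : FiniteDimensional k Λ := by
  have := A.fin
  exact Module.Finite.of_basis A.b

theorem mem_CA (A : PX k D Λ) (X : Subgroup D) (a : Λ) :
    a ∈ A.CA X ↔ ∀ x ∈ X, A.u x * a = a * A.u x := by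
  unfold PX.CA
  rw [Subalgebra.mem_centralizer_iff]
  constructor
  · intro h x hx
    exact h _ ⟨x, hx, rfl⟩
  · rintro h _ ⟨x, hx, rfl⟩
    exact h x hx

theorem cnt_anti (A : PX k D Λ) {X Y : Subgroup D} (h : X ≤ Y) : A.cnt Y ≤ A.cnt X := by
  have := A.fin
  unfold PX.cnt
  exact Nat.card_le_card_of_injective (fun i => ⟨i.1, fun x hx => i.2 x (h hx)⟩)
    (fun i j hij => Subtype.ext (congrArg (fun z => z.1) hij))

/-- `D` acts freely on the fixed basis elements. -/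
theorem card_le_cnt (A : PX k D Λ) (hf : ∀ i x, A.u x * A.b i = A.b i → x = 1)
    (h0 : A.cnt ⊤ ≠ 0) : Nat.card D ≤ A.cnt ⊤ := by
  have := A.fin
  have hne : Nonempty {i : A.I // ∀ x ∈ (⊤ : Subgroup D), A.u x * A.b i = A.b i * A.u x} := by
    by_contra hn
    rw [not_nonempty_iff] at hn
    exact h0 (Nat.card_of_isEmpty)
  obtain ⟨i0, hi0⟩ := hne
  choose f hf' using fun x : D => A.stab x 1 i0
  have hf1 : ∀ x, A.b (f x) = A.u x * A.b i0 := by
    intro x
    rw [← hf' x, map_one, mul_one]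
  unfold PX.cnt
  refine Nat.card_le_card_of_injective (fun x => ⟨f x, ?_⟩) ?_
  · intro y _
    rw [hf1, ← mul_assoc, ← map_mul, mul_comm, map_mul, mul_assoc, hi0 y trivial, mul_assoc]
  · intro x y hxy
    have h1 : f x = f y := congrArg (fun z => z.1) hxy
    have h2 : A.u x * A.b i0 = A.u y * A.b i0 := by rw [← hf1, ← hf1, h1]
    have h3 : A.u (y⁻¹ * x) * A.b i0 = A.b i0 := by
      rw [map_mul, mul_assoc, h2, ← mul_assoc, ← map_mul, inv_mul_cancel, map_one, one_mul]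
    have h4 := hf _ _ h3
    rwa [inv_mul_eq_one, eq_comm] at h4

end PX

/-! ## the corner -/

section Cor

variable {k R Λ' : Type} [Field k] [Ring R] [Algebra k R] [Ring Λ'] [Algebra k Λ'] {j : R}
  {v : Λ' →ₗ[k] R}

theorem cor_left (h : Cor j v) (x : Λ') : j * v x = v x := by
  rw [← h.one, ← h.mul, one_mul]

theorem cor_right (h : Cor j v) (x : Λ') : v x * j = v x := by
  rw [← h.one, ← h.mul, mul_one]

theorem cor_pow (h : Cor j v) (x : Λ') (m : ℕ) : v (x ^ (m + 1)) = v x ^ (m + 1) := by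
  induction m with
  | zero => simp
  | succ m ih => rw [pow_succ, h.mul, ih, ← pow_succ]

variable {D : Type} [CommGroup D]

theorem cor_ul {B : PX k D R} {A' : PX k D Λ'} (h : Cor j v) (hu : ∀ x, v (A'.u x) = B.u x * j)
    (x : D) (a : Λ') : v (A'.u x * a) = B.u x * v a := by
  rw [h.mul, hu, mul_assoc, cor_left h]

theorem cor_ur {B : PX k D R} {A' : PX k D Λ'} (h : Cor j v) (hu : ∀ x, v (A'.u x) = B.u x * j)
    (hj : ∀ x, B.u x * j = j * B.u x) (x : D) (a : Λ') : v (a * A'.u x) = v a * B.u x := by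
  rw [h.mul, hu, hj, ← mul_assoc, cor_right h]

end Cor

/-- The construction of the new algebra, from the conclusion of `PRIM`. -/
theorem cutm_core (hCN : CNTI) (hCP : CUTP) (hCC : CUTC) (p : ℕ) [Fact p.Prime] (k : Type)
    [Field k] [IsAlgClosed k] [CharP k p] (D : Type) [CommGroup D] [Finite D] (τ : MulAut D)
    (e : ℕ) [NeZero e] (hpg : IsPGroup p D)
    (hPR : ∀ (R : Type) [Ring R] [Algebra k R] (B : PX k D R), B.cnt ⊤ = Nat.card D →
      (∀ i x, B.u x * B.b i = B.b i → x = 1) →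
      ∀ n : R, IsUnit n → (∀ x, n * B.u x = B.u (τ x) * n) →
      ∃ j n' : R, j * j = j ∧ (∀ x, B.u x * j = j * B.u x) ∧ j ∉ B.KA ⊤ ∧
        (∀ a, j * a * j = a → (∀ x, B.u x * a = a * B.u x) →
          (∃ b, j * b * j = b ∧ a * b = j ∧ b * a = j) ∨ IsNilpotent a) ∧
        j * n' * j = n' ∧ n' ^ e * j = j ∧ ∀ x, n' * B.u x = B.u (τ x) * n')
    (Λ : Type) [Ring Λ] [Algebra k Λ] (A : AX k D Λ τ e) (J : Type) [Fintype J]
    [DecidableEq J] (w : WD k D J τ e) (B : PX k D (Matrix J J Λ)) (hM : MatX A w B)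
    (hw : w.cnt ⊤ = 1) :
    ∃ (Λ' : Type) (_ : Ring Λ') (_ : Algebra k Λ') (v : Λ' →ₗ[k] Matrix J J Λ)
      (A' : AX k D Λ' τ e) (j : Matrix J J Λ), j * j = j ∧ (∀ x, B.u x * j = j * B.u x) ∧
      Cor j v ∧ (∀ x, v (A'.u x) = B.u x * j) ∧ (∀ a, A'.t a = B.t (v a)) ∧
      lB k Λ' ≤ lB k Λ ∧
      ∀ X : Subgroup D, Nat.card D ≤ A'.cnt X ∧ A'.cnt X ≤ A.cnt X * w.cnt X := by
  classical
  -- step 1: counts
  have hB : B.cnt ⊤ = Nat.card D := by rw [hM.cnt, hw, mul_one, A.rank]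
  have hfree : ∀ i x, B.u x * B.b i = B.b i → x = 1 := by
    intro i x hx
    obtain ⟨s, hs⟩ := hM.tw i
    have h1 := hs x 1 (by rw [map_one, mul_one, hx])
    exact (MulEquiv.map_eq_one_iff (τ ^ s)).1 h1.symm
  -- step 2: the unit
  have hBu : ∀ x, B.u x = kr (w.r x) (A.u x) := by
    intro x
    ext a b
    rw [hM.u, kr_apply]
  have hnpow : kr w.ν A.n ^ e = 1 := by rw [kr_pow, w.νpow, A.npow, kr_one]
  have hnu : ∀ x, kr w.ν A.n * B.u x = B.u (τ x) * kr w.ν A.n := by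
    intro x
    rw [hBu, hBu, kr_mul, kr_mul, w.νr, A.nu]
  have he1 : e - 1 + 1 = e := Nat.sub_add_cancel (Nat.one_le_iff_ne_zero.2 (NeZero.ne e))
  have hunit : IsUnit (kr w.ν A.n) :=
    ⟨⟨kr w.ν A.n, kr w.ν A.n ^ (e - 1), by rw [← pow_succ', he1, hnpow],
      by rw [← pow_succ, he1, hnpow]⟩, rfl⟩
  obtain ⟨j, n', hjj, hju, hjK, hloc, hn'j, hn'e, hn'u⟩ :=
    hPR (Matrix J J Λ) B hB hfree _ hunit hnu
  obtain ⟨Λ', _, _, v, A', hv, hvu, hvt, hst⟩ := hCP p k D hpg (Matrix J J Λ) B j hjj hju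
  -- the new `n`
  obtain ⟨n, hn⟩ := hv.rng n' hn'j
  have hjn' : j * n' = n' := by rw [← hn, cor_left hv]
  have hn'j' : n' * j = n' := by rw [← hn, cor_right hv]
  have htw : ∀ i, ∃ s : ℕ, ∀ x y, A'.u x * A'.b i = A'.b i * A'.u y → y = (τ ^ s) x := by
    intro i'
    obtain ⟨i, hi⟩ := hst i'
    obtain ⟨s, hs⟩ := hM.tw i
    exact ⟨s, fun x y h => hs x y ((hi x y).1 h)⟩
  have hfree' : ∀ i x, A'.u x * A'.b i = A'.b i → x = 1 := by
    intro i x hx
    obtain ⟨s, hs⟩ := htw i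
    have h1 := hs x 1 (by rw [map_one, mul_one, hx])
    exact (MulEquiv.map_eq_one_iff (τ ^ s)).1 h1.symm
  have hle : ∀ X : Subgroup D, A'.cnt X ≤ B.cnt X :=
    fun X => hCC p k D hpg (Matrix J J Λ) Λ' B A' j v hjj hju hv hvu hvt X
  -- the count at `⊤` is not zero
  have hne : A'.cnt ⊤ ≠ 0 := by
    intro h0
    have h1 := hCN p k D hpg Λ' A' ⊤
    rw [h0, zero_add] at h1
    have := finite_PX A'
    have h2 : A'.KA ⊤ ≤ Subalgebra.toSubmodule (A'.CA ⊤) := fun a ha => ha.1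
    have h3 := Submodule.eq_of_le_of_finrank_eq h2 h1
    have h4 : (1 : Λ') ∈ A'.KA ⊤ := by
      rw [h3]
      exact one_mem (A'.CA ⊤)
    apply hjK
    refine ⟨(mem_CA B ⊤ j).2 fun x _ => hju x, ?_⟩
    intro c hc
    have hc' := (mem_CA B ⊤ c).1 hc
    obtain ⟨c', hc'v⟩ := hv.rng (j * c * j) (by
      calc j * (j * c * j) * j = (j * j) * c * (j * j) := by noncomm_ring
        _ = j * c * j := by rw [hjj])
    have h5 : c' ∈ A'.CA ⊤ := by
      rw [mem_CA]
      intro x _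
      apply hv.inj
      rw [cor_ul hv hvu, cor_ur hv hvu hju, hc'v]
      calc B.u x * (j * c * j) = (B.u x * j) * c * j := by noncomm_ring
        _ = j * (B.u x * c) * j := by rw [hju]; noncomm_ring
        _ = j * c * (B.u x * j) := by rw [hc' x trivial]; noncomm_ring
        _ = j * c * j * B.u x := by rw [hju]; noncomm_ring
    have h6 := h4.2 c' h5
    rw [one_mul, hvt, hc'v] at h6
    rw [← hjj, mul_assoc, B.tc]
    exact h6
  have hrank : A'.cnt ⊤ = Nat.card D :=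
    le_antisymm ((hle ⊤).trans_eq hB) (card_le_cnt A' hfree' hne)
  -- the local commutant
  have hloc' : ∀ a : Λ', (∀ x, A'.u x * a = a * A'.u x) → IsUnit a ∨ IsNilpotent a := by
    intro a ha
    rcases hloc (v a) (by rw [cor_left hv, cor_right hv]) (fun x => by
      rw [← cor_ul hv hvu, ← cor_ur hv hvu hju, ha x]) with ⟨b, hb1, hb2, hb3⟩ | ⟨m, hm⟩
    · left
      obtain ⟨b', rfl⟩ := hv.rng b hb1
      refine ⟨⟨a, b', ?_, ?_⟩, rfl⟩
      · apply hv.inj
        rw [hv.mul, hv.one, hb2]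
      · apply hv.inj
        rw [hv.mul, hv.one, hb3]
    · right
      refine ⟨m + 1, ?_⟩
      apply hv.inj
      rw [cor_pow hv, pow_succ, hm, zero_mul, map_zero]
  have hnpow' : n ^ e = 1 := by
    apply hv.inj
    obtain ⟨m, hm⟩ : ∃ m, e = m + 1 := ⟨e - 1, by
      rw [Nat.sub_add_cancel (Nat.one_le_iff_ne_zero.2 (NeZero.ne e))]⟩
    have h1 : n' ^ e * j = n' ^ e := by
      rw [hm, pow_succ, mul_assoc, hn'j']
    rw [hv.one, hm, cor_pow hv, hn, ← hm, ← h1, hn'e]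
  have hnu' : ∀ x, n * A'.u x = A'.u (τ x) * n := by
    intro x
    apply hv.inj
    rw [cor_ul hv hvu, cor_ur hv hvu hju, hn, hn'u]
  let A'' : AX k D Λ' τ e :=
    { A' with
      n := n
      npow := hnpow'
      nu := hnu'
      tw := htw
      loc := hloc'
      rank := hrank }
  have hcnt : ∀ X, A''.cnt X = A'.cnt X := fun X => rfl
  have hfd : FiniteDimensional k Λ := finite_PX A.toPX
  refine ⟨Λ', _, _, v, A'', j, hjj, hju, hv, hvu, hvt, ?_, ?_⟩
  · exact (lbc k (Matrix J J Λ) Λ' j v hjj hv).trans (lbm k Λ J)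
  · intro X
    refine ⟨?_, ?_⟩
    · rw [hcnt, ← hrank]
      exact cnt_anti A' le_top
    · rw [hcnt, ← hM.cnt]
      exact hle X

/-- **Module CUTM.** -/
theorem cutm_of (hCN : CNTI) (hCP : CUTP) (hCC : CUTC) (hPR : PRIM) : CUTM := by
  intro p _ k _ _ _ D _ _ τ e _ hTW Λ _ _ A J _ _ w B hM hw
  exact cutm_core hCN hCP hCC p k D τ e hTW.pgr (fun R _ _ => hPR p k D τ e hTW R) Λ A J w B hM hw

/-- **Module CUTMR.** -/
theorem cutmr_of (hCN : CNTI) (hCP : CUTP) (hCC : CUTC) (hPR : PRIMR) : CUTMR := by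
  intro p _ k _ _ _ D _ _ τ e _ hTW Λ _ _ A J _ _ w B hM hw
  exact cutm_core hCN hCP hCC p k D τ e hTW.pgr (fun R _ _ => hPR p k D τ e hTW R) Λ A J w B hM hw

end Vale.P179.H737
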