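import Mathlib

/-!
The explicit graded Cartan matrix of `k (D : T)`, `T` cyclic of order `e` acting freely on
`D - 1`, normalised to a Hermitian matrix: positive definite at `theta = 0`, negative definite at
`theta = 2 pi (1 + 1 / (2 e)) / N`.
-/

namespace Vale.Agent.P179.H737

open Matrix Finset Complex

open scoped ComplexOrder

noncomputable section

variable (e : ℕ) [NeZero e]

/-- The function on `ZMod e` defining the circulant. -/
def fN (N : ℕ) (c θ : ℝ) (k : ZMod e) : ℂ :=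
  Complex.exp (-(I * ((N : ℂ) - 1) * θ / 2)) *
    ∑ w ∈ range N, Complex.exp (I * w * θ) * ((if (w : ZMod e) = k then 1 else 0) + c)

/-- The normalised graded Cartan matrix of `k (D : T)`. -/
def HN (N : ℕ) (c θ : ℝ) : Matrix (ZMod e) (ZMod e) ℂ :=
  Matrix.of fun a b => fN e N c θ (b - a)

/-- Eigenvalues. -/
def lamN (N : ℕ) (c θ : ℝ) (s : ZMod e) : ℂ := ∑ k, fN e N c θ k * ZMod.stdAddChar (s * k)

variable {e}

theorem inversion (f : ZMod e → ℂ) (k : ZMod e) :
    (e : ℂ) * f k = ∑ s, (∑ j, f j * ZMod.stdAddChar (s * j)) * ZMod.stdAddChar (-(s * k)) := by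
  have h1 : ∀ s : ZMod e, (∑ j, f j * ZMod.stdAddChar (s * j)) * ZMod.stdAddChar (-(s * k))
      = ∑ j, f j * ZMod.stdAddChar (s * (j - k)) := by
    intro s
    rw [sum_mul]
    refine sum_congr rfl fun j _ => ?_
    rw [mul_assoc, ← AddChar.map_add_eq_mul, mul_sub, sub_eq_add_neg]
  simp_rw [h1]
  rw [sum_comm]
  simp_rw [← mul_sum]
  have h2 : ∀ j : ZMod e, ∑ s : ZMod e, (ZMod.stdAddChar (s * (j - k)) : ℂ)
      = if j = k then (e : ℂ) else 0 := by
    intro j
    rw [AddChar.sum_mulShift (j - k) (ZMod.isPrimitive_stdAddChar e)]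
    by_cases h : j = k
    · simp [h, ZMod.card]
    · simp [h, sub_ne_zero.mpr h]
  simp_rw [h2]
  simp [mul_comm]

theorem star_stdAddChar (j : ZMod e) : star (ZMod.stdAddChar j : ℂ) = ZMod.stdAddChar (-j) := by
  rw [ZMod.stdAddChar_apply, ZMod.stdAddChar_apply, AddChar.map_neg_eq_inv,
    Circle.coe_inv_eq_conj]
  rfl

/-- Fourier coefficient. -/
def hat (y : ZMod e → ℂ) (s : ZMod e) : ℂ := ∑ b, ZMod.stdAddChar (-(s * b)) * y b

theorem form_circulant (f : ZMod e → ℂ) (y : ZMod e → ℂ) :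
    (e : ℂ) * (star y ⬝ᵥ ((Matrix.of fun a b => f (b - a)) *ᵥ y))
      = ∑ s, (∑ j, f j * ZMod.stdAddChar (s * j)) * ((‖hat y s‖ ^ 2 : ℝ) : ℂ) := by
  have h0 : ∀ s, ((‖hat y s‖ ^ 2 : ℝ) : ℂ)
      = ∑ a, ∑ b, star (y a) * ZMod.stdAddChar (-(s * (b - a))) * y b := by
    intro s
    have e1 : ((‖hat y s‖ ^ 2 : ℝ) : ℂ) = star (hat y s) * hat y s := by
      rw [Complex.ofReal_pow, ← Complex.conj_mul' (hat y s)]; rfl
    rw [e1, hat, star_sum, sum_mul]
    refine sum_congr rfl fun a _ => ?_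
    rw [mul_sum]
    refine sum_congr rfl fun b _ => ?_
    rw [star_mul', star_stdAddChar]
    have e2 : (ZMod.stdAddChar (-(s * (b - a))) : ℂ)
        = ZMod.stdAddChar (-(-(s * a))) * ZMod.stdAddChar (-(s * b)) := by
      rw [← AddChar.map_add_eq_mul]; congr 1; ring
    rw [e2]; ring
  simp_rw [h0, mul_sum]
  rw [sum_comm]
  simp only [dotProduct, mulVec, of_apply, Pi.star_apply, mul_sum]
  refine sum_congr rfl fun a _ => ?_
  rw [sum_comm]
  refine sum_congr rfl fun b _ => ?_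
  have := inversion f (b - a)
  calc (e : ℂ) * (star (y a) * (f (b - a) * y b))
      = ((e : ℂ) * f (b - a)) * (star (y a) * y b) := by ring
    _ = _ := by
      rw [this, sum_mul]
      exact sum_congr rfl fun s _ => by ring

theorem hat_ne_zero {y : ZMod e → ℂ} (hy : y ≠ 0) : ∃ s, hat y s ≠ 0 := by
  by_contra h
  push Not at h
  apply hy
  funext k
  have h1 := inversion y (-k)
  have h2 : ∀ s, (∑ j, y j * ZMod.stdAddChar (s * j) : ℂ) = 0 := by
    intro s
    have := h (-s)
    rw [hat] at this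
    rw [← this]
    refine sum_congr rfl fun j _ => ?_
    rw [mul_comm]; congr 2; ring
  have h3 := inversion y k
  simp_rw [h2] at h3
  simp only [zero_mul, sum_const_zero, mul_eq_zero, Nat.cast_eq_zero] at h3
  rcases h3 with h3 | h3
  · exact absurd h3 (NeZero.ne e)
  · simpa using h3

/-- Criterion. -/
theorem posDef_of_eigen {f : ZMod e → ℂ} (hf : ∀ k, star (f k) = f (-k)) {l : ZMod e → ℝ}
    (hl : ∀ s, ∑ j, f j * ZMod.stdAddChar (s * j) = (l s : ℂ)) (hp : ∀ s, 0 < l s) :
    (Matrix.of fun a b => f (b - a) : Matrix (ZMod e) (ZMod e) ℂ).PosDef := by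
  refine PosDef.of_dotProduct_mulVec_pos ?_ ?_
  · ext a b
    rw [conjTranspose_apply, of_apply, of_apply, hf]
    congr 1; ring
  · intro y hy
    have h := form_circulant f y
    simp_rw [hl] at h
    have he : (0 : ℝ) < e := by exact_mod_cast Nat.pos_of_ne_zero (NeZero.ne e)
    obtain ⟨s0, hs0⟩ := hat_ne_zero hy
    have hpos : 0 < ∑ s, l s * ‖hat y s‖ ^ 2 := by
      refine sum_pos' (fun s _ => mul_nonneg (hp s).le (by positivity)) ⟨s0, mem_univ _, ?_⟩
      exact mul_pos (hp s0) (by positivity)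
    have h2 : star y ⬝ᵥ ((Matrix.of fun a b => f (b - a)) *ᵥ y)
        = (((∑ s, l s * ‖hat y s‖ ^ 2) / e : ℝ) : ℂ) := by
      have he' : (e : ℂ) ≠ 0 := by exact_mod_cast NeZero.ne e
      rw [Complex.ofReal_div, Complex.ofReal_natCast, eq_div_iff he', mul_comm, h]
      push_cast
      rfl
    rw [h2]
    exact_mod_cast div_pos hpos he

/-- geometric sum -/
theorem geom_sin (N : ℕ) (φ : ℝ) :
    (Real.sin φ : ℂ) * (Complex.exp (-(I * ((N : ℂ) - 1) * φ)) *
      ∑ w ∈ range N, Complex.exp (2 * I * w * φ)) = (Real.sin (N * φ) : ℂ) := by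
  have h1 : (Complex.exp (I * φ) - Complex.exp (-(I * φ))) *
      ∑ w ∈ range N, Complex.exp (2 * I * w * φ)
      = Complex.exp (I * (2 * (N : ℂ) - 1) * φ) - Complex.exp (-(I * φ)) := by
    induction N with
    | zero => simp
    | succ n ih =>
      rw [sum_range_succ, mul_add, ih, sub_mul, ← Complex.exp_add, ← Complex.exp_add]
      have a1 : I * (φ : ℂ) + 2 * I * n * φ = I * (2 * ((n + 1 : ℕ) : ℂ) - 1) * φ := by
        push_cast; ring
      have a2 : -(I * (φ : ℂ)) + 2 * I * n * φ = I * (2 * (n : ℂ) - 1) * φ := by ring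
      rw [a1, a2]; ring
  have h2 : (Real.sin φ : ℂ) = (Complex.exp (I * φ) - Complex.exp (-(I * φ))) / (2 * I) := by
    rw [Complex.ofReal_sin, Complex.sin]
    have : (Complex.exp (-φ * I) - Complex.exp (φ * I)) * I / 2
        = (Complex.exp (φ * I) - Complex.exp (-φ * I)) / (2 * I) := by
      field_simp
      rw [I_sq]; ring
    rw [this]
    congr 2
    · rw [mul_comm]
    · congr 1; ring
  have h3 : (Real.sin (N * φ) : ℂ)
      = (Complex.exp (I * (N * φ)) - Complex.exp (-(I * (N * φ)))) / (2 * I) := by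
    rw [Complex.ofReal_sin, Complex.sin]
    push_cast
    have : (Complex.exp (-(N * φ) * I) - Complex.exp (N * φ * I)) * I / 2
        = (Complex.exp (N * φ * I) - Complex.exp (-(N * φ) * I)) / (2 * I) := by
      field_simp
      rw [I_sq]; ring
    rw [this]
    congr 2
    · congr 1; ring
    · congr 1; ring
  rw [h2, h3]
  have h4 : (Complex.exp (I * φ) - Complex.exp (-(I * φ))) / (2 * I) *
      (Complex.exp (-(I * ((N : ℂ) - 1) * φ)) * ∑ w ∈ range N, Complex.exp (2 * I * w * φ))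
      = (Complex.exp (-(I * ((N : ℂ) - 1) * φ)) * ((Complex.exp (I * φ) - Complex.exp (-(I * φ))) *
      ∑ w ∈ range N, Complex.exp (2 * I * w * φ))) / (2 * I) := by ring
  rw [h4, h1, mul_sub, ← Complex.exp_add, ← Complex.exp_add]
  congr 3
  · ring
  · ring

theorem stdAddChar_nat (s : ZMod e) (w : ℕ) :
    (ZMod.stdAddChar (s * (w : ZMod e)) : ℂ)
      = Complex.exp (2 * I * w * (Real.pi * (s.val : ℝ) / e : ℝ)) := by
  have h : s * (w : ZMod e) = ((s.val * w : ℤ) : ZMod e) := by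
    push_cast
    rw [ZMod.natCast_zmod_val]
  rw [h, ZMod.stdAddChar_coe]
  congr 1
  push_cast
  ring

theorem sum_char (s : ZMod e) :
    ∑ k : ZMod e, (ZMod.stdAddChar (s * k) : ℂ) = if s = 0 then (e : ℂ) else 0 := by
  have h := AddChar.sum_mulShift s (ZMod.isPrimitive_stdAddChar e)
  have h2 : ∑ k : ZMod e, (ZMod.stdAddChar (s * k) : ℂ) = ∑ k, (ZMod.stdAddChar (k * s) : ℂ) :=
    sum_congr rfl fun k _ => by rw [mul_comm]
  rw [h2, h]
  by_cases hs : s = 0
  · simp [hs, ZMod.card]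
  · simp [hs]

theorem lam_eq (N : ℕ) (c θ : ℝ) (s : ZMod e) :
    ∑ k, fN e N c θ k * ZMod.stdAddChar (s * k)
      = Complex.exp (-(I * ((N : ℂ) - 1) * θ / 2)) * ∑ w ∈ range N,
        Complex.exp (I * w * θ) * (ZMod.stdAddChar (s * (w : ZMod e)) + c * if s = 0 then (e : ℂ) else 0) := by
  simp only [fN, mul_assoc, sum_mul]
  rw [← mul_sum, sum_comm]
  congr 1
  refine sum_congr rfl fun w _ => ?_
  rw [← mul_sum]
  congr 1
  simp only [add_mul, sum_add_distrib, ← mul_sum]
  rw [sum_char]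
  congr 1
  simp

theorem lam_sin {N M : ℕ} (hM : N = e * M + 1) (c θ : ℝ) (s : ZMod e) :
    (Real.sin (θ / 2 + Real.pi * s.val / e) : ℂ) *
      ∑ k, fN e N c θ k * ZMod.stdAddChar (s * k)
      = (((1 + if s = 0 then c * e else 0) * ((-1) ^ (M * s.val) *
        Real.sin (N * (θ / 2 + Real.pi * s.val / e))) : ℝ) : ℂ) := by
  have he : (e : ℂ) ≠ 0 := by exact_mod_cast NeZero.ne e
  rw [lam_eq]
  set φ : ℝ := θ / 2 + Real.pi * s.val / e with hφ
  have hg := geom_sin N φ
  have hE : Complex.exp (-(I * ((N : ℂ) - 1) * θ / 2))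
      = Complex.exp (-(I * ((N : ℂ) - 1) * φ)) * (-1) ^ (M * s.val) := by
    have h1 : (-1 : ℂ) ^ (M * s.val) = Complex.exp ((M * s.val : ℕ) * (Real.pi * I)) := by
      rw [Complex.exp_nat_mul, Complex.exp_pi_mul_I]
    rw [h1, ← Complex.exp_add]
    congr 1
    rw [hφ, hM]
    push_cast
    field_simp
    ring
  have hS : ∑ w ∈ range N, Complex.exp (I * w * θ) *
      ((ZMod.stdAddChar (s * (w : ZMod e)) : ℂ) + c * if s = 0 then (e : ℂ) else 0)
      = ((1 + if s = 0 then c * e else 0 : ℝ) : ℂ) *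
        ∑ w ∈ range N, Complex.exp (2 * I * w * φ) := by
    rw [mul_sum]
    refine sum_congr rfl fun w _ => ?_
    have h2 : Complex.exp (2 * I * w * φ)
        = Complex.exp (I * w * θ) * ZMod.stdAddChar (s * (w : ZMod e)) := by
      rw [stdAddChar_nat, ← Complex.exp_add]
      congr 1
      rw [hφ]
      push_cast
      ring
    by_cases hs : s = 0
    · subst hs
      simp only [if_true, h2]
      simp
      ring
    · simp only [hs, if_false, h2]
      simp
  rw [hE, hS]
  calc (Real.sin φ : ℂ) * (Complex.exp (-(I * ((N : ℂ) - 1) * φ)) * (-1) ^ (M * s.val) *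
        (((1 + if s = 0 then c * e else 0 : ℝ) : ℂ) * ∑ w ∈ range N, Complex.exp (2 * I * w * φ)))
      = ((1 + if s = 0 then c * e else 0 : ℝ) : ℂ) * ((-1) ^ (M * s.val) *
        ((Real.sin φ : ℂ) * (Complex.exp (-(I * ((N : ℂ) - 1) * φ)) *
          ∑ w ∈ range N, Complex.exp (2 * I * w * φ)))) := by ring
    _ = _ := by
      rw [hg]
      push_cast
      rfl

omit [NeZero e] in
theorem fN_star {N M : ℕ} (hM : N = e * M + 1) (c θ : ℝ) (k : ZMod e) :
    star (fN e N c θ k) = fN e N c θ (-k) := by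
  have hN1 : 1 ≤ N := by omega
  have hNe : ((N - 1 : ℕ) : ZMod e) = 0 := by
    rw [hM]; simp
  simp only [fN, star_mul', star_sum, Complex.star_def, ← Complex.exp_conj]
  rw [← sum_range_reflect (fun w => Complex.exp (I * w * θ) *
    ((if (w : ZMod e) = -k then 1 else 0) + (c : ℂ))) N, mul_sum, mul_sum]
  refine sum_congr rfl fun w hw => ?_
  have hw' : w < N := mem_range.mp hw
  have e1 : (((N - 1 - w : ℕ) : ZMod e) = -k) ↔ ((w : ZMod e) = k) := by
    have : ((N - 1 - w : ℕ) : ZMod e) = - (w : ZMod e) := by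
      rw [Nat.cast_sub (by omega), hNe, zero_sub]
    rw [this, neg_inj]
  have e2 : ((N - 1 - w : ℕ) : ℂ) = (N : ℂ) - 1 - w := by
    rw [Nat.cast_sub (by omega), Nat.cast_sub hN1]; simp
  simp only [e1, e2]
  rw [← mul_assoc, ← mul_assoc, ← Complex.exp_add, ← Complex.exp_add]
  congr 1
  · congr 1
    simp only [map_neg, map_mul, map_div₀, map_sub, conj_I, map_natCast, map_one, conj_ofReal,
      map_ofNat]
    ring
  · by_cases h : (w : ZMod e) = k <;> simp [h]

omit [NeZero e] in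
theorem HN_isHermitian {N M : ℕ} (hM : N = e * M + 1) (c θ : ℝ) : (HN e N c θ).IsHermitian := by
  ext a b
  rw [conjTranspose_apply, HN, of_apply, of_apply, fN_star hM]
  congr 1; ring

/-- The point `theta_0`. -/
def th0 (e N : ℕ) : ℝ := 2 * Real.pi * (1 + 1 / (2 * e)) / N

theorem lam_zero_ne {N M : ℕ} (hM : N = e * M + 1) (c : ℝ) {s : ZMod e} (hs : s ≠ 0) :
    ∑ k, fN e N c 0 k * ZMod.stdAddChar (s * k) = ((1 : ℝ) : ℂ) := by
  have h := lam_sin hM c 0 s
  have he : (0 : ℝ) < e := by exact_mod_cast Nat.pos_of_ne_zero (NeZero.ne e)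
  have hv : 0 < s.val := Nat.pos_of_ne_zero (by rwa [Ne, ZMod.val_eq_zero])
  have hv2 : s.val < e := ZMod.val_lt s
  have hv' : (0 : ℝ) < s.val := by exact_mod_cast hv
  have hv2' : (s.val : ℝ) < e := by exact_mod_cast hv2
  have hsin : 0 < Real.sin (0 / 2 + Real.pi * s.val / e) := by
    rw [zero_div, zero_add]
    apply Real.sin_pos_of_pos_of_lt_pi
    · positivity
    · rw [div_lt_iff₀ he]
      exact mul_lt_mul_of_pos_left hv2' Real.pi_pos
  have hN : (N : ℝ) * (0 / 2 + Real.pi * s.val / e)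
      = Real.pi * s.val / e + ((M * s.val : ℕ) : ℝ) * Real.pi := by
    rw [hM]; push_cast; field_simp; ring
  rw [hN, Real.sin_add_nat_mul_pi] at h
  simp only [hs, if_false, add_zero, one_mul] at h
  have h2 : (-1 : ℝ) ^ (M * s.val) * ((-1) ^ (M * s.val) * Real.sin (Real.pi * s.val / e))
      = Real.sin (0 / 2 + Real.pi * s.val / e) := by
    rw [← mul_assoc, ← mul_pow]; simp
  rw [h2] at h
  have hne : (Real.sin (0 / 2 + Real.pi * s.val / e) : ℂ) ≠ 0 := by
    exact_mod_cast hsin.ne'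
  have : (Real.sin (0 / 2 + Real.pi * s.val / e) : ℂ) *
      ∑ k, fN e N c 0 k * ZMod.stdAddChar (s * k)
      = (Real.sin (0 / 2 + Real.pi * s.val / e) : ℂ) * ((1 : ℝ) : ℂ) := by
    rw [h]; simp
  exact mul_left_cancel₀ hne this

theorem HN_posDef {N M : ℕ} (hM : N = e * M + 1) {c : ℝ} (hc : 0 ≤ c) :
    (HN e N c 0).PosDef := by
  have hN : (0 : ℝ) < N := by
    have : 0 < N := by omega
    exact_mod_cast this
  refine posDef_of_eigen (f := fN e N c 0) (l := fun s => if s = 0 then (1 + c * e) * N else 1)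
    (fN_star hM c 0) ?_ ?_
  · intro s
    by_cases hs : s = 0
    · subst hs
      rw [lam_eq]
      simp
      ring
    · rw [lam_zero_ne hM c hs]
      simp [hs]
  · intro s
    by_cases hs : s = 0
    · simp only [hs, if_true]
      positivity
    · simp [hs]

theorem lam_th0 {N M : ℕ} (hM : N = e * M + 1) (hM1 : 1 ≤ M) (c : ℝ) (s : ZMod e) :
    ∃ r : ℝ, 0 < r ∧ ∑ k, fN e N c (th0 e N) k * ZMod.stdAddChar (s * k)
      = ((-((1 + if s = 0 then c * e else 0) * r) : ℝ) : ℂ) := by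
  have h := lam_sin hM c (th0 e N) s
  have he : (0 : ℝ) < e := by exact_mod_cast Nat.pos_of_ne_zero (NeZero.ne e)
  have hv2 : s.val < e := ZMod.val_lt s
  have hv2' : (s.val : ℝ) + 1 ≤ e := by exact_mod_cast hv2
  have hv0 : (0 : ℝ) ≤ s.val := by positivity
  have hNe : (e : ℝ) + 1 ≤ N := by
    have : e + 1 ≤ N := by
      rw [hM]
      have := Nat.le_mul_of_pos_right e hM1
      omega
    exact_mod_cast this
  have hN : (0 : ℝ) < N := by linarith
  have hpi := Real.pi_pos
  set β : ℝ := Real.pi * (2 * s.val + 1) / (2 * e) with hβ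
  have hβ0 : 0 < β := by positivity
  have hβ1 : β < Real.pi := by
    rw [hβ, div_lt_iff₀ (by positivity)]
    apply mul_lt_mul_of_pos_left _ hpi
    linarith
  have hsβ : 0 < Real.sin β := Real.sin_pos_of_pos_of_lt_pi hβ0 hβ1
  have hφ0 : 0 < th0 e N / 2 + Real.pi * s.val / e := by
    unfold th0; positivity
  have hφ1 : th0 e N / 2 + Real.pi * s.val / e < Real.pi := by
    have h1 : th0 e N / 2 < Real.pi / e := by
      unfold th0
      rw [div_div, div_lt_div_iff₀ (by positivity) he]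
      have : 2 * Real.pi * (1 + 1 / (2 * (e : ℝ))) * e = 2 * Real.pi * e + Real.pi := by
        field_simp
      rw [this]
      nlinarith
    have h2 : Real.pi / e + Real.pi * s.val / e ≤ Real.pi := by
      rw [← add_div, div_le_iff₀ he]
      nlinarith
    linarith
  have hsφ : 0 < Real.sin (th0 e N / 2 + Real.pi * s.val / e) :=
    Real.sin_pos_of_pos_of_lt_pi hφ0 hφ1
  have hNφ : (N : ℝ) * (th0 e N / 2 + Real.pi * s.val / e)
      = (β + Real.pi) + ((M * s.val : ℕ) : ℝ) * Real.pi := by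
    unfold th0
    have hN' : (N : ℝ) ≠ 0 := hN.ne'
    have e1 : (N : ℝ) * (2 * Real.pi * (1 + 1 / (2 * e)) / N / 2 + Real.pi * s.val / e)
        = Real.pi * (1 + 1 / (2 * e)) + Real.pi * s.val * N / e := by
      field_simp
    rw [e1, hβ]
    have e2 : (N : ℝ) = e * M + 1 := by rw [hM]; push_cast; ring
    rw [e2]
    push_cast
    field_simp
    ring
  rw [hNφ, Real.sin_add_nat_mul_pi, Real.sin_add_pi] at h
  have h2 : (-1 : ℝ) ^ (M * s.val) * ((-1) ^ (M * s.val) * -Real.sin β) = - Real.sin β := by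
    rw [← mul_assoc, ← mul_pow]; simp
  rw [h2] at h
  refine ⟨Real.sin β / Real.sin (th0 e N / 2 + Real.pi * s.val / e), div_pos hsβ hsφ, ?_⟩
  have hne : (Real.sin (th0 e N / 2 + Real.pi * s.val / e) : ℂ) ≠ 0 := by
    exact_mod_cast hsφ.ne'
  apply mul_left_cancel₀ hne
  rw [h, ← Complex.ofReal_mul]
  congr 1
  generalize Real.sin (th0 e N / 2 + Real.pi * s.val / e) = x at hsφ
  field_simp

theorem HN_negDef {N M : ℕ} (hM : N = e * M + 1) (hM1 : 1 ≤ M) {c : ℝ} (hc : 0 ≤ c) :
    (-(HN e N c (th0 e N))).PosDef := by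
  choose r hr hl using lam_th0 hM hM1 c
  have h1 : -(HN e N c (th0 e N))
      = (Matrix.of fun a b => (fun k => -(fN e N c (th0 e N) k)) (b - a) :
        Matrix (ZMod e) (ZMod e) ℂ) := by
    ext a b
    rfl
  rw [h1]
  refine posDef_of_eigen (f := fun k => -(fN e N c (th0 e N) k))
    (l := fun s => (1 + if s = 0 then c * e else 0) * r s) ?_ ?_ ?_
  · intro k
    rw [star_neg, fN_star hM]
  · intro s
    simp only [neg_mul, sum_neg_distrib]
    rw [hl s]
    push_cast
    ring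
  · intro s
    refine mul_pos ?_ (hr s)
    by_cases hs : s = 0
    · simp only [hs, if_true]; positivity
    · simp [hs]

omit [NeZero e] in
theorem HN_continuous (N : ℕ) (c : ℝ) (a b : ZMod e) : Continuous fun θ => HN e N c θ a b := by
  simp only [HN, of_apply, fN]
  fun_prop

end

end Vale.Agent.P179.H737
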