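import Vale.Agent.P179.H737.RSig2

/-!
Assembly of the signature argument: from the identities (A1)-(A4) to `e ≤ l`.
-/

namespace Vale.P179.H737.R

open Matrix Vale.P179.H904
open scoped ComplexOrder

section asm

variable {ι κ : Type*} [Fintype ι] [Fintype κ] [DecidableEq ι] [DecidableEq κ]

/-- Left cancellation of a matrix with nonzero determinant. -/
theorem left_cancel {m : Type*} {C : Matrix κ κ RQ} (h : C.det ≠ 0) {X Y : Matrix κ m RQ}
    (hXY : C * X = C * Y) : X = Y := by
  have h0 : C * (X - Y) = 0 := by rw [Matrix.mul_sub, hXY, sub_self]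
  have h1 : C.adjugate * (C * (X - Y)) = 0 := by rw [h0]; simp
  rw [← Matrix.mul_assoc, Matrix.adjugate_mul, Matrix.smul_mul, Matrix.one_mul] at h1
  refine Matrix.ext fun i j => ?_
  have h2 := congrFun (congrFun h1 i) j
  simp only [Matrix.smul_apply, smul_eq_mul, Matrix.zero_apply, Matrix.sub_apply] at h2
  exact sub_eq_zero.mp ((mul_eq_zero.mp h2).resolve_left h)

/-- Right cancellation of a matrix with nonzero determinant. -/
theorem right_cancel {m : Type*} {C : Matrix κ κ RQ} (h : C.det ≠ 0) {X Y : Matrix m κ RQ}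
    (hXY : X * C = Y * C) : X = Y := by
  have h0 : (X - Y) * C = 0 := by rw [Matrix.sub_mul, hXY, sub_self]
  have h1 : ((X - Y) * C) * C.adjugate = 0 := by rw [h0]; simp
  rw [Matrix.mul_assoc, Matrix.mul_adjugate, Matrix.mul_smul, Matrix.mul_one] at h1
  refine Matrix.ext fun i j => ?_
  have h2 := congrFun (congrFun h1 i) j
  simp only [Matrix.smul_apply, smul_eq_mul, Matrix.zero_apply, Matrix.sub_apply] at h2
  exact sub_eq_zero.mp ((mul_eq_zero.mp h2).resolve_left h)

theorem ct_injective {m n : Type*} : Function.Injective (ct : Matrix m n RQ → Matrix n m RQ) :=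
  fun A B h => by rw [← ct_ct A, h, ct_ct]

/-- **(ASM)**: the three identities and the two twists give the inequality. -/
theorem asm {N : ℚ} {CH W : Matrix κ κ RQ} {CB z : Matrix ι ι RQ} {y u : Matrix κ ι RQ}
    (A4H : ct CH = tq (-N) • CH) (A4B : ct CB = tq (-N) • CB)
    (A1 : CH * u = y * CB) (A2 : y * ct u = 1 + CH * W) (A3 : ct u * y = 1 + CB * z)
    (hpos : (ev 0 CH).PosDef) (θ₀ : ℝ) (hneg : (-(ev θ₀ (tq (-N / 2) • CH))).PosDef) :
    Fintype.card κ ≤ Fintype.card ι := by
  have hdet : CH.det ≠ 0 := by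
    intro h
    have h1 := hpos.det_pos
    rw [ev_det, h, map_zero] at h1
    exact lt_irrefl _ h1
  -- (i2)
  have i2 : CB * ct y = ct u * CH := by
    have h1 := congrArg ct A1
    rw [ct_mul, ct_mul, A4H, A4B, Matrix.smul_mul, Matrix.mul_smul] at h1
    have h2 := congrArg (fun M => tq N • M) h1
    simp only [smul_smul, tq_mul, add_neg_cancel, tq_zero, one_smul] at h2
    exact h2.symm
  -- (i3)
  have i3 : u * ct y = 1 + W * CH := by
    apply left_cancel hdet
    rw [← Matrix.mul_assoc, A1, Matrix.mul_assoc, i2, ← Matrix.mul_assoc, A2]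
    rw [Matrix.add_mul, Matrix.mul_add, Matrix.one_mul, Matrix.mul_one, Matrix.mul_assoc]
  -- `CB` is nonsingular
  have hdetB : CB.det ≠ 0 := by
    intro h0
    obtain ⟨w, hw0, hw⟩ := Matrix.exists_vecMul_eq_zero_iff.mpr h0
    apply hw0
    have h1 : w ᵥ* (ct u * CH) = 0 := by
      rw [← i2, ← Matrix.vecMul_vecMul, hw, Matrix.zero_vecMul]
    have h2 : w ᵥ* ct u = 0 := by
      have h3 : (w ᵥ* (ct u * CH)) ᵥ* CH.adjugate = 0 := by rw [h1, Matrix.zero_vecMul]
      rw [Matrix.vecMul_vecMul, Matrix.mul_assoc, Matrix.mul_adjugate, Matrix.mul_smul,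
        Matrix.mul_one] at h3
      refine funext fun j => ?_
      have h4 := congrFun h3 j
      rw [Matrix.vecMul_smul] at h4
      simp only [Pi.smul_apply, smul_eq_mul, Pi.zero_apply] at h4
      exact (mul_eq_zero.mp h4).resolve_left hdet
    have h5 : w ᵥ* (ct u * y) = w := by
      rw [A3, Matrix.vecMul_add, Matrix.vecMul_one, ← Matrix.vecMul_vecMul, hw,
        Matrix.zero_vecMul, add_zero]
    rw [← Matrix.vecMul_vecMul, h2, Matrix.zero_vecMul] at h5
    exact h5.symm
  -- (i6)
  have i6 : ct y * u = 1 + z * CB := by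
    apply left_cancel hdetB
    rw [← Matrix.mul_assoc, i2, Matrix.mul_assoc, A1, ← Matrix.mul_assoc, A3]
    rw [Matrix.add_mul, Matrix.mul_add, Matrix.one_mul, Matrix.mul_one, Matrix.mul_assoc]
  exact sig_ineq A4H A4B A1.symm i2 i3 A2 A3 i6 hpos θ₀ hneg

end asm

end Vale.P179.H737.R
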