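import Vale.Agent.P179.H904.Asm
import Vale.Agent.P179.H737.RAsm

/-!
# REL: the numbers theorem with an extra circulant factor and rational coefficients
-/

namespace Vale.P179.H737.R

open Matrix
open scoped ComplexOrder
open Vale.Agent.P179.H737 (fN HN fN_star posDef_of_eigen lam_zero_ne lam_th0 th0 HN_posDef HN_negDef)

/-- integral to rational coefficients -/
noncomputable def emb : H904.ZQ →+* RQ := AddMonoidAlgebra.mapRingHom ℚ (Int.castRingHom ℚ)

@[simp] theorem emb_single (r : ℚ) (n : ℤ) :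
    emb (AddMonoidAlgebra.single r n) = AddMonoidAlgebra.single r (n : ℚ) := by
  simp [emb]

@[simp] theorem emb_tq (r : ℚ) : emb (H904.tq r) = tq r := by simp [H904.tq, tq]

theorem emb_barQ (f : H904.ZQ) : emb (H904.barQ f) = barQ (emb f) := by
  have : emb.comp H904.barQ = barQ.comp emb := by
    apply AddMonoidAlgebra.ringHom_ext <;> intro r <;> simp
  exact RingHom.congr_fun this f

theorem evq_emb (θ : ℝ) (f : H904.ZQ) : evq θ (emb f) = H904.evq θ f := by
  have : (evq θ).comp emb = H904.evq θ := by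
    apply AddMonoidAlgebra.ringHom_ext <;> intro r <;> simp [ph, H904.ph]
  exact RingHom.congr_fun this f

/-- `emb` on matrices -/
noncomputable def embM {m n : Type*} (A : Matrix m n H904.ZQ) : Matrix m n RQ := A.map emb

theorem embM_mul {m n l : Type*} [Fintype n] (A : Matrix m n H904.ZQ) (B : Matrix n l H904.ZQ) :
    embM (A * B) = embM A * embM B := by
  simp [embM, Matrix.map_mul]

theorem embM_ct {m n : Type*} (A : Matrix m n H904.ZQ) : embM (H904.ct A) = ct (embM A) := by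
  ext i j
  simp [embM, emb_barQ]

theorem embM_smul {m n : Type*} (c : H904.ZQ) (A : Matrix m n H904.ZQ) :
    embM (c • A) = emb c • embM A := by
  ext i j
  simp [embM]

theorem embM_one {n : Type*} [DecidableEq n] : embM (1 : Matrix n n H904.ZQ) = 1 := by
  simp [embM]

theorem ev_embM {m n : Type*} (θ : ℝ) (A : Matrix m n H904.ZQ) :
    ev θ (embM A) = H904.ev θ A := by
  ext i j
  simp [embM, ev, H904.ev, evq_emb]

section circ

variable {e : ℕ} [NeZero e]

/-- convolution -/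
noncomputable def conv (f g : ZMod e → ℂ) (k : ZMod e) : ℂ := ∑ j, f j * g (k - j)

theorem circ_mul (f g : ZMod e → ℂ) :
    (Matrix.of fun a b => f (b - a) : Matrix (ZMod e) (ZMod e) ℂ) *
      (Matrix.of fun a b => g (b - a)) = Matrix.of fun a b => conv f g (b - a) := by
  ext a b
  simp only [mul_apply, of_apply, conv]
  refine Fintype.sum_equiv (Equiv.subRight a) _ _ fun c => ?_
  simp only [Equiv.subRight_apply]
  congr 2
  ring

theorem conv_eigen (f g : ZMod e → ℂ) (s : ZMod e) :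
    ∑ k, conv f g k * (ZMod.stdAddChar (s * k) : ℂ) =
      (∑ k, f k * (ZMod.stdAddChar (s * k) : ℂ)) * ∑ k, g k * (ZMod.stdAddChar (s * k) : ℂ) := by
  rw [Finset.sum_mul]
  simp only [conv, Finset.sum_mul]
  rw [Finset.sum_comm]
  refine Finset.sum_congr rfl fun j _ => ?_
  rw [Finset.mul_sum]
  refine Fintype.sum_equiv (Equiv.subRight j) _ _ fun k => ?_
  simp only [Equiv.subRight_apply]
  have : (ZMod.stdAddChar (s * k) : ℂ) = ZMod.stdAddChar (s * j) * ZMod.stdAddChar (s * (k - j)) := by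
    rw [← AddChar.map_add_eq_mul]
    congr 1
    ring
  rw [this]
  ring

theorem conv_star {f g : ZMod e → ℂ} (hf : ∀ k, star (f k) = f (-k))
    (hg : ∀ k, star (g k) = g (-k)) (k : ZMod e) : star (conv f g k) = conv f g (-k) := by
  rw [conv, star_sum]
  refine Fintype.sum_equiv (Equiv.neg _) _ _ fun j => ?_
  rw [star_mul', hf, hg]
  simp only [Equiv.neg_apply]
  congr 2
  ring

/-- A product of two circulant matrices with positive eigenvalues. -/
theorem posDef_circ_mul {f g : ZMod e → ℂ} (hf : ∀ k, star (f k) = f (-k))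
    (hg : ∀ k, star (g k) = g (-k)) {l m : ZMod e → ℝ}
    (hl : ∀ s, ∑ j, f j * ZMod.stdAddChar (s * j) = (l s : ℂ)) (hlp : ∀ s, 0 < l s)
    (hm : ∀ s, ∑ j, g j * ZMod.stdAddChar (s * j) = (m s : ℂ)) (hmp : ∀ s, 0 < m s) :
    ((Matrix.of fun a b => f (b - a) : Matrix (ZMod e) (ZMod e) ℂ) *
      (Matrix.of fun a b => g (b - a))).PosDef := by
  rw [circ_mul]
  refine posDef_of_eigen (conv_star hf hg) (l := fun s => l s * m s) ?_ fun s => mul_pos (hlp s) (hmp s)
  intro s
  rw [conv_eigen, hl, hm]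
  push_cast
  rfl

end circ

section model

variable {e : ℕ} [NeZero e]

/-- the circulant of the multiplicities `P` -/
noncomputable def Pm (P : ZMod e → ℕ) : Matrix (ZMod e) (ZMod e) RQ :=
  Matrix.of fun a b => AddMonoidAlgebra.single (0 : ℚ) ((P (b - a) : ℕ) : ℚ)

/-- positivity of the eigenvalues of `P` -/
def PEig (P : ZMod e → ℕ) : Prop :=
  (∀ c, P (-c) = P c) ∧
    ∀ s : ZMod e, ∃ m : ℝ, 0 < m ∧ ∑ j, (P j : ℂ) * (ZMod.stdAddChar (s * j) : ℂ) = (m : ℂ)

/-- The graded Cartan matrix of the relative model. -/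
noncomputable def CHr (N c : ℕ) (P : ZMod e → ℕ) : Matrix (ZMod e) (ZMod e) RQ :=
  embM (H904.CHz e N c) * Pm P

omit [NeZero e] in
theorem ct_Pm {P : ZMod e → ℕ} (hP : ∀ c, P (-c) = P c) : ct (Pm P) = Pm P := by
  ext1 a b
  rw [ct_apply, Pm, of_apply, of_apply, barQ_single, neg_zero]
  congr 2
  rw [← hP, neg_sub]

theorem CHz_comm (N c : ℕ) (P : ZMod e → ℕ) :
    Pm P * embM (H904.CHz e N c) = embM (H904.CHz e N c) * Pm P := by
  ext1 a b
  rw [mul_apply, mul_apply]
  refine Fintype.sum_equiv (Equiv.subLeft (a + b)) _ _ fun d => ?_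
  rw [mul_comm]
  have h1 : b - (a + b - d) = d - a := by ring
  have h2 : a + b - d - a = b - d := by ring
  simp only [Equiv.subLeft_apply, Pm, of_apply, embM, map_apply, H904.CHz_apply, h1, h2]

theorem ct_CHr {N M : ℕ} (hM : N = e * M + 1) (c : ℕ) {P : ZMod e → ℕ}
    (hP : ∀ c, P (-c) = P c) :
    ct (CHr N c P) = tq (-((N : ℚ) - 1)) • CHr N c P := by
  rw [CHr, ct_mul, ct_Pm hP, ← embM_ct, H904.ct_CHz hM c, embM_smul, emb_tq, Matrix.mul_smul,
    CHz_comm]

omit [NeZero e] in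
theorem ev_Pm (P : ZMod e → ℕ) (θ : ℝ) :
    ev θ (Pm P) = Matrix.of fun a b => ((P (b - a) : ℕ) : ℂ) := by
  ext a b
  simp [Pm, ev]

theorem ev_CHr (N c : ℕ) (P : ZMod e → ℕ) (θ : ℝ) :
    ev θ (tq (-((N : ℚ) - 1) / 2) • CHr N c P) =
      HN e N c θ * Matrix.of fun a b => ((P (b - a) : ℕ) : ℂ) := by
  rw [CHr, ← Matrix.smul_mul, ev_mul, ev_Pm, ← emb_tq, ← embM_smul, ev_embM, H904.ev_CHz]

theorem posDef_CHr {N M : ℕ} (hM : N = e * M + 1) (c : ℕ) {P : ZMod e → ℕ} (hP : PEig P) :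
    (ev 0 (CHr N c P)).PosDef := by
  choose m hm0 hm using hP.2
  have h1 : ev 0 (tq (-((N : ℚ) - 1) / 2) • CHr N c P) = ev 0 (CHr N c P) := by
    rw [ev_smul]
    simp
  rw [← h1, ev_CHr]
  have hstar : ∀ k, star ((P k : ℕ) : ℂ) = ((P (-k) : ℕ) : ℂ) := by
    intro k
    rw [hP.1, star_natCast]
  have hN : (0 : ℝ) < N := by
    have : 0 < N := by omega
    exact_mod_cast this
  refine posDef_circ_mul (f := fN e N c 0) (g := fun k => ((P k : ℕ) : ℂ)) (fN_star hM c 0) hstar
    (l := fun s => if s = 0 then (1 + (c : ℝ) * e) * N else 1) ?_ ?_ hm hm0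
  · intro s
    by_cases hs : s = 0
    · subst hs
      rw [Vale.Agent.P179.H737.lam_eq]
      simp
      ring
    · rw [lam_zero_ne hM c hs]
      simp [hs]
  · intro s
    by_cases hs : s = 0
    · simp only [hs, if_true]
      positivity
    · simp [hs]

theorem negDef_CHr {N M : ℕ} (hM : N = e * M + 1) (hM1 : 1 ≤ M) (c : ℕ) {P : ZMod e → ℕ}
    (hP : PEig P) : (-(ev (th0 e N) (tq (-((N : ℚ) - 1) / 2) • CHr N c P))).PosDef := by
  choose m hm0 hm using hP.2
  rw [ev_CHr]
  have hstar : ∀ k, star ((P k : ℕ) : ℂ) = ((P (-k) : ℕ) : ℂ) := by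
    intro k
    rw [hP.1, star_natCast]
  choose r hr hl using lam_th0 (e := e) hM hM1 (c : ℝ)
  have h1 : -(HN e N c (th0 e N) * (Matrix.of fun a b => ((P (b - a) : ℕ) : ℂ)))
      = (Matrix.of fun a b => (fun k => -(fN e N c (th0 e N) k)) (b - a) :
        Matrix (ZMod e) (ZMod e) ℂ) * (Matrix.of fun a b => ((P (b - a) : ℕ) : ℂ)) := by
    rw [← Matrix.neg_mul]
    rfl
  rw [h1]
  refine posDef_circ_mul (f := fun k => -(fN e N c (th0 e N) k)) (g := fun k => ((P k : ℕ) : ℂ))
    (fun k => ?_) hstar (l := fun s => (1 + if s = 0 then (c : ℝ) * e else 0) * r s) ?_ ?_ hm hm0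
  · rw [star_neg, fN_star hM]
  · intro s
    simp only [neg_mul, Finset.sum_neg_distrib]
    rw [hl s]
    push_cast
    ring
  · intro s
    refine mul_pos ?_ (hr s)
    by_cases hs : s = 0
    · simp only [hs, if_true]; positivity
    · simp [hs]

/-- **REL, final numbers theorem**: `e ≤ l` from the identities over `ℚ[q^ℚ]`, the graded Cartan
matrix of the model being `CHz * P` (`P` = the `T`-characters of `k D₂`). -/
theorem e_le_card_rel {ι : Type*} [Fintype ι] [DecidableEq ι] {N M c : ℕ}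
    (hM : N = e * M + 1) (hM1 : 1 ≤ M) {P : ZMod e → ℕ} (hP : PEig P)
    {W : Matrix (ZMod e) (ZMod e) RQ}
    {CB z : Matrix ι ι RQ} {y u : Matrix (ZMod e) ι RQ}
    (A4B : ct CB = tq (-((N : ℚ) - 1)) • CB)
    (A1 : CHr N c P * u = y * CB) (A2 : y * ct u = 1 + CHr N c P * W)
    (A3 : ct u * y = 1 + CB * z) : e ≤ Fintype.card ι := by
  have := asm (ct_CHr hM c hP.1) A4B A1 A2 A3 (posDef_CHr hM c hP) (th0 e N)
    (negDef_CHr hM hM1 c hP)
  simpa [ZMod.card] using this

end model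

end Vale.P179.H737.R
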