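import Vale.Agent.P179.H737.RNum

/-!
# REL: positivity of the eigenvalues of a permutation module of a cyclic group
-/

namespace Vale.P179.H737.R

open Finset

variable {e : ℕ} [NeZero e]

open scoped Classical in
/-- the sum of `s`-th character over a subgroup is real and nonnegative -/
theorem sum_subgroup (K : AddSubgroup (ZMod e)) (s : ZMod e) :
    ∃ m : ℝ, 0 ≤ m ∧ (K = ⊥ → m = 1) ∧
      ∑ c : ZMod e, (if c ∈ K then 1 else 0) * (ZMod.stdAddChar (s * c) : ℂ) = (m : ℂ) := by
  let ψ : AddChar K ℂ :=
    ((ZMod.stdAddChar (N := e)).compAddMonoidHom (AddMonoidHom.mulLeft s)).compAddMonoidHom K.subtype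
  have h1 : ∑ c : ZMod e, (if c ∈ K then (1 : ℂ) else 0) * (ZMod.stdAddChar (s * c) : ℂ) =
      ∑ a : K, ψ a := by
    have : ∀ c : ZMod e, (if c ∈ K then (1 : ℂ) else 0) * (ZMod.stdAddChar (s * c) : ℂ) =
        if c ∈ K then (ZMod.stdAddChar (s * c) : ℂ) else 0 := by
      intro c
      split_ifs <;> simp
    simp only [this]
    rw [← Finset.sum_filter]
    exact Finset.sum_subtype _ (fun c => by simp) _
  by_cases hψ : ψ = 0
  · refine ⟨(Fintype.card K : ℝ), by positivity, ?_, ?_⟩
    · intro hK
      subst hK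
      simp
    · rw [h1, AddChar.sum_eq_ite, if_pos hψ]
      push_cast
      rfl
  · refine ⟨0, le_refl _, ?_, ?_⟩
    · intro hK
      exfalso
      apply hψ
      subst hK
      ext a
      have : a = 0 := Subsingleton.elim _ _
      rw [this, AddChar.map_zero_eq_one]
      rfl
    · rw [h1, AddChar.sum_eq_ite, if_neg hψ]
      simp

/-- `PEig` for a function counting subgroups. -/
theorem PEig_of_subgroups {O : Type*} [Fintype O] (K : O → AddSubgroup (ZMod e)) (o : O)
    (ho : K o = ⊥) (P : ZMod e → ℕ) (hP : ∀ c, P c = Nat.card {i // c ∈ K i}) : PEig P := by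
  classical
  have hP' : ∀ c, P c = ∑ i, if c ∈ K i then 1 else 0 := by
    intro c
    rw [hP, Nat.card_eq_fintype_card, Fintype.card_subtype, Finset.card_filter]
  refine ⟨fun c => ?_, fun s => ?_⟩
  · rw [hP', hP']
    simp only [neg_mem_iff]
  · choose m hm0 hm1 hm using fun i => sum_subgroup (K i) s
    refine ⟨∑ i, m i, ?_, ?_⟩
    · refine Finset.sum_pos' (fun i _ => hm0 i) ⟨o, Finset.mem_univ _, ?_⟩
      rw [hm1 o ho]
      exact one_pos
    · push_cast
      simp only [← hm, hP']
      rw [Finset.sum_comm]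
      refine Finset.sum_congr rfl fun c _ => ?_
      push_cast
      rw [Finset.sum_mul]

/-- `PEig` for the multiplicities of the characters in a permutation module of a cyclic group of
order `e`: `P c` is the number of orbits `O` with `|O| c = 0`. -/
theorem PEig_orbits {X : Type*} [Finite X] (σ : Equiv.Perm X) (x : X) (hx : σ x = x)
    (P : ZMod e → ℕ)
    (hP : ∀ c : ZMod e, P c = Nat.card {O : Quotient (Equiv.Perm.SameCycle.setoid σ) //
      ((Nat.card {y // Quotient.mk (Equiv.Perm.SameCycle.setoid σ) y = O} : ℕ) : ZMod e) * c = 0}) :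
    PEig P := by
  classical
  have : Fintype X := Fintype.ofFinite X
  have : Fintype (Quotient (Equiv.Perm.SameCycle.setoid σ)) := Fintype.ofFinite _
  refine PEig_of_subgroups (fun O => (AddMonoidHom.mulLeft
    ((Nat.card {y // Quotient.mk (Equiv.Perm.SameCycle.setoid σ) y = O} : ℕ) : ZMod e)).ker)
    (Quotient.mk _ x) ?_ P (fun c => ?_)
  · have h1 : Nat.card {y // Quotient.mk (Equiv.Perm.SameCycle.setoid σ) y = Quotient.mk _ x} = 1 := by
      rw [Nat.card_eq_one_iff_unique]
      refine ⟨⟨fun a b => ?_⟩, ⟨⟨x, rfl⟩⟩⟩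
      have key : ∀ y, Quotient.mk (Equiv.Perm.SameCycle.setoid σ) y = Quotient.mk _ x → y = x := by
        intro y hy
        have h2 : σ.SameCycle y x := Quotient.exact hy
        obtain ⟨i, hi⟩ := h2.symm
        have h3 : (σ ^ i) x = x := Equiv.Perm.zpow_apply_eq_self_of_apply_eq_self hx i
        rw [← hi, h3]
      exact Subtype.ext ((key _ a.2).trans (key _ b.2).symm)
    rw [h1]
    ext c
    simp
  · rw [hP]
    rfl

end Vale.P179.H737.R
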