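import Vale.Agent.P179.H190.KD4
import Vale.Agent.P179.H737.RPEig

/-!
# REL: eigenspaces of an automorphism on a permutation module and orbits
-/

namespace Vale.P179.H737.R

open Finset Module Equiv.Perm

section orb

variable {X : Type*} [Finite X] (σ : Equiv.Perm X)

theorem card_class (r : X) :
    Nat.card {y // Quotient.mk (SameCycle.setoid σ) y = Quotient.mk (SameCycle.setoid σ) r} =
      Function.minimalPeriod σ r := by
  classical
  have : Fintype X := Fintype.ofFinite X
  have h1 := MulAction.minimalPeriod_eq_card (a := σ) (b := r)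
  have h2 : (fun x : X => σ • x) = σ := rfl
  rw [h2] at h1
  rw [h1, ← Nat.card_eq_fintype_card]
  refine Nat.card_congr (Equiv.subtypeEquivRight fun y => ?_)
  rw [MulAction.mem_orbit_iff]
  constructor
  · intro h
    have h3 : σ.SameCycle y r := Quotient.exact h
    obtain ⟨i, hi⟩ := h3.symm
    exact ⟨⟨σ ^ i, i, rfl⟩, hi⟩
  · rintro ⟨⟨_, i, rfl⟩, hi⟩
    refine Quotient.sound (s := SameCycle.setoid σ) ?_
    exact SameCycle.symm ⟨i, hi⟩

omit [Finite X] in
variable {σ} in
theorem pow_eq_of {k : Type*} [Field k] {ν : k} {r : X} (hν : ν ^ Function.minimalPeriod σ r = 1)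
    {a b : ℕ} (h : (σ ^ a) r = (σ ^ b) r) : ν ^ a = ν ^ b := by
  have key : ∀ a b : ℕ, a ≤ b → (σ ^ a) r = (σ ^ b) r → ν ^ a = ν ^ b := by
    intro a b hab h
    obtain ⟨c, rfl⟩ := Nat.exists_eq_add_of_le hab
    rw [pow_add, Equiv.Perm.mul_apply] at h
    have h1 := (σ ^ a).injective h
    have h2 : Function.IsPeriodicPt σ c r := by
      rw [Function.IsPeriodicPt, Function.IsFixedPt, Equiv.Perm.iterate_eq_pow]
      exact h1.symm
    obtain ⟨m, rfl⟩ := h2.minimalPeriod_dvd
    rw [pow_add, pow_mul, hν, one_pow, mul_one]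
  rcases le_total a b with hab | hab
  · exact key a b hab h
  · exact (key b a hab h.symm).symm

/-- functions with `x (σ d) = ν x d` -/
def eqv {k : Type*} [Field k] (ν : k) : Submodule k (X → k) where
  carrier := {x | ∀ d, x (σ d) = ν * x d}
  zero_mem' := fun d => by simp
  add_mem' := fun {x y} hx hy d => by simp [hx d, hy d, mul_add]
  smul_mem' := fun c x hx d => by simp [hx d]; ring

theorem finrank_eqv {k : Type*} [Field k] (ν : k) :
    finrank k (eqv σ ν) = Nat.card {O : Quotient (SameCycle.setoid σ) //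
      ν ^ Nat.card {y // Quotient.mk (SameCycle.setoid σ) y = O} = 1} := by
  classical
  have : Fintype X := Fintype.ofFinite X
  have : Fintype (Quotient (SameCycle.setoid σ)) := Fintype.ofFinite _
  let G := {O : Quotient (SameCycle.setoid σ) //
      ν ^ Nat.card {y // Quotient.mk (SameCycle.setoid σ) y = O} = 1}
  have hrep : ∀ d : X, ∃ i : ℕ, (σ ^ i) (Quotient.mk (SameCycle.setoid σ) d).out = d := by
    intro d
    have h1 : σ.SameCycle (Quotient.mk (SameCycle.setoid σ) d).out d :=
      Quotient.exact (s := SameCycle.setoid σ) (Quotient.out_eq (Quotient.mk (SameCycle.setoid σ) d))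
    obtain ⟨i, hi⟩ := h1.exists_nat_pow_eq
    exact ⟨i, hi⟩
  choose i hi using hrep
  have hσ : ∀ d : X, Quotient.mk (SameCycle.setoid σ) (σ d) = Quotient.mk (SameCycle.setoid σ) d := by
    intro d
    refine Quotient.sound (s := SameCycle.setoid σ) ?_
    exact SameCycle.symm ⟨1, by simp⟩
  have hcard : ∀ O : Quotient (SameCycle.setoid σ),
      Nat.card {y // Quotient.mk (SameCycle.setoid σ) y = O} = Function.minimalPeriod σ O.out := by
    intro O
    rw [← card_class σ O.out]
    simp only [Quotient.out_eq]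
  have hpow : ∀ x ∈ eqv σ ν, ∀ (n : ℕ) (d : X), x ((σ ^ n) d) = ν ^ n * x d := by
    intro x hx n d
    induction n with
    | zero => simp
    | succ n ih =>
      rw [pow_succ', Equiv.Perm.mul_apply, hx, ih, pow_succ]
      ring
  let Φ : eqv σ ν →ₗ[k] (G → k) :=
    { toFun := fun x O => x.1 O.1.out
      map_add' := fun x y => rfl
      map_smul' := fun c x => rfl }
  have hinj : Function.Injective Φ := by
    rw [← LinearMap.ker_eq_bot, LinearMap.ker_eq_bot']
    rintro ⟨x, hx⟩ h
    have h0 : ∀ O : Quotient (SameCycle.setoid σ), x O.out = 0 := by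
      intro O
      by_cases hO : ν ^ Nat.card {y // Quotient.mk (SameCycle.setoid σ) y = O} = 1
      · exact congrFun h ⟨O, hO⟩
      · have h1 := hpow x hx (Nat.card {y // Quotient.mk (SameCycle.setoid σ) y = O}) O.out
        have h2 : (σ ^ Nat.card {y // Quotient.mk (SameCycle.setoid σ) y = O}) O.out = O.out := by
          rw [hcard, ← Equiv.Perm.iterate_eq_pow]
          exact Function.iterate_minimalPeriod
        rw [h2] at h1
        have h3 : (1 - ν ^ Nat.card {y // Quotient.mk (SameCycle.setoid σ) y = O}) * x O.out = 0 := by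
          rw [sub_mul, one_mul, ← h1, sub_self]
        exact (mul_eq_zero.1 h3).resolve_left (sub_ne_zero.2 (Ne.symm hO))
    refine Subtype.ext (funext fun d => ?_)
    have h4 := hpow x hx (i d) (Quotient.mk (SameCycle.setoid σ) d).out
    rw [hi, h0, mul_zero] at h4
    exact h4
  have hsurj : Function.Surjective Φ := by
    intro y
    let x : X → k := fun d =>
      if h : ν ^ Nat.card {y // Quotient.mk (SameCycle.setoid σ) y =
          Quotient.mk (SameCycle.setoid σ) d} = 1 then ν ^ i d * y ⟨_, h⟩ else 0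
    have hx : x ∈ eqv σ ν := by
      intro d
      show x (σ d) = ν * x d
      by_cases h : ν ^ Nat.card {y // Quotient.mk (SameCycle.setoid σ) y =
          Quotient.mk (SameCycle.setoid σ) d} = 1
      · have h' : ν ^ Nat.card {y // Quotient.mk (SameCycle.setoid σ) y =
          Quotient.mk (SameCycle.setoid σ) (σ d)} = 1 := by rw [hσ]; exact h
        simp only [x, dif_pos h, dif_pos h']
        have h1 : (⟨_, h'⟩ : G) = ⟨_, h⟩ := Subtype.ext (hσ d)
        rw [h1]
        have h2 : ν ^ i (σ d) = ν ^ (i d + 1) := by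
          refine pow_eq_of (σ := σ) (r := (Quotient.mk (SameCycle.setoid σ) d).out) ?_ ?_
          · rw [← hcard]; exact h
          · rw [pow_succ', Equiv.Perm.mul_apply, hi d]
            have := hi (σ d)
            rwa [hσ] at this
        rw [h2, pow_succ]
        ring
      · have h' : ¬ ν ^ Nat.card {y // Quotient.mk (SameCycle.setoid σ) y =
          Quotient.mk (SameCycle.setoid σ) (σ d)} = 1 := by rw [hσ]; exact h
        simp only [x, dif_neg h, dif_neg h', mul_zero]
    refine ⟨⟨x, hx⟩, funext fun O => ?_⟩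
    show x O.1.out = y O
    have h : ν ^ Nat.card {y // Quotient.mk (SameCycle.setoid σ) y =
          Quotient.mk (SameCycle.setoid σ) O.1.out} = 1 := by
      rw [Quotient.out_eq]; exact O.2
    simp only [x, dif_pos h]
    have h1 : (⟨_, h⟩ : G) = O := Subtype.ext (Quotient.out_eq _)
    rw [h1]
    have h2 : ν ^ i O.1.out = ν ^ 0 := by
      refine pow_eq_of (σ := σ) (r := O.1.out) ?_ ?_
      · rw [← hcard]; exact O.2
      · have := hi O.1.out
        rw [Quotient.out_eq] at this
        rw [this]; simp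
    rw [h2, pow_zero, one_mul]
  have h5 := LinearEquiv.finrank_eq (LinearEquiv.ofBijective Φ ⟨hinj, hsurj⟩)
  rw [h5, Module.finrank_fintype_fun_eq_card, Nat.card_eq_fintype_card]

end orb

theorem finrank_eig_orbits (k : Type) [Field k] (D : Type) [CommGroup D] [Finite D]
    (τ : MulAut D) (e : ℕ) [NeZero e] (ζ : k) (hζ : IsPrimitiveRoot ζ e) (c : ZMod e) :
    Module.finrank k ((Vale.P179.H190.alE k τ).eigenspace (ζ ^ c.val)) =
      Nat.card {O : Quotient (Equiv.Perm.SameCycle.setoid τ.toEquiv) //
        ((Nat.card {y // Quotient.mk (Equiv.Perm.SameCycle.setoid τ.toEquiv) y = O} : ℕ) :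
          ZMod e) * c = 0} := by
  classical
  have : Fintype D := Fintype.ofFinite D
  set μ : k := ζ ^ c.val with hμ
  have hζ0 : ζ ≠ 0 := hζ.ne_zero (NeZero.ne e)
  have hμ0 : μ ≠ 0 := pow_ne_zero _ hζ0
  let Ψ : MonoidAlgebra k D ≃ₗ[k] (D → k) :=
    (MonoidAlgebra.coeffLinearEquiv k).trans (Finsupp.linearEquivFunOnFinite k k D)
  have hΨ : ∀ x d, Ψ x d = x.coeff d := fun x d => rfl
  have hal : ∀ (x : MonoidAlgebra k D) (d : D),
      (Vale.P179.H190.al k τ x).coeff (τ d) = x.coeff d := by
    intro x d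
    induction x using MonoidAlgebra.induction_linear with
    | zero => simp
    | add x y hx hy => simp only [map_add, MonoidAlgebra.coeff_add, Finsupp.add_apply, hx, hy]
    | single d' a =>
      rw [Vale.P179.H190.al_single, MonoidAlgebra.coeff_single, MonoidAlgebra.coeff_single]
      by_cases h : d = d'
      · subst h; simp
      · have h' : τ d ≠ τ d' := fun h1 => h (τ.injective h1)
        rw [Finsupp.single_eq_of_ne h', Finsupp.single_eq_of_ne h]
  have hmem : ∀ x, x ∈ (Vale.P179.H190.alE k τ).eigenspace μ ↔ Ψ x ∈ eqv τ.toEquiv μ⁻¹ := by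
    intro x
    rw [Module.End.mem_eigenspace_iff, Vale.P179.H190.alE_apply]
    constructor
    · intro h d
      show x.coeff (τ d) = μ⁻¹ * x.coeff d
      rw [← hal x d, h, MonoidAlgebra.coeff_smul, Finsupp.smul_apply, smul_eq_mul, ← mul_assoc,
        inv_mul_cancel₀ hμ0, one_mul]
    · intro h
      ext d
      obtain ⟨d, rfl⟩ := τ.surjective d
      have h1 : x.coeff (τ d) = μ⁻¹ * x.coeff d := h d
      rw [hal, MonoidAlgebra.coeff_smul, Finsupp.smul_apply, smul_eq_mul, h1, ← mul_assoc,
        mul_inv_cancel₀ hμ0, one_mul]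
  have h1 : (Vale.P179.H190.alE k τ).eigenspace μ =
      (eqv τ.toEquiv μ⁻¹).comap Ψ.toLinearMap := by
    ext x
    exact hmem x
  have h2 : finrank k ((eqv τ.toEquiv μ⁻¹).comap Ψ.toLinearMap) = finrank k (eqv τ.toEquiv μ⁻¹) := by
    refine LinearEquiv.finrank_eq ?_
    exact (Ψ.submoduleMap _).trans (LinearEquiv.ofEq _ _ (by
      rw [Submodule.map_comap_eq_of_surjective]
      exact Ψ.surjective))
  rw [h1, h2, finrank_eqv]
  refine Nat.card_congr (Equiv.subtypeEquivRight fun O => ?_)
  rw [inv_pow, inv_eq_one, hμ, ← pow_mul, hζ.pow_eq_one_iff_dvd]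
  constructor
  · intro h
    have h3 : ((c.val * Nat.card {y // Quotient.mk (Equiv.Perm.SameCycle.setoid τ.toEquiv) y = O} :
        ℕ) : ZMod e) = 0 := (ZMod.natCast_eq_zero_iff _ _).2 h
    rw [Nat.cast_mul, ZMod.natCast_zmod_val] at h3
    rw [mul_comm]; exact h3
  · intro h
    rw [← ZMod.natCast_eq_zero_iff, Nat.cast_mul, ZMod.natCast_zmod_val, mul_comm]
    exact h

/-- `PEig` for the dimensions of the eigenspaces on a group algebra. -/
theorem PEig_eig (k : Type) [Field k] (D : Type) [CommGroup D] [Finite D]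
    (τ : MulAut D) (e : ℕ) [NeZero e] (ζ : k) (hζ : IsPrimitiveRoot ζ e) :
    PEig fun c : ZMod e => Module.finrank k ((Vale.P179.H190.alE k τ).eigenspace (ζ ^ c.val)) :=
  PEig_orbits τ.toEquiv (1 : D) (map_one τ) _ fun c => finrank_eig_orbits k D τ e ζ hζ c

end Vale.P179.H737.R
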