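import Mathlib

/-!
# REL: `k[Γ]` is free over `k[Γ1]`, in Higman's form
-/

namespace Vale.P179.H737.R

open MonoidAlgebra

/-- `k[Γ]` is projective over `k[Γ1]`, Higman's form. -/
theorem exists_free {k Γ Γ1 : Type*} [Field k] [Group Γ] [Group Γ1] [Fintype Γ1] (i1 : Γ1 →* Γ)
    (hi : Function.Injective i1) :
    ∃ l : MonoidAlgebra k Γ →ₗ[k] MonoidAlgebra k Γ, ∀ a,
      ∑ x : Γ1, MonoidAlgebra.of k Γ (i1 x) * l (MonoidAlgebra.of k Γ (i1 x⁻¹) * a) = a := by
  classical
  obtain ⟨S, hS, -⟩ := Subgroup.exists_isComplement_right i1.range 1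
  let l : MonoidAlgebra k Γ →ₗ[k] MonoidAlgebra k Γ :=
    Finsupp.lsum k (fun g => if g ∈ S then LinearMap.toSpanSingleton k _ (MonoidAlgebra.of k Γ g)
      else 0) ∘ₗ (MonoidAlgebra.coeffLinearEquiv k).toLinearMap
  have hl : ∀ g, l (MonoidAlgebra.of k Γ g) = if g ∈ S then MonoidAlgebra.of k Γ g else 0 := by
    intro g
    change Finsupp.lsum k _ (Finsupp.single g (1 : k)) = _
    rw [Finsupp.lsum_single]
    by_cases hg : g ∈ S
    · rw [if_pos hg, if_pos hg, LinearMap.toSpanSingleton_apply, one_smul]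
    · rw [if_neg hg, if_neg hg, LinearMap.zero_apply]
  refine ⟨l, fun a => ?_⟩
  induction a using MonoidAlgebra.induction_on with
  | of g =>
    obtain ⟨⟨⟨x, x0, hx⟩, s⟩, h1, h2⟩ := hS.existsUnique g
    have h1' : (x : Γ) * s = g := h1
    rw [Finset.sum_eq_single x0]
    · rw [← map_mul, hl, if_pos, ← map_mul, map_inv, mul_inv_cancel_left]
      rw [map_inv, hx, ← h1', inv_mul_cancel_left]
      exact s.2
    · intro y _ hy
      rw [← map_mul, hl, if_neg, mul_zero]
      intro hs
      have h3 := h2 (⟨i1 y, y, rfl⟩, ⟨_, hs⟩) (by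
        change i1 y * (i1 y⁻¹ * g) = g
        rw [map_inv, mul_inv_cancel_left])
      apply hy
      apply hi
      rw [hx]
      exact congrArg (fun z => ((z.1 : i1.range) : Γ)) h3
    · exact fun h => absurd (Finset.mem_univ _) h
  | add a b ha hb =>
    simp only [mul_add, map_add, Finset.sum_add_distrib, ha, hb]
  | smul r a ha =>
    simp only [mul_smul_comm, map_smul, ← Finset.smul_sum, ha]

end Vale.P179.H737.R
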