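import Mathlib
import Vale.Agent.P179.H875.Corner

/-!
# ALLB / Ten5: symmetrising forms on `L ⊗ M_n(k)` and on corners; the homomorphism and the
commutant in a corner
-/

namespace Vale.P179.H737

open Module
open scoped TensorProduct

section Form

variable {k X : Type} [Field k] [Ring X] [Algebra k X] {n : ℕ}

/-- the form `τ ⊗ trace` -/
noncomputable def tform (n : ℕ) (τ : X →ₗ[k] k) : X ⊗[k] Matrix (Fin n) (Fin n) k →ₗ[k] k :=
  (LinearMap.mul' k k).comp (TensorProduct.map τ (Matrix.traceLinearMap (Fin n) k k))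

theorem tform_tmul (τ : X →ₗ[k] k) (x : X) (M : Matrix (Fin n) (Fin n) k) :
    tform n τ (x ⊗ₜ[k] M) = τ x * M.trace := by
  simp [tform]

theorem tform_comm (τ : X →ₗ[k] k) (tc : ∀ a b, τ (a * b) = τ (b * a))
    (a b : X ⊗[k] Matrix (Fin n) (Fin n) k) : tform n τ (a * b) = tform n τ (b * a) := by
  induction a with
  | zero => simp
  | add x y hx hy => rw [add_mul, mul_add, map_add, map_add, hx, hy]
  | tmul x M =>
    induction b with
    | zero => simp
    | add y z hy hz => rw [add_mul, mul_add, map_add, map_add, hy, hz]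
    | tmul y N =>
      rw [Algebra.TensorProduct.tmul_mul_tmul, Algebra.TensorProduct.tmul_mul_tmul, tform_tmul,
        tform_tmul, tc, Matrix.trace_mul_comm]

/-- the `(i, l)` component -/
noncomputable def comp (i l : Fin n) : X ⊗[k] Matrix (Fin n) (Fin n) k →ₗ[k] X :=
  (TensorProduct.rid k X).toLinearMap.comp
    (TensorProduct.map LinearMap.id (Matrix.entryLinearMap k k i l))

theorem comp_tmul (i l : Fin n) (x : X) (M : Matrix (Fin n) (Fin n) k) :
    comp i l (x ⊗ₜ[k] M) = M i l • x := by
  simp [comp]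

theorem eq_sum_comp (a : X ⊗[k] Matrix (Fin n) (Fin n) k) :
    a = ∑ i, ∑ l, (comp i l a) ⊗ₜ[k] Matrix.single i l (1 : k) := by
  induction a with
  | zero => simp
  | add x y hx hy =>
    conv_lhs => rw [hx, hy]
    simp only [map_add, TensorProduct.add_tmul, Finset.sum_add_distrib]
  | tmul x M =>
    conv_lhs => rw [Matrix.matrix_eq_sum_single M]
    simp only [TensorProduct.tmul_sum, comp_tmul]
    refine Finset.sum_congr rfl fun i _ => Finset.sum_congr rfl fun l _ => ?_
    rw [TensorProduct.smul_tmul, Matrix.smul_single, smul_eq_mul, mul_one]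

theorem tform_mul_single (τ : X →ₗ[k] k) (a : X ⊗[k] Matrix (Fin n) (Fin n) k) (y : X)
    (i l : Fin n) : tform n τ (a * (y ⊗ₜ[k] Matrix.single l i (1 : k))) = τ (comp i l a * y) := by
  induction a with
  | zero => simp
  | add x z hx hz => rw [add_mul, map_add, hx, hz, map_add, add_mul, map_add]
  | tmul x M =>
    rw [Algebra.TensorProduct.tmul_mul_tmul, tform_tmul, comp_tmul, smul_mul_assoc, map_smul,
      smul_eq_mul, mul_comm]
    congr 1
    rw [Matrix.trace_mul_single]
    simp

theorem tform_nd (τ : X →ₗ[k] k) (nd : ∀ a, (∀ b, τ (a * b) = 0) → a = 0)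
    (a : X ⊗[k] Matrix (Fin n) (Fin n) k) (h : ∀ b, tform n τ (a * b) = 0) : a = 0 := by
  rw [eq_sum_comp a]
  refine Finset.sum_eq_zero fun i _ => Finset.sum_eq_zero fun l _ => ?_
  rw [nd (comp i l a) fun y => by rw [← tform_mul_single, h], TensorProduct.zero_tmul]

end Form

section Corner

open Vale.P179.H875

variable {k X : Type} [Field k] [Ring X] [Algebra k X] {f : X} (hf : IsIdempotentElem f)

/-- the restricted form -/
noncomputable def cform (τ : X →ₗ[k] k) : hf.Corner →ₗ[k] k := τ.comp (cvalL (k := k) hf)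

theorem cform_apply (τ : X →ₗ[k] k) (x : hf.Corner) : cform hf τ x = τ (cval hf x) := rfl

theorem cform_comm (τ : X →ₗ[k] k) (tc : ∀ a b, τ (a * b) = τ (b * a)) (a b : hf.Corner) :
    cform hf τ (a * b) = cform hf τ (b * a) := by
  rw [cform_apply, cform_apply, cval_mul, cval_mul, tc]

theorem cform_nd (τ : X →ₗ[k] k) (tc : ∀ a b, τ (a * b) = τ (b * a))
    (nd : ∀ a, (∀ b, τ (a * b) = 0) → a = 0) (a : hf.Corner)
    (h : ∀ b, cform hf τ (a * b) = 0) : a = 0 := by
  apply cval_injective hf
  rw [cval_zero]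
  apply nd
  intro z
  have h1 := h (cmk hf z)
  rw [cform_apply, cval_mul, cval_cmk] at h1
  have h2 : cval hf a * (f * z * f) = (cval hf a * z) * f := by
    rw [← mul_assoc, ← mul_assoc, cval_right]
  rw [h2, tc, ← mul_assoc, left_cval] at h1
  exact h1

variable {Γ : Type} [Group Γ]

/-- the homomorphism into the corner -/
def chom (u : Γ →* X) (hu : ∀ g, f * u g = u g * f) : Γ →* hf.Corner where
  toFun g := cmk hf (u g)
  map_one' := by
    apply cval_injective hf
    rw [cval_cmk, map_one, mul_one, hf.eq, cval_one]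
  map_mul' g h := by
    apply cval_injective hf
    rw [cval_mul, cval_cmk, cval_cmk, cval_cmk, map_mul]
    have : f * u g * f * (f * u h * f) = f * u g * (f * f) * u h * f := by noncomm_ring
    rw [this, hf.eq]
    have : f * u g * f * u h * f = f * (u g * f) * u h * f := by noncomm_ring
    rw [this, ← hu g]
    have : f * (f * u g) * u h * f = (f * f) * (u g * u h) * f := by noncomm_ring
    rw [this, hf.eq]

theorem cval_chom (u : Γ →* X) (hu : ∀ g, f * u g = u g * f) (g : Γ) :
    cval hf (chom hf u hu g) = f * u g := by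
  show f * u g * f = f * u g
  rw [mul_assoc, ← hu, ← mul_assoc, hf.eq]

theorem cval_chom_mul (u : Γ →* X) (hu : ∀ g, f * u g = u g * f) (g : Γ) (x : hf.Corner) :
    cval hf (chom hf u hu g * x) = u g * cval hf x := by
  rw [cval_mul, cval_chom, hu, mul_assoc, left_cval]

theorem cval_mul_chom (u : Γ →* X) (hu : ∀ g, f * u g = u g * f) (g : Γ) (x : hf.Corner) :
    cval hf (x * chom hf u hu g) = cval hf x * u g := by
  rw [cval_mul, cval_chom, ← mul_assoc, cval_right]

theorem cval_pow (x : hf.Corner) (n : ℕ) : cval hf (x ^ (n + 1)) = cval hf x ^ (n + 1) := by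
  induction n with
  | zero => simp
  | succ n ih => rw [pow_succ, cval_mul, ih, ← pow_succ]

theorem isNilpotent_iff (x : hf.Corner) : IsNilpotent x ↔ IsNilpotent (cval hf x) := by
  constructor
  · rintro ⟨n, hn⟩
    refine ⟨n + 1, ?_⟩
    rw [← cval_pow, pow_succ, hn, zero_mul, cval_zero]
  · rintro ⟨n, hn⟩
    refine ⟨n + 1, ?_⟩
    apply cval_injective hf
    rw [cval_pow, pow_succ, hn, zero_mul, cval_zero]

/-- the commutant of `D` in the corner is local if `f` is primitive in the commutant. -/
theorem corner_local (u : Γ →* X) (hu : ∀ g, f * u g = u g * f) (D : Subgroup Γ)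
    (hloc : ∀ c : X, (∀ x ∈ D, u x * c = c * u x) → f * c = c → c * f = c →
      (∃ c', c * c' = f ∧ c' * c = f) ∨ IsNilpotent c) (a : hf.Corner)
    (ha : ∀ x ∈ D, chom hf u hu x * a = a * chom hf u hu x) : IsUnit a ∨ IsNilpotent a := by
  rcases hloc (cval hf a) (fun x hx => by
      rw [← cval_chom_mul hf u hu, ← cval_mul_chom hf u hu, ha x hx]) (left_cval hf a)
      (cval_right hf a) with ⟨c', h1, h2⟩ | h
  · left
    refine ⟨⟨a, cmk hf c', ?_, ?_⟩, rfl⟩
    · apply cval_injective hf
      rw [cval_mul, cval_cmk, cval_one]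
      have : cval hf a * (f * c' * f) = (cval hf a * f) * c' * f := by noncomm_ring
      rw [this, cval_right, h1, hf.eq]
    · apply cval_injective hf
      rw [cval_mul, cval_cmk, cval_one]
      have : f * c' * f * cval hf a = f * (c' * (f * cval hf a)) := by noncomm_ring
      rw [this, left_cval, h2, hf.eq]
  · right
    exact (isNilpotent_iff hf a).2 h

end Corner

end Vale.P179.H737
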