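import Vale.Agent.P179.H815.Num2
import Vale.Agent.P179.H737.RNum

/-!
# REL: the numerical theorem for a graded algebra (rational coefficients)
-/

namespace Vale.P179.H737.R

open Module Matrix
open Vale.P179.H175 (gd cor2 GrAlg)
open Vale.P179.H815 (ymat cmat L1)
open scoped ComplexOrder

theorem emb_injective : Function.Injective emb := by
  intro f g h
  apply AddMonoidAlgebra.coeff_injective
  ext r
  have := congrArg (fun z => (AddMonoidAlgebra.coeff z) r) h
  simpa [emb] using this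

theorem det_CHr_ne {e : ℕ} [NeZero e] {N M : ℕ} (hM : N = e * M + 1) (c : ℕ) {P : ZMod e → ℕ}
    (hP : PEig P) : (CHr N c P).det ≠ 0 := by
  intro h
  have h3 := (posDef_CHr hM c hP).det_pos
  rw [ev_det, h, map_zero] at h3
  exact lt_irrefl _ h3

universe u

variable {K : Type*} [Field K] {A : Type u} [Ring A] [Algebra K A]
variable {I : Type*} [Fintype I] {W : ℚ → Submodule K A} {J : Submodule K A} {e : I → A}

/-- **REL: the numerical theorem.** -/
theorem num_core_rel [DecidableEq I] [FiniteDimensional K A] (hL1 : L1 W J e) (hW : GrAlg W)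
    (he : ∀ i, e i ∈ W 0) (he2 : ∀ i, e i * e i = e i)
    {d N M c : ℕ} [NeZero d] (hM : N = d * M + 1) (hM1 : 1 ≤ M) {P : ZMod d → ℕ} (hP : PEig P)
    (η : ZMod d → A)
    (hη : ∀ a, η a ∈ W 0) (hη2 : ∀ a, η a * η a = η a)
    (T2 : ∀ x y : A, x ∈ W 0 → y ∈ W 0 → x * x = x → y * y = y →
      gd W (cor2 K x y) = H904.tq ((N : ℚ) - 1) * H904.barQ (gd W (cor2 K y x)))
    {u : Matrix (ZMod d) I RQ}
    (EP2 : ∀ a m, emb (gd W (cor2 K (η a) (e m))) = ∑ b, CHr N c P a b * u b m)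
    {Wm : Matrix (ZMod d) (ZMod d) RQ}
    (EP3 : ∀ a b, emb (gd W (cor2 K (η a) (η b))) =
      CHr N c P a b + (CHr N c P * Wm * CHr N c P) a b)
    {z : Matrix I I RQ}
    (A3 : ct u * embM (ymat W J e η) = 1 + embM (cmat W e) * z) :
    d ≤ Fintype.card I := by
  have A4' : H904.ct (cmat W e) = H904.tq (-((N : ℚ) - 1)) • cmat W e := by
    refine Matrix.ext fun i j => ?_
    rw [H904.ct_apply, Matrix.smul_apply, smul_eq_mul]
    change H904.barQ (gd W (cor2 K (e j) (e i))) =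
      H904.tq (-((N : ℚ) - 1)) * gd W (cor2 K (e i) (e j))
    rw [T2 (e i) (e j) (he i) (he j) (he2 i) (he2 j), ← mul_assoc, H904.tq_mul, neg_add_cancel,
      H904.tq_zero, one_mul]
  have A4 : ct (embM (cmat W e)) = tq (-((N : ℚ) - 1)) • embM (cmat W e) := by
    rw [← embM_ct, A4', embM_smul, emb_tq]
  have A1 : CHr N c P * u = embM (ymat W J e η) * embM (cmat W e) := by
    rw [← embM_mul]
    refine Matrix.ext fun a m => ?_
    rw [Matrix.mul_apply, ← EP2, embM, Matrix.map_apply, Matrix.mul_apply]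
    congr 1
    exact hL1.two hW he he2 (hη a) (hη2 a) (he m) (he2 m)
  have hN' : ∀ i b, emb (gd W (cor2 K (e i) (η b))) = (ct u * CHr N c P) i b := by
    intro i b
    rw [T2 (e i) (η b) (he i) (hη b) (he2 i) (hη2 b), map_mul, emb_barQ, EP2, map_sum,
      Matrix.mul_apply, Finset.mul_sum]
    refine Finset.sum_congr rfl fun c' _ => ?_
    have h1 := congrFun (congrFun (ct_CHr hM c hP.1) c') b
    rw [ct_apply, Matrix.smul_apply, smul_eq_mul] at h1
    rw [map_mul, h1, ct_apply, emb_tq, ← mul_assoc, ← mul_assoc, tq_mul, add_neg_cancel, tq_zero,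
      one_mul, mul_comm]
  have A2 : embM (ymat W J e η) * ct u = 1 + CHr N c P * Wm := by
    apply right_cancel (det_CHr_ne hM c hP)
    rw [Matrix.mul_assoc, Matrix.add_mul, Matrix.one_mul]
    refine Matrix.ext fun a b => ?_
    rw [Matrix.add_apply, ← EP3, Matrix.mul_apply,
      hL1.two hW he he2 (hη a) (hη2 a) (hη b) (hη2 b), map_sum]
    refine Finset.sum_congr rfl fun i _ => ?_
    rw [map_mul, hN']
    rfl
  exact e_le_card_rel hM hM1 hP A4 A1 A2 A3

/-- `CHr` in coordinates: the graded Cartan matrix of the relative model in 342's letters. -/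
theorem CHr_apply {d : ℕ} [NeZero d] (N c : ℕ) (P : ZMod d → ℕ) (a b : ZMod d) :
    CHr N c P a b = emb (∑ s, H904.CHz d N c a s *
      (AddMonoidAlgebra.single (0 : ℚ) ((P (b - s) : ℕ) : ℤ) : H904.ZQ)) := by
  rw [CHr, Matrix.mul_apply, map_sum]
  refine Finset.sum_congr rfl fun s _ => ?_
  rw [map_mul, embM, Matrix.map_apply, Pm, of_apply, emb_single]
  simp

/-- the integral version of `Pm` -/
noncomputable def PmZ {d : ℕ} (P : ZMod d → ℕ) : Matrix (ZMod d) (ZMod d) H904.ZQ :=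
  Matrix.of fun a b => AddMonoidAlgebra.single (0 : ℚ) ((P (b - a) : ℕ) : ℤ)

theorem embM_PmZ {d : ℕ} (P : ZMod d → ℕ) : embM (PmZ P) = Pm P := by
  ext1 a b
  simp [embM, PmZ, Pm]

end Vale.P179.H737.R

namespace Vale.P179.H737.R

open Module Matrix
open scoped ComplexOrder

section inv

variable {d : ℕ} [NeZero d]

/-- the circulant `Pm` is invertible over `ℚ ⊂ RQ`. -/
theorem exists_inv_Pm {P : ZMod d → ℕ} (hP : PEig P) :
    ∃ Q : Matrix (ZMod d) (ZMod d) RQ, Pm P * Q = 1 ∧ Q * Pm P = 1 := by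
  classical
  let Pq : Matrix (ZMod d) (ZMod d) ℚ := Matrix.of fun a b => ((P (b - a) : ℕ) : ℚ)
  have hdet : Pq.det ≠ 0 := by
    intro h
    choose m hm0 hm using hP.2
    have hstar : ∀ k, star ((P k : ℕ) : ℂ) = ((P (-k) : ℕ) : ℂ) := by
      intro k
      rw [hP.1, star_natCast]
    have h1 := (Vale.Agent.P179.H737.posDef_of_eigen hstar hm hm0).det_pos
    have h2 : (Matrix.of fun a b => ((P (b - a) : ℕ) : ℂ) : Matrix (ZMod d) (ZMod d) ℂ) =
        (algebraMap ℚ ℂ).mapMatrix Pq := by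
      ext a b
      simp [Pq]
    rw [h2, ← RingHom.map_det, h, map_zero] at h1
    exact lt_irrefl _ h1
  have hu : IsUnit Pq := (Matrix.isUnit_iff_isUnit_det _).2 (isUnit_iff_ne_zero.2 hdet)
  have hPm : Pm P = (AddMonoidAlgebra.singleZeroRingHom (R := ℚ) (M := ℚ)).mapMatrix Pq := by
    ext1 a b
    rfl
  refine ⟨(AddMonoidAlgebra.singleZeroRingHom (R := ℚ) (M := ℚ)).mapMatrix Pq⁻¹, ?_, ?_⟩
  · rw [hPm, ← map_mul, Matrix.mul_nonsing_inv _ ((Matrix.isUnit_iff_isUnit_det _).1 hu), map_one]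
  · rw [hPm, ← map_mul, Matrix.nonsing_inv_mul _ ((Matrix.isUnit_iff_isUnit_det _).1 hu), map_one]

/-- `EP3` relative to `D₂` from the integral statement over `A₁ = k[D₁ ⋊ T]`. -/
theorem ep3_rat {N c : ℕ} {P : ZMod d → ℕ} (hP : PEig P)
    (W : Matrix (ZMod d) (ZMod d) H904.ZQ) :
    ∃ W' : Matrix (ZMod d) (ZMod d) RQ,
      embM (H904.CHz d N c * W * H904.CHz d N c) = CHr N c P * W' * CHr N c P := by
  obtain ⟨Q, h1, h2⟩ := exists_inv_Pm hP
  refine ⟨Q * embM W * Q, ?_⟩
  rw [embM_mul, embM_mul]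
  have h3 : CHr N c P = Pm P * embM (H904.CHz d N c) := by rw [CHr, CHz_comm]
  calc embM (H904.CHz d N c) * embM W * embM (H904.CHz d N c)
      = embM (H904.CHz d N c) * (Pm P * Q) * embM W * ((Q * Pm P) * embM (H904.CHz d N c)) := by
        rw [h1, h2, Matrix.mul_one, Matrix.one_mul]
    _ = (embM (H904.CHz d N c) * Pm P) * (Q * embM W * Q) * (Pm P * embM (H904.CHz d N c)) := by
        simp only [Matrix.mul_assoc]
    _ = _ := by rw [← h3]; rfl

/-- `EP2` relative to `D₂` from the integral statement over `A₁`. -/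
theorem ep2_rat {N c : ℕ} {P : ZMod d → ℕ} (hP : PEig P) {I : Type*}
    (u : Matrix (ZMod d) I H904.ZQ) :
    ∃ u' : Matrix (ZMod d) I RQ, embM (H904.CHz d N c * u) = CHr N c P * u' ∧
      embM u = Pm P * u' := by
  obtain ⟨Q, h1, h2⟩ := exists_inv_Pm hP
  refine ⟨Q * embM u, ?_, ?_⟩
  · rw [embM_mul, CHr, Matrix.mul_assoc, ← Matrix.mul_assoc (Pm P), h1, Matrix.one_mul]
  · rw [← Matrix.mul_assoc, h1, Matrix.one_mul]

end inv

end Vale.P179.H737.R
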