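import Mathlib

/-!
# REL, Lemma L: the matrix of characters equal on the stabilisers is invertible
-/

namespace Vale.P179.H737.R

theorem sum_fib_nonneg {X Y : Type*} [Fintype X] [DecidableEq Y] (q : X → Y) (v : X → ℚ) :
    0 ≤ ∑ a, ∑ b, if q a = q b then v a * v b else 0 := by
  classical
  have h1 : ∑ a, ∑ b, (if q a = q b then v a * v b else 0) =
      ∑ c ∈ Finset.univ.image q, (∑ b ∈ Finset.univ.filter (fun b => q b = c), v b) ^ 2 := by
    rw [← Finset.sum_fiberwise_of_maps_to (s := Finset.univ) (t := Finset.univ.image q) (g := q)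
      (fun a _ => Finset.mem_image_of_mem q (Finset.mem_univ a))]
    refine Finset.sum_congr rfl fun c _ => ?_
    rw [sq, Finset.sum_mul]
    refine Finset.sum_congr rfl fun a ha => ?_
    rw [Finset.mul_sum, Finset.sum_filter]
    refine Finset.sum_congr rfl fun b _ => ?_
    rw [(Finset.mem_filter.mp ha).2]
    simp only [eq_comm]
  rw [h1]
  exact Finset.sum_nonneg fun c _ => sq_nonneg _

/-- **CIRC** over `ℚ`. -/
theorem circ_rat {X O Y : Type*} [Fintype X] [Fintype O] [DecidableEq Y] (q : O → X → Y)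
    (o : O) (ho : Function.Injective (q o)) (v : X → ℚ)
    (h : ∀ a, ∑ b, (∑ x : O, if q x a = q x b then (1 : ℚ) else 0) * v b = 0) : v = 0 := by
  classical
  have h1 : ∑ x : O, ∑ a, ∑ b, (if q x a = q x b then v a * v b else 0) = 0 := by
    have h2 : ∑ a, v a * ∑ b, (∑ x : O, if q x a = q x b then (1 : ℚ) else 0) * v b = 0 :=
      Finset.sum_eq_zero fun a _ => by rw [h a, mul_zero]
    refine Eq.trans ?_ h2
    rw [Finset.sum_comm]
    refine Finset.sum_congr rfl fun a _ => ?_
    rw [Finset.sum_comm, Finset.mul_sum]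
    refine Finset.sum_congr rfl fun b _ => ?_
    rw [Finset.sum_mul, Finset.mul_sum]
    refine Finset.sum_congr rfl fun x _ => ?_
    by_cases hx : q x a = q x b
    · rw [if_pos hx, if_pos hx, one_mul]
    · rw [if_neg hx, if_neg hx, zero_mul, mul_zero]
  have h3 := (Finset.sum_eq_zero_iff_of_nonneg fun x _ => sum_fib_nonneg (q x) v).mp h1 o
    (Finset.mem_univ _)
  have h4 : ∑ a, ∑ b, (if q o a = q o b then v a * v b else 0) = ∑ a, v a * v a := by
    refine Finset.sum_congr rfl fun a _ => ?_
    rw [Finset.sum_eq_single a (fun b _ hb => if_neg fun h => hb (ho h).symm)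
      (fun h => absurd (Finset.mem_univ _) h), if_pos rfl]
  rw [h4] at h3
  funext a
  have h5 := (Finset.sum_eq_zero_iff_of_nonneg fun a _ => mul_self_nonneg (v a)).mp h3 a
    (Finset.mem_univ _)
  exact mul_self_eq_zero.mp h5

/-- **CIRC.** -/
theorem circ (N : Type) [CommGroup N] [Finite N] (K : Type) [Field K] (Ω : Type) [Finite Ω]
    [MulAction N Ω] (o : Ω) (ho : ∀ t : N, t • o = o) (V : Type) [AddCommGroup V] [Module ℚ V]
    (d : (N →* Kˣ) → V)
    (hd : ∀ χ : N →* Kˣ, ∑ᶠ ψ : N →* Kˣ,
      (Nat.card {O : MulAction.orbitRel.Quotient N Ω //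
        ∀ t : N, t • (Quotient.out O : Ω) = Quotient.out O → χ t = ψ t} : ℚ) • d ψ = 0) :
    ∀ ψ, d ψ = 0 := by
  classical
  have : Fintype (N →* Kˣ) := Fintype.ofFinite _
  have : Fintype (MulAction.orbitRel.Quotient N Ω) := Fintype.ofFinite _
  let q : MulAction.orbitRel.Quotient N Ω → (N →* Kˣ) → (N → Kˣ) := fun O χ t =>
    if t • (Quotient.out O : Ω) = Quotient.out O then χ t else 1
  have hq : ∀ O (χ ψ : N →* Kˣ), q O χ = q O ψ ↔
      ∀ t : N, t • (Quotient.out O : Ω) = Quotient.out O → χ t = ψ t := by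
    intro O χ ψ
    constructor
    · intro h t ht
      have := congrFun h t
      simpa only [q, if_pos ht] using this
    · intro h
      funext t
      by_cases ht : t • (Quotient.out O : Ω) = Quotient.out O
      · simp only [q, if_pos ht, h t ht]
      · simp only [q, if_neg ht]
  have hcard : ∀ χ ψ : N →* Kˣ, (Nat.card {O : MulAction.orbitRel.Quotient N Ω //
      ∀ t : N, t • (Quotient.out O : Ω) = Quotient.out O → χ t = ψ t} : ℚ) =
      ∑ O, if q O χ = q O ψ then (1 : ℚ) else 0 := by
    intro χ ψ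
    rw [Finset.sum_boole, Nat.card_eq_fintype_card, Fintype.card_subtype]
    congr 2
    ext O
    simp only [Finset.mem_filter, Finset.mem_univ, true_and, hq]
  intro ψ
  rw [← Module.forall_dual_apply_eq_zero_iff ℚ]
  intro f
  have hout : ∀ t : N, t • (Quotient.out (Quotient.mk (MulAction.orbitRel N Ω) o) : Ω) =
      Quotient.out (Quotient.mk (MulAction.orbitRel N Ω) o) := by
    have h1 : (Quotient.out (Quotient.mk (MulAction.orbitRel N Ω) o) : Ω) = o := by
      have h2 : MulAction.orbitRel N Ω
          (Quotient.out (Quotient.mk (MulAction.orbitRel N Ω) o)) o := Quotient.mk_out o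
      obtain ⟨t, ht⟩ := h2
      rw [← ht]
      exact ho t
    intro t
    rw [h1]
    exact ho t
  have := circ_rat q (Quotient.mk (MulAction.orbitRel N Ω) o) (fun χ ψ h => by
    ext t
    rw [(hq _ χ ψ).mp h t (hout t)]) (fun ψ => f (d ψ)) (fun χ => by
      have h1 := congrArg f (hd χ)
      rw [finsum_eq_sum_of_fintype, map_sum, map_zero] at h1
      refine Eq.trans ?_ h1
      refine Finset.sum_congr rfl fun ψ _ => ?_
      rw [map_smul, smul_eq_mul, hcard])
  exact congrFun this ψ

end Vale.P179.H737.R
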