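import Vale.Agent.P179.H737.REP2

/-!
# REL / EP2rel and EP3rel

`A1 = K[D1 ⋊ T] → A = K[D ⋊ T] → B`; the complement of `A` in `B` is relatively `D2`-projective,
i.e. it satisfies Higman's identity over `D1 ⋊ T`.
-/

namespace Vale.P179.H737.R

open Module Vale.P179.H175 Vale.P179.H904 Vale.P179.H815 Vale.P179.H445 Vale.P179.H300

/-- The relative data `A1 → A → B`. -/
structure RRel {K A1 A B Γ1 : Type*} [Field K] [Ring A1] [Algebra K A1] [Ring A] [Algebra K A]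
    [Ring B] [Algebra K B] [Group Γ1] [Fintype Γ1] (γ1 : Γ1 →* A1) (κ : A1 →ₐ[K] A)
    (ι : A →ₐ[K] B) (ρ : B →ₗ[K] A) (θ : B →ₗ[K] B) : Prop where
  ret : ∀ h, ρ (ι h) = h
  left : ∀ h b, ρ (ι h * b) = h * ρ b
  right : ∀ h b, ρ (b * ι h) = ρ b * h
  hig : ∀ b, ∑ x : Γ1, ∑ y : Γ1, ι (κ (γ1 x)) * θ (ι (κ (γ1 x⁻¹)) * b * ι (κ (γ1 y))) *
    ι (κ (γ1 y⁻¹)) = b - ι (ρ b)
  free : ∃ l : A →ₗ[K] A, ∀ a, ∑ x : Γ1, κ (γ1 x) * l (κ (γ1 x⁻¹) * a) = a

section rho0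

variable {K A B : Type*} [Field K] [Ring A] [Algebra K A] [Ring B]
  [Algebra K B] [FiniteDimensional K B] {ι : A →ₐ[K] B}
  {ρ : B →ₗ[K] A} {WA : ℚ → Submodule K A} {W : ℚ → Submodule K B}

/-- The retraction can be chosen homogeneous of degree zero. -/
theorem exists_rho0' (hret : ∀ h, ρ (ι h) = h) (hleft : ∀ h b, ρ (ι h * b) = h * ρ b)
    (hright : ∀ h b, ρ (b * ι h) = ρ b * h) (hA : H175.GrAlg WA) (hB : H175.GrAlg W)
    (hι : ∀ r, ∀ h ∈ WA r, ι h ∈ W r) : ∃ ρ0 : B →ₗ[K] A, Ret0 ι ρ0 WA W := by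
  classical
  have hfin := finite_support (K := K) hB.int.submodule_iSupIndep
  let S : Finset ℚ := hfin.toFinset
  let ρ0 : B →ₗ[K] A := ∑ r ∈ S, (cpt WA r) ∘ₗ ρ ∘ₗ (cpt W r)
  have key : ∀ r, ∀ b ∈ W r, ρ0 b = cpt WA r (ρ b) := by
    intro r b hb
    simp only [ρ0, LinearMap.sum_apply, LinearMap.comp_apply]
    by_cases hr : r ∈ S
    · rw [Finset.sum_eq_single r]
      · rw [cpt_of_mem hB.int hb, if_pos rfl]
      · intro s _ hs
        rw [cpt_of_mem hB.int hb, if_neg (Ne.symm hs), map_zero, map_zero]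
      · exact fun h => absurd hr h
    · have h0 : b = 0 := by
        have : W r = ⊥ := by
          by_contra h
          exact hr (hfin.mem_toFinset.mpr h)
        rw [this] at hb
        simpa using hb
      simp [h0]
  refine ⟨ρ0, fun h => ?_, fun h b => ?_, fun h b => ?_, fun r b hb => ?_, hι⟩
  · refine induction_gr hA.int (P := fun h => ρ0 (ι h) = h) ?_ ?_ h
    · intro r h hh
      rw [key r _ (hι r h hh), hret, cpt_of_mem hA.int hh, if_pos rfl]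
    · intro x y hx hy
      rw [map_add, map_add, hx, hy]
  · refine induction_gr hA.int (P := fun h => ρ0 (ι h * b) = h * ρ0 b) ?_ ?_ h
    · intro t h hh
      refine induction_gr hB.int (P := fun b => ρ0 (ι h * b) = h * ρ0 b) ?_ ?_ b
      · intro r b hb
        rw [key _ _ (hB.mul (hι t h hh) hb), key r b hb, hleft, cpt_mul_left hA hh,
          add_sub_cancel_left]
      · intro x y hx hy
        simp only [mul_add, map_add, hx, hy]
    · intro x y hx hy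
      simp only [map_add, add_mul, hx, hy]
  · refine induction_gr hA.int (P := fun h => ρ0 (b * ι h) = ρ0 b * h) ?_ ?_ h
    · intro t h hh
      refine induction_gr hB.int (P := fun b => ρ0 (b * ι h) = ρ0 b * h) ?_ ?_ b
      · intro r b hb
        rw [key _ _ (hB.mul hb (hι t h hh)), key r b hb, hright, cpt_mul_right hA hh,
          add_sub_cancel_right]
      · intro x y hx hy
        simp only [add_mul, map_add, hx, hy]
    · intro x y hx hy
      simp only [map_add, mul_add, hx, hy]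
  · rw [key r b hb]
    exact cpt_mem hA.int r _

end rho0

section ep

variable {K A1 A B Γ1 I : Type*} [Field K] [Ring A1] [Algebra K A1] [FiniteDimensional K A1]
  [Ring A] [Algebra K A] [FiniteDimensional K A] [Ring B] [Algebra K B] [FiniteDimensional K B]
  [Group Γ1] [Fintype Γ1] {γ1 : Γ1 →* A1} {κ : A1 →ₐ[K] A} {ι : A →ₐ[K] B} {ρ : B →ₗ[K] A}
  {θ : B →ₗ[K] B} {W1 : ℚ → Submodule K A1} {WA : ℚ → Submodule K A} {W : ℚ → Submodule K B}
  {J : Submodule K A1} {ε : I → A1}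

omit [FiniteDimensional K A1] [FiniteDimensional K A] [FiniteDimensional K B] in
theorem RRel.cp (R : RRel γ1 κ ι ρ θ) {ρ0 : B →ₗ[K] A} (D : Ret0 ι ρ0 WA W)
    (hκ : ∀ r, ∀ h ∈ W1 r, κ h ∈ WA r) : Cp γ1 (ι.comp κ) W1 W (cpl ι ρ0) where
  idem := D.cpl_cpl
  left := fun a b => D.cpl_left (κ a) b
  right := fun a b => D.cpl_right (κ a) b
  deg := D.cpl_deg
  inj := fun r h hh => D.inj r _ (hκ r h hh)
  hig := by
    refine ⟨cpl ι ρ0 ∘ₗ θ, fun b => ?_⟩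
    have h := congrArg (cpl ι ρ0) (R.hig b)
    rw [map_sub, cpl_apply (b := ι (ρ b)), D.ret, sub_self, sub_zero, map_sum] at h
    rw [← h]
    refine Finset.sum_congr rfl fun x _ => ?_
    rw [map_sum]
    refine Finset.sum_congr rfl fun y _ => ?_
    rw [D.cpl_right, D.cpl_left]
    rfl

/-- **EP3rel.** -/
theorem RRel.ep3 [Fintype I] [DecidableEq I] (R : RRel γ1 κ ι ρ θ)
    (hspan : Submodule.span K (Set.range γ1) = ⊤) (hb : Basic W1 J ε)
    (hA : H175.GrAlg WA) (hB : H175.GrAlg W) (hκ : ∀ r, ∀ h ∈ W1 r, κ h ∈ WA r)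
    (hι : ∀ r, ∀ h ∈ WA r, ι h ∈ W r) :
    ∃ Wm : Matrix I I ZQ, ∀ a b, gd W (cor2 K (ι (κ (ε a))) (ι (κ (ε b)))) =
      gd WA (cor2 K (κ (ε a)) (κ (ε b))) + ∑ a', ∑ b', gd W1 (cor2 K (ε a) (ε a')) * Wm a' b' *
        gd W1 (cor2 K (ε b') (ε b)) := by
  obtain ⟨ρ0, D⟩ := exists_rho0' R.ret R.left R.right hA hB hι
  obtain ⟨Wm, hW⟩ := (R.cp D hκ).gd_mid hspan hb hB
  refine ⟨Wm, fun a b => ?_⟩
  rw [← hW a b, gd_cor2_eq D hA hB]
  congr 2
  ext x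
  rw [mem_Uab, mem_Uc, cpl_apply]
  refine and_congr_right fun _ => ⟨fun h => by rw [h, map_zero, sub_zero], fun h => ?_⟩
  have h1 : ι (ρ0 x) = 0 := by
    have h2 := sub_eq_self.mp h
    exact h2
  rw [← D.ret (ρ0 x), h1, map_zero]

omit [FiniteDimensional K A1] [FiniteDimensional K A] in
/-- `B E` is graded projective over `A1`. -/
theorem RRel.retr (R : RRel γ1 κ ι ρ θ) (hspan : Submodule.span K (Set.range γ1) = ⊤)
    (hA : H175.GrAlg WA) (hB : H175.GrAlg W) (hκ : ∀ r, ∀ h ∈ W1 r, κ h ∈ WA r)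
    (hι : ∀ r, ∀ h ∈ WA r, ι h ∈ W r) {E : B} (hE0 : E ∈ W 0) (hE : E * E = E) :
    Retr γ1 (ι.comp κ) W (LinearMap.mulRight K E) := by
  obtain ⟨ρ0, D⟩ := exists_rho0' R.ret R.left R.right hA hB hι
  obtain ⟨ψ, h5, -, -⟩ := (R.cp D hκ).exists_psi hspan
  obtain ⟨l, hl⟩ := R.free
  refine ⟨fun a b => ?_, fun b => ?_, fun r b hb => ?_, 0, 0,
    LinearMap.mulRight K E ∘ₗ (ψ + ι.toLinearMap ∘ₗ l ∘ₗ ρ0), fun a b => ?_, ?_, fun b hb => ?_⟩
  · simp only [LinearMap.mulRight_apply, mul_assoc]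
  · simp only [LinearMap.mulRight_apply, mul_assoc, hE]
  · have := hB.mul hb hE0
    rwa [add_zero] at this
  · simp
  · simp
  · have hb' : b * E = b := hb
    have h8 : ∑ x : Γ1, (ι.comp κ) (γ1 x) * ψ ((ι.comp κ) (γ1 x⁻¹) * b) = b - ι (ρ0 b) := h5 b
    have h9 : ∑ x : Γ1, (ι.comp κ) (γ1 x) * ι (l (ρ0 ((ι.comp κ) (γ1 x⁻¹) * b))) = ι (ρ0 b) := by
      conv_rhs => rw [← hl (ρ0 b), map_sum]
      refine Finset.sum_congr rfl fun x _ => ?_
      rw [AlgHom.comp_apply, AlgHom.comp_apply, D.left, map_mul ι]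
    have h10 : ∀ x : Γ1, (ι.comp κ) (γ1 x) *
        (LinearMap.mulRight K E ∘ₗ (ψ + ι.toLinearMap ∘ₗ l ∘ₗ ρ0)) ((ι.comp κ) (γ1 x⁻¹) * b) =
        ((ι.comp κ) (γ1 x) * ψ ((ι.comp κ) (γ1 x⁻¹) * b) +
          (ι.comp κ) (γ1 x) * ι (l (ρ0 ((ι.comp κ) (γ1 x⁻¹) * b)))) * E := by
      intro x
      rw [LinearMap.comp_apply, LinearMap.mulRight_apply, ← mul_assoc, LinearMap.add_apply, mul_add]
      rfl
    rw [mul_zero, zero_add, Finset.sum_congr rfl fun x _ => h10 x, ← Finset.sum_mul,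
      Finset.sum_add_distrib, h8, h9, sub_add_cancel, hb']

omit [FiniteDimensional K A] in
/-- **EP2rel.** -/
theorem RRel.ep2 [Fintype I] (R : RRel γ1 κ ι ρ θ)
    (hspan : Submodule.span K (Set.range γ1) = ⊤) (hb : Basic W1 J ε)
    (hA : H175.GrAlg WA) (hB : H175.GrAlg W) (hκ : ∀ r, ∀ h ∈ W1 r, κ h ∈ WA r)
    (hι : ∀ r, ∀ h ∈ WA r, ι h ∈ W r) {E : B} (hE0 : E ∈ W 0) (hE : E * E = E) :
    ∃ w : I → ZQ, ∀ η ∈ W1 0, η * η = η →
      gd W (cor2 K (ι (κ η)) E) = ∑ b, gd W1 (cor2 K η (ε b)) * w b := by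
  classical
  obtain ⟨n, i, r, x, -, -, -, -, -, f6, -⟩ := fam_retract (ι.comp κ) hspan hb hB
    (fun r h hh => hι r _ (hκ r h hh)) (R.retr hspan hA hB hκ hι hE0 hE)
  refine ⟨mult i r, fun η hη0 hη => ?_⟩
  rw [← sum_mult i r (fun b => gd W1 (cor2 K η (ε b)))]
  exact f6 η hη0 hη

end ep

end Vale.P179.H737.R
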