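import Vale.Agent.P179.H342.R5
import Vale.Agent.P179.H554.Core1
import Vale.Agent.P179.H737.RCore
import Vale.Agent.P179.H737.REP3

/-!
# REL: module CORE
-/

namespace Vale.P179.H737.R

open Matrix Module Vale.P179.H175 Vale.P179.H904 Vale.P179.H815 Vale.P179.H445 Vale.P179.H300
open P179H342

/-- **CORErel**: the inequality over `K` from the relative data, `T2` and `A3`. -/
theorem core_rel {K A A1 B Γ Γ1 : Type} [Field K] [Ring A] [Algebra K A] [FiniteDimensional K A]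
    [Ring A1] [Algebra K A1] [FiniteDimensional K A1] [Ring B] [Algebra K B]
    [FiniteDimensional K B] [Group Γ] [Fintype Γ] [Group Γ1] [Fintype Γ1] {γ : Γ →* A}
    {γ1 : Γ1 →* A1} {i1 : Γ1 →* Γ} {D2 : Subgroup Γ} {t : Γ} {e M c : ℕ} [NeZero e]
    (R : RGr K A Γ γ D2 t e M c) (R1 : RGr1 K A A1 Γ Γ1 γ γ1 i1 D2 t e M c R)
    {ι : A →ₐ[K] B} {ρ : B →ₗ[K] A} {θ : B →ₗ[K] B} (RR : RRel γ1 R1.κ ι ρ θ)
    (hspan : Submodule.span K (Set.range γ1) = ⊤)
    {W : ℚ → Submodule K B} {J : Submodule K B} {n : ℕ} {E : Fin n → B} (hB : Basic W J E)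
    (hι : ∀ r : ℚ, ∀ h ∈ R.W r, ι h ∈ W r)
    (T2 : ∀ x y : B, x ∈ W 0 → y ∈ W 0 → x * x = x → y * y = y →
      gd W (cor2 K x y) = H904.tq ((M : ℚ) - 1) * H904.barQ (gd W (cor2 K y x)))
    (A3 : ∀ u : Matrix (ZMod e) (Fin n) RQ,
      (∀ a m, emb (gd W (cor2 K (ι (R.ε a)) (E m))) = ∑ b, CHr M c R.P a b * u b m) →
      ∃ z : Matrix (Fin n) (Fin n) RQ, ct u * embM (ymat W J E (fun a => ι (R.ε a))) =
        1 + embM (cmat W E) * z) :
    e ≤ n := by
  classical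
  obtain ⟨q, hq, hM⟩ := R.hM
  -- EP2
  choose w hw using fun m => RR.ep2 hspan R1.H1.basic R.basic.gr hB.gr R1.κW hι (hB.deg m)
    (hB.idem m)
  let um : Matrix (ZMod e) (Fin n) H904.ZQ := Matrix.of fun b m => w m b
  obtain ⟨u, hu, -⟩ := ep2_rat (N := M) (c := c) R.hP um
  have EP2 : ∀ a m, emb (gd W (cor2 K (ι (R.ε a)) (E m))) = ∑ b, CHr M c R.P a b * u b m := by
    intro a m
    rw [← R1.κε a, hw m _ (R1.H1.basic.deg a) (R1.H1.basic.idem a), ← Matrix.mul_apply, ← hu,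
      embM, Matrix.map_apply, Matrix.mul_apply]
    congr 1
    exact Finset.sum_congr rfl fun b _ => by rw [R1.H1.dim]; rfl
  -- EP3
  obtain ⟨Wm, hWm⟩ := RR.ep3 hspan R1.H1.basic R.basic.gr hB.gr R1.κW hι
  obtain ⟨W', hW'⟩ := ep3_rat (N := M) (c := c) R.hP Wm
  have EP3 : ∀ a b, emb (gd W (cor2 K (ι (R.ε a)) (ι (R.ε b)))) =
      CHr M c R.P a b + (CHr M c R.P * W' * CHr M c R.P) a b := by
    intro a b
    rw [← R1.κε a, ← R1.κε b, hWm a b, map_add, R1.κε, R1.κε, R.dim, CHr_apply, ← hW', embM,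
      Matrix.map_apply, Matrix.mul_apply]
    congr 2
    simp_rw [Matrix.mul_apply, Finset.sum_mul, R1.H1.dim]
    rw [Finset.sum_comm]
  obtain ⟨z, hz⟩ := A3 u EP2
  have h1 : e ≤ Fintype.card (Fin n) := by
    refine num_core_rel (W := W) (J := J) (e := E) (d := e) (N := M) (M := q) (c := c)
      (u := u) (Wm := W') (z := z) ?_ hB.gr hB.deg hB.idem hM hq R.hP
      (fun a => ι (R.ε a)) (fun a => hι 0 _ (R.basic.deg a))
      (fun a => by rw [← map_mul, R.basic.idem]) T2 EP2 EP3 hz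
    intro X _ _ _ _ _ V hV ε hε hεε
    exact L1 hB hV hε hεε
  simpa using h1

end Vale.P179.H737.R
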