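import Mathlib

/-!
# REL: Higman's identity over `D1` and over `D1 ⋊ ⟨t⟩`
-/

namespace Vale.P179.H737.R

section sum

variable {Γ : Type*} [Group Γ] (D1 C : Subgroup Γ)

/-- `D1 × C ≃ D1 ⊔ C` for a normal subgroup `D1` and a complement `C`. -/
noncomputable def supEquiv (hn : D1.Normal) (hd : D1 ⊓ C = ⊥) :
    D1 × C ≃ ↥(D1 ⊔ C) :=
  Equiv.ofBijective
    (fun q => ⟨(q.1 : Γ) * q.2, mul_mem (Subgroup.mem_sup_left q.1.2) (Subgroup.mem_sup_right q.2.2)⟩)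
    (by
      constructor
      · rintro ⟨x, y⟩ ⟨x', y'⟩ h
        have h1 : (x : Γ) * y = x' * y' := congrArg Subtype.val h
        have h2 : (x' : Γ)⁻¹ * x = y' * (y : Γ)⁻¹ := by
          rw [inv_mul_eq_iff_eq_mul, ← mul_assoc, eq_mul_inv_iff_mul_eq, h1]
        have h3 : (x' : Γ)⁻¹ * x ∈ D1 ⊓ C := by
          refine ⟨D1.mul_mem (D1.inv_mem x'.2) x.2, ?_⟩
          rw [SetLike.mem_coe, h2]
          exact C.mul_mem y'.2 (C.inv_mem y.2)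
        rw [hd, Subgroup.mem_bot] at h3
        have h4 : x = x' := Subtype.ext (inv_mul_eq_one.mp h3).symm
        subst h4
        have h5 : y = y' := Subtype.ext (mul_left_cancel h1)
        rw [h5]
      · rintro ⟨g, hg⟩
        obtain ⟨x, hx, y, hy, h⟩ := (Subgroup.mem_sup_of_normal_left (hs := hn)).mp hg
        exact ⟨(⟨x, hx⟩, ⟨y, hy⟩), Subtype.ext h⟩)

theorem supEquiv_apply (hn : D1.Normal) (hd : D1 ⊓ C = ⊥) (q : D1 × C) :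
    ((supEquiv D1 C hn hd q : ↥(D1 ⊔ C)) : Γ) = q.1 * q.2 := rfl

theorem sum_sup [Fintype D1] [Fintype C] [Fintype ↥(D1 ⊔ C)] (hn : D1.Normal) (hd : D1 ⊓ C = ⊥) {M : Type*} [AddCommMonoid M] (g : Γ → M)
    (hg : ∀ x, ∀ c ∈ C, g (x * c) = g x) :
    ∑ x : ↥(D1 ⊔ C), g x = Fintype.card C • ∑ x : D1, g x := by
  rw [← (supEquiv D1 C hn hd).sum_comp, Fintype.sum_prod_type, Finset.smul_sum]
  refine Finset.sum_congr rfl fun x _ => ?_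
  rw [Finset.sum_congr rfl fun (y : C) _ => by
    rw [supEquiv_apply, hg (x : Γ) y y.2], Finset.sum_const, Finset.card_univ]

end sum

/-- Higman's identity over `D1` with a `C`-bilinear map gives the identity over `D1 ⊔ C`. -/
theorem hig_sup {K A B Γ : Type*} [Field K] [Ring A] [Algebra K A] [Ring B] [Algebra K B]
    [Group Γ] (γ : Γ →* A) (ι : A →ₐ[K] B) (ρ : B →ₗ[K] A) (θ : B →ₗ[K] B)
    (D1 C : Subgroup Γ) [Fintype D1] [Fintype C] [Fintype ↥(D1 ⊔ C)] (hn : D1.Normal) (hd : D1 ⊓ C = ⊥) (hC : (Fintype.card C : K) ≠ 0)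
    (hig : ∀ b, ∑ x : D1, ∑ y : D1, ι (γ x) * θ (ι (γ (x : Γ)⁻¹) * b * ι (γ y)) *
      ι (γ (y : Γ)⁻¹) = b - ι (ρ b))
    (θl : ∀ c ∈ C, ∀ b, θ (ι (γ c) * b) = ι (γ c) * θ b)
    (θr : ∀ c ∈ C, ∀ b, θ (b * ι (γ c)) = θ b * ι (γ c)) (b : B) :
    ∑ x : ↥(D1 ⊔ C), ∑ y : ↥(D1 ⊔ C), ι (γ x) * ((Fintype.card C : K)⁻¹ ^ 2 • θ)
      (ι (γ (x : Γ)⁻¹) * b * ι (γ y)) * ι (γ (y : Γ)⁻¹) = b - ι (ρ b) := by
  let f : Γ → Γ → B := fun x y => ι (γ x) * θ (ι (γ x⁻¹) * b * ι (γ y)) * ι (γ y⁻¹)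
  have hf1 : ∀ x y, ∀ c ∈ C, f x (y * c) = f x y := by
    intro x y c hc
    have h1 : ι (γ c) * ι (γ c⁻¹) = 1 := by
      rw [← map_mul, ← map_mul, mul_inv_cancel, map_one, map_one]
    simp only [f, map_mul, mul_inv_rev]
    rw [← mul_assoc (ι (γ x⁻¹) * b), θr c hc, ← mul_assoc, mul_assoc _ _ (ι (γ c⁻¹)),
      mul_assoc _ (ι (γ c)), h1, mul_one]
  have hf2 : ∀ x y, ∀ c ∈ C, f (x * c) y = f x y := by
    intro x y c hc
    have h1 : ι (γ c) * ι (γ c⁻¹) = 1 := by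
      rw [← map_mul, ← map_mul, mul_inv_cancel, map_one, map_one]
    simp only [f, map_mul, mul_inv_rev]
    rw [mul_assoc (ι (γ c⁻¹)), mul_assoc (ι (γ c⁻¹)), θl c⁻¹ (C.inv_mem hc), ← mul_assoc,
      mul_assoc (ι (γ x)), h1, mul_one]
  have h2 : ∀ x : Γ, ∑ y : ↥(D1 ⊔ C), f x y = Fintype.card C • ∑ y : D1, f x y := fun x =>
    sum_sup D1 C hn hd (f x) (hf1 x)
  have h3 : ∑ x : ↥(D1 ⊔ C), ∑ y : ↥(D1 ⊔ C), f x y =
      Fintype.card C • ∑ x : D1, Fintype.card C • ∑ y : D1, f x y := by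
    rw [Finset.sum_congr rfl fun (x : ↥(D1 ⊔ C)) _ => h2 x]
    exact sum_sup D1 C hn hd (fun x => Fintype.card C • ∑ y : D1, f x y)
      (fun x c hc => by simp only [hf2 x _ c hc])
  have h4 : ∑ x : ↥(D1 ⊔ C), ∑ y : ↥(D1 ⊔ C), ι (γ x) * ((Fintype.card C : K)⁻¹ ^ 2 • θ)
      (ι (γ (x : Γ)⁻¹) * b * ι (γ y)) * ι (γ (y : Γ)⁻¹) =
      (Fintype.card C : K)⁻¹ ^ 2 • ∑ x : ↥(D1 ⊔ C), ∑ y : ↥(D1 ⊔ C), f x y := by
    simp only [Finset.smul_sum, LinearMap.smul_apply, mul_smul_comm, smul_mul_assoc, f]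
  rw [h4, h3, ← hig b]
  simp only [← Finset.smul_sum, ← Nat.cast_smul_eq_nsmul K, smul_smul, f]
  rw [show (Fintype.card C : K)⁻¹ ^ 2 * ((Fintype.card C : K) * (Fintype.card C : K)) = 1 by
    field_simp, one_smul]

end Vale.P179.H737.R
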