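import Vale.Agent.P179.Rel.Defs
import Vale.Agent.P179.H737.REP4
import Vale.Agent.P179.H737.RSum

/-!
# REL: module CORER in the frozen letters
-/

namespace Vale.P179.H737.R

open Matrix Module Vale.P179.H175 Vale.P179.H904 Vale.P179.H815 Vale.P179.H445 Vale.P179.H300
open P179H342 Vale.P179.Sgn

/-- `e` is prime to the characteristic. -/
theorem card_zpowers_ne {p : ℕ} [Fact p.Prime] {k : Type} [Field k] [CharP k p] {Γ : Type}
    [Group Γ] [Fintype Γ] {D1 D2 : Subgroup Γ} {t : Γ} {e : ℕ} [NeZero e]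
    (hF : FreeCycR p Γ D1 D2 t e) : (e : k) ≠ 0 := by
  have he : e ≠ 0 := NeZero.ne e
  have := hF.n1
  let _ : CommGroup D1 := { (inferInstance : Group D1) with
    mul_comm := fun x y => Subtype.ext (hF.comm x (le_sup_left (a := D1) x.2) y
      (le_sup_left (a := D1) y.2)) }
  have _ : Fintype D1 := Fintype.ofFinite D1
  have hnt : Nontrivial D1 := (Subgroup.nontrivial_iff_ne_bot D1).mpr hF.ne
  have hte : t ^ e = 1 := by rw [← hF.ord]; exact pow_orderOf_eq_one t
  set τ1 : MulAut D1 := MulAut.conjNormal t with hτ1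
  have hτi1 : ∀ (i : ℕ) (d : D1), (((τ1 ^ i) d : D1) : Γ) = t ^ i * d * (t ^ i)⁻¹ := by
    intro i d
    rw [hτ1, ← map_pow, MulAut.conjNormal_apply]
  have hτe1 : τ1 ^ e = 1 := by
    ext d
    rw [hτi1, hte]
    simp
  have hτf : ∀ (i : ℕ) (d : D1), d ≠ 1 → (τ1 ^ i) d = d → e ∣ i := by
    intro i d hd h
    apply hF.free i d d.2 (fun h1 => hd (Subtype.ext h1))
    have h2 := congrArg (Subtype.val) h
    rw [hτi1] at h2
    exact mul_inv_eq_iff_eq_mul.mp h2
  have hpe : ¬ p ∣ e := not_dvd_of_free p τ1 e he hF.p1 hτe1 hτf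
  intro h
  exact hpe ((CharP.cast_eq_zero_iff k p e).mp h)

section nrm

variable {k A B Γ : Type} [Field k] [Ring A] [Algebra k A] [Ring B] [Algebra k B]
  [Group Γ] [Fintype Γ] {D1 D2 : Subgroup Γ} {t : Γ} (D : Rel.RKData k A B Γ D1 D2 t)

theorem mul_nrm (h : A) : h * (∑ g, D.γ g) = D.aug h • ∑ g, D.γ g := by
  have hh : h ∈ Submodule.span k (Set.range D.γ) := by rw [D.span]; trivial
  induction hh using Submodule.span_induction with
  | mem x hx =>
    obtain ⟨g, rfl⟩ := hx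
    rw [D.augγ, one_smul, Finset.mul_sum]
    simp_rw [← map_mul]
    exact Equiv.sum_comp (Equiv.mulLeft g) fun x => D.γ x
  | zero => rw [zero_mul, map_zero, zero_smul]
  | add x y _ _ hx hy => rw [add_mul, map_add, add_smul, hx, hy]
  | smul r x _ hx => rw [smul_mul_assoc, hx, map_smul, smul_assoc]

theorem nrm_mul (h : A) : (∑ g, D.γ g) * h = D.aug h • ∑ g, D.γ g := by
  have hh : h ∈ Submodule.span k (Set.range D.γ) := by rw [D.span]; trivial
  induction hh using Submodule.span_induction with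
  | mem x hx =>
    obtain ⟨g, rfl⟩ := hx
    rw [D.augγ, one_smul, Finset.sum_mul]
    simp_rw [← map_mul]
    exact Equiv.sum_comp (Equiv.mulRight g) fun x => D.γ x
  | zero => rw [mul_zero, map_zero, zero_smul]
  | add x y _ _ hx hy => rw [mul_add, map_add, add_smul, hx, hy]
  | smul r x _ hx => rw [mul_smul_comm, hx, map_smul, smul_assoc]

end nrm

/-- The relative data in `RRel` form, over `A₁ = k[D1 ⋊ ⟨t⟩]`. -/
theorem exists_rrel {p : ℕ} [Fact p.Prime] {K A B A1 Γ : Type} [Field K] [CharP K p] [Ring A]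
    [Algebra K A] [Ring B] [Algebra K B] [Ring A1] [Algebra K A1] [Group Γ] [Fintype Γ]
    {D1 D2 : Subgroup Γ} {t : Γ} [Fintype ↥(D1 ⊔ Subgroup.zpowers t)] {e M c : ℕ} [NeZero e]
    (hF : FreeCycR p Γ D1 D2 t e) (X : Rel.RAll K A B A1 Γ D1 D2 t e M c) :
    ∃ θ : B →ₗ[K] B, RRel X.γ1 X.G1.κ X.D.ι X.D.ρ θ := by
  classical
  have _ : Fintype D1 := Fintype.ofFinite D1
  have _ : Fintype (Subgroup.zpowers t) := Fintype.ofFinite _
  have hC : (Fintype.card (Subgroup.zpowers t) : K) ≠ 0 := by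
    rw [← Nat.card_eq_fintype_card, Nat.card_zpowers, hF.ord]
    exact card_zpowers_ne hF
  have hd : D1 ⊓ Subgroup.zpowers t = ⊥ := by
    have h1 := hF.compl.disjoint
    rw [eq_bot_iff]
    intro x hx
    exact (disjoint_iff.mp h1).le ⟨Subgroup.mem_sup_left hx.1, hx.2⟩
  have R := X.D.rel
  have hig := hig_sup X.D.γ X.D.ι X.D.ρ X.D.θ D1 (Subgroup.zpowers t) hF.n1 hd hC
    (fun b => R.hig b)
    (fun c hc b => X.D.θl c (Subgroup.mem_sup_right hc) b)
    (fun c hc b => X.D.θr c (Subgroup.mem_sup_right hc) b)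
  refine ⟨(Fintype.card (Subgroup.zpowers t) : K)⁻¹ ^ 2 • X.D.θ,
    ⟨R.ret, R.left, R.right, fun b => ?_, ?_⟩⟩
  rotate_left
  · obtain ⟨l, hl⟩ := X.G1.free
    refine ⟨l, fun a => ?_⟩
    simp only [X.G1.κγ]
    exact hl a
  · have h := hig b
    simp only [X.G1.κγ]
    exact h

/-- **Module CORER.** -/
theorem corer (h3 : Rel.A3R) : Rel.CORER := by
  intro p _ K A B A1 Γ _ _ _ _ _ _ _ _ _ _ _ _ _ _ D1 D2 t _ e M c _ hF X hZ W J n E hB hι
  have _ : Fintype D1 := Fintype.ofFinite D1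
  have R := X.D.rel
  obtain ⟨θ, RR⟩ := exists_rrel hF X
  refine core_rel X.H X.G1 RR X.span1 hB hι ?_ ?_
  · intro x y hx hy hxx hyy
    have hc0 : (Fintype.card D1 : K) = 0 := by
      rw [← Nat.card_eq_fintype_card]
      exact X.D.card0
    exact gd_cor2 hB.gr R X.D.aug hc0 X.D.tc X.D.nd X.D.tρ hZ (hι _ _ X.H.top)
      (H554.form_norm_ne_zero R X.D.aug X.D.nd X.D.tρ X.D.nz (nrm_mul X.D)) (mul_nrm X.D)
      hx hy hxx hyy
  · exact h3 p K A B A1 Γ D1 D2 t e M c hF X hZ W J n E hB hι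

end Vale.P179.H737.R
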