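import Vale.Agent.P179.H815.LL0

/-!
# REL / A3R: the span of the projective classes
-/

namespace Vale.P179.H737.R

open Module Matrix Vale.P179.H175 Vale.P179.H815.LL

/-- If the classes of the projective modules are of the form `C * z`, so is everything in the
span. -/
theorem exists_of_mem_PP {K L : Type} [Field K] [Ring L] [Algebra K L] {W : ℚ → Submodule K L}
    {n : ℕ} {F : Fin n × Fin n → Type} [∀ i, AddCommGroup (F i)] [∀ i, Module K (F i)]
    [∀ i, Module L (F i)] [∀ i, IsScalarTower K L (F i)] {V : ∀ i, ℚ → Submodule K (F i)}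
    (C : Matrix (Fin n) (Fin n) H904.ZQ)
    (h : ∀ a ∈ W 0, a * a = a → ∃ z : Matrix (Fin n) (Fin n) H904.ZQ, ∀ m j,
      gd (V (m, j)) (cor1 K (F (m, j)) a) = ∑ c, C m c * z c j)
    {c : Fin n × Fin n → RQ} (hc : c ∈ PP W F V) :
    ∃ z : Matrix (Fin n) (Fin n) RQ, ∀ m j, c (m, j) = (embM C * z) m j := by
  unfold PP at hc
  induction hc using Submodule.span_induction with
  | mem c hc =>
    obtain ⟨a, ha, haa, rfl⟩ := hc
    obtain ⟨z, hz⟩ := h a ha haa
    refine ⟨embM z, fun m j => ?_⟩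
    change emb (gd (V (m, j)) (cor1 K (F (m, j)) a)) = _
    rw [hz, map_sum, Matrix.mul_apply]
    refine Finset.sum_congr rfl fun c _ => ?_
    rw [map_mul]
    rfl
  | zero => exact ⟨0, fun m j => by simp⟩
  | add c c' _ _ h1 h2 =>
    obtain ⟨z, hz⟩ := h1
    obtain ⟨z', hz'⟩ := h2
    exact ⟨z + z', fun m j => by
      rw [Matrix.mul_add, Matrix.add_apply, ← hz, ← hz', Pi.add_apply]⟩
  | smul r c _ h1 =>
    obtain ⟨z, hz⟩ := h1
    exact ⟨r • z, fun m j => by
      rw [Matrix.mul_smul, Matrix.smul_apply, ← hz, Pi.smul_apply]⟩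

/-- **FIN**: the shape of `A3`. -/
theorem fin_A3 {K L : Type} [Field K] [Ring L] [Algebra K L] {W : ℚ → Submodule K L}
    {n : ℕ} {F : Fin n × Fin n → Type} [∀ i, AddCommGroup (F i)] [∀ i, Module K (F i)]
    [∀ i, Module L (F i)] [∀ i, IsScalarTower K L (F i)] {V : ∀ i, ℚ → Submodule K (F i)}
    (C : Matrix (Fin n) (Fin n) H904.ZQ)
    (h : ∀ a ∈ W 0, a * a = a → ∃ z : Matrix (Fin n) (Fin n) H904.ZQ, ∀ m j,
      gd (V (m, j)) (cor1 K (F (m, j)) a) = ∑ c, C m c * z c j)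
    {c : Fin n × Fin n → RQ} (hc : c ∈ PP W F V) {X : Matrix (Fin n) (Fin n) RQ}
    (hX : ∀ m j, X m j = (1 : Matrix (Fin n) (Fin n) RQ) m j + c (m, j)) :
    ∃ z : Matrix (Fin n) (Fin n) RQ, X = 1 + embM C * z := by
  obtain ⟨z, hz⟩ := exists_of_mem_PP C h hc
  refine ⟨z, Matrix.ext fun m j => ?_⟩
  rw [hX, hz, Matrix.add_apply]

end Vale.P179.H737.R
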