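import Vale.Agent.P179.H365.Crn

/-!
# ALLB / Ten5: `lB` of corners and of `L ⊗ M_n(k)`
-/

namespace Vale.P179.H737

open Module Vale.P179.Sgn Vale.P179.H365
open scoped TensorProduct

section Wed

variable (k X : Type) [Field k] [IsAlgClosed k] [Ring X] [Algebra k X] [FiniteDimensional k X]

/-- Wedderburn for a finite-dimensional algebra over an algebraically closed field. -/
theorem exists_wed : ∃ (r : ℕ) (d : Fin r → ℕ) (_ : ∀ i, NeZero (d i))
    (F : X →ₐ[k] Π i, Matrix (Fin (d i)) (Fin (d i)) k),
    Function.Surjective F ∧ ∀ x, F x = 0 → IsNilpotent x := by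
  classical
  have hart : IsArtinianRing X := IsArtinianRing.of_finite k _
  let J := Ring.jacobson X
  have : IsSemisimpleRing (X ⧸ J) := IsSemiprimaryRing.isSemisimpleRing
  obtain ⟨r, d, hd, ⟨e⟩⟩ := IsSemisimpleRing.exists_algEquiv_pi_matrix_of_isAlgClosed k (X ⧸ J)
  refine ⟨r, d, hd, (e : _ →ₐ[k] _).comp (Ideal.Quotient.mkₐ k J), ?_, ?_⟩
  · intro y
    obtain ⟨x, hx⟩ := Ideal.Quotient.mk_surjective (e.symm y)
    refine ⟨x, ?_⟩
    simp [hx]
  · intro x hx
    have h0 : e (Ideal.Quotient.mk J x) = 0 := hx
    rw [map_eq_zero_iff _ e.injective] at h0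
    have hxJ : x ∈ Ring.jacobson X := Ideal.Quotient.eq_zero_iff_mem.mp h0
    obtain ⟨n, hn⟩ := IsSemiprimaryRing.isNilpotent (R := X)
    refine ⟨n, ?_⟩
    have h1 := Ideal.pow_mem_pow hxJ n
    rw [hn] at h1
    exact h1

end Wed

section

variable {k X : Type} [Field k] [Ring X] [Algebra k X]

/-- all traces vanish on `TB` -/
theorem trace_eq_zero_of_mem_TB {r : ℕ} {d : Fin r → ℕ}
    (F : X →ₐ[k] Π i, Matrix (Fin (d i)) (Fin (d i)) k) {x : X} (hx : x ∈ TB k X) (i : Fin r) :
    (F x i).trace = 0 := by
  classical
  let T : X →ₗ[k] k := (Matrix.traceLinearMap (Fin (d i)) k k) ∘ₗ (LinearMap.proj i) ∘ₗ F.toLinearMap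
  have hT : TB k X ≤ LinearMap.ker T := by
    rw [TB, Submodule.span_le]
    rintro y (hy | ⟨a, b, rfl⟩)
    · have h1 : IsNilpotent (F y i) := by
        obtain ⟨n, hn⟩ := hy
        refine ⟨n, ?_⟩
        rw [← Pi.pow_apply, ← map_pow, hn, map_zero, Pi.zero_apply]
      have h2 := (Matrix.isNilpotent_trace_of_isNilpotent h1)
      exact h2.eq_zero
    · show (F (a * b - b * a) i).trace = 0
      rw [map_sub, map_mul, map_mul, Pi.sub_apply, Pi.mul_apply, Pi.mul_apply, Matrix.trace_sub,
        Matrix.trace_mul_comm, sub_self]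
  exact hT hx

/-- `lB` is at least the number of Wedderburn components. -/
theorem card_le_lB [FiniteDimensional k X] {r : ℕ} {d : Fin r → ℕ} (hd : ∀ i, NeZero (d i))
    (F : X →ₐ[k] Π i, Matrix (Fin (d i)) (Fin (d i)) k) (hF : Function.Surjective F) :
    r ≤ lB k X := by
  classical
  let T : X →ₗ[k] (Fin r → k) :=
    { toFun := fun x i => (F x i).trace
      map_add' := fun x y => by
        funext i
        simp only [map_add, Pi.add_apply, Matrix.trace_add]
      map_smul' := fun c x => by
        funext i
        simp only [map_smul, Pi.smul_apply, Matrix.trace_smul, RingHom.id_apply] }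
  have hT : TB k X ≤ LinearMap.ker T := fun x hx => by
    rw [LinearMap.mem_ker]
    funext i
    exact trace_eq_zero_of_mem_TB F hx i
  have hsurj : Function.Surjective T := by
    intro y
    obtain ⟨x, hx⟩ := hF (fun i => Matrix.single (0 : Fin (d i)) (0 : Fin (d i)) (y i))
    refine ⟨x, ?_⟩
    funext i
    show (F x i).trace = y i
    rw [hx]
    simp [Matrix.trace_single_eq_same]
  have h1 : finrank k (X ⧸ LinearMap.ker T) = r := by
    rw [LinearEquiv.finrank_eq (T.quotKerEquivOfSurjective hsurj), Module.finrank_fin_fun]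
  have h2 : finrank k (X ⧸ LinearMap.ker T) ≤ finrank k (X ⧸ TB k X) :=
    LinearMap.finrank_le_finrank_of_surjective (f := Submodule.factor hT)
      (Submodule.factor_surjective hT)
  unfold lB
  omega

/-- **`lB` of a corner is at most `lB` of the algebra.** -/
theorem lB_corner_le [IsAlgClosed k] [FiniteDimensional k X] {B : Type} [Ring B] [Algebra k B]
    {f : X} (j : B →ₗ[k] X) (hj : Function.Injective j) (hm : ∀ x y, j (x * y) = j x * j y)
    (h1 : j 1 = f) (hr : ∀ a, f * a * f = a → a ∈ Set.range j) : lB k B ≤ lB k X := by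
  obtain ⟨r, d, hd, F, hF, hker⟩ := exists_wed k X
  have h2 := lB_le_card j hj hm h1 hr F hF hker (fun _ => True) (fun i hi => absurd trivial hi)
  have h3 := card_le_lB hd F hF
  have h4 : Nat.card {i : Fin r // True} = r := by simp
  omega

/-- `lB` does not grow under surjections -/
theorem lB_le_of_surjective {Y : Type} [Ring Y] [Algebra k Y] [FiniteDimensional k X]
    (φ : X →ₗ[k] Y) (hTB : ∀ x ∈ TB k X, φ x ∈ TB k Y)
    (hs : ∀ y, ∃ x, y - φ x ∈ TB k Y) : lB k Y ≤ lB k X := by
  let ψ : (X ⧸ TB k X) →ₗ[k] (Y ⧸ TB k Y) := Submodule.mapQ _ _ φ hTB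
  have hψ : Function.Surjective ψ := by
    intro y
    obtain ⟨y, rfl⟩ := Submodule.mkQ_surjective _ y
    obtain ⟨x, hx⟩ := hs y
    refine ⟨Submodule.mkQ _ x, ?_⟩
    show Submodule.Quotient.mk (φ x) = Submodule.Quotient.mk y
    rw [eq_comm, Submodule.Quotient.eq]
    exact hx
  exact LinearMap.finrank_le_finrank_of_surjective hψ

/-- **`lB (L ⊗ M_n(k)) ≤ lB L`.** -/
theorem lB_tensor_matrix_le [FiniteDimensional k X] (n : ℕ) :
    lB k (X ⊗[k] Matrix (Fin n) (Fin n) k) ≤ lB k X := by
  classical
  rcases Nat.eq_zero_or_pos n with rfl | hn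
  · have hsub : Subsingleton (X ⊗[k] Matrix (Fin 0) (Fin 0) k) := by
      refine ⟨fun a b => ?_⟩
      have h : ∀ z : X ⊗[k] Matrix (Fin 0) (Fin 0) k, z = 0 := by
        intro z
        induction z with
        | zero => rfl
        | tmul x y => rw [Subsingleton.elim y 0, TensorProduct.tmul_zero]
        | add x y hx hy => rw [hx, hy, add_zero]
      rw [h a, h b]
    have : lB k (X ⊗[k] Matrix (Fin 0) (Fin 0) k) = 0 := by
      unfold lB
      exact finrank_zero_of_subsingleton
    omega
  · let o : Fin n := ⟨0, hn⟩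
    let Y := X ⊗[k] Matrix (Fin n) (Fin n) k
    let φ : X →ₗ[k] Y :=
      (TensorProduct.mk k X (Matrix (Fin n) (Fin n) k)).flip (Matrix.single o o (1 : k))
    have hφ : ∀ x, φ x = x ⊗ₜ[k] Matrix.single o o (1 : k) := fun x => rfl
    have hoo : Matrix.single o o (1 : k) * Matrix.single o o (1 : k) = Matrix.single o o (1 : k) := by
      simp
    have hmul : ∀ x y, φ (x * y) = φ x * φ y := by
      intro x y
      rw [hφ, hφ, hφ, Algebra.TensorProduct.tmul_mul_tmul, hoo]
    apply lB_le_of_surjective φ
    · intro x hx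
      have : TB k X ≤ (TB k Y).comap φ := by
        rw [TB, Submodule.span_le]
        rintro y (hy | ⟨a, b, rfl⟩)
        · apply Submodule.subset_span
          left
          obtain ⟨m, hm⟩ := hy
          have hpow : ∀ m : ℕ, φ y ^ (m + 1) = φ (y ^ (m + 1)) := by
            intro m
            induction m with
            | zero => simp
            | succ m ih => rw [pow_succ, ih, ← hmul, ← pow_succ]
          refine ⟨m + 1, ?_⟩
          rw [hpow, pow_succ, hm, zero_mul, map_zero]
        · apply Submodule.subset_span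
          right
          exact ⟨φ a, φ b, by rw [← hmul, ← hmul, map_sub]⟩
      exact this hx
    · intro y
      have key : ∀ (x : X) (i l : Fin n) (c : k),
          ∃ x', x ⊗ₜ[k] Matrix.single i l c - φ x' ∈ TB k Y := by
        intro x i l c
        by_cases hil : i = l
        · subst hil
          refine ⟨c • x, ?_⟩
          apply Submodule.subset_span
          right
          refine ⟨x ⊗ₜ[k] Matrix.single i o c, 1 ⊗ₜ[k] Matrix.single o i 1, ?_⟩
          rw [Algebra.TensorProduct.tmul_mul_tmul, Algebra.TensorProduct.tmul_mul_tmul, hφ]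
          simp only [mul_one, one_mul, Matrix.single_mul_single_same]
          congr 1
          rw [TensorProduct.smul_tmul, Matrix.smul_single, smul_eq_mul, mul_one]
        · refine ⟨0, ?_⟩
          rw [map_zero, sub_zero]
          apply Submodule.subset_span
          left
          refine ⟨2, ?_⟩
          rw [pow_two, Algebra.TensorProduct.tmul_mul_tmul]
          have : Matrix.single i l c * Matrix.single i l c = 0 := by
            rw [Matrix.single_mul_single_of_ne]
            exact fun h => hil h.symm
          rw [this, TensorProduct.tmul_zero]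
      have add : ∀ y z : Y, (∃ x, y - φ x ∈ TB k Y) → (∃ x, z - φ x ∈ TB k Y) →
          ∃ x, (y + z) - φ x ∈ TB k Y := by
        rintro y z ⟨x, hx⟩ ⟨x', hx'⟩
        refine ⟨x + x', ?_⟩
        have := (TB k Y).add_mem hx hx'
        rw [map_add]
        rwa [show y + z - (φ x + φ x') = y - φ x + (z - φ x') by abel]
      induction y using TensorProduct.induction_on with
      | zero => exact ⟨0, by rw [map_zero, sub_zero]; exact Submodule.zero_mem _⟩
      | add y z hy hz => exact add y z hy hz
      | tmul x M =>
        rw [Matrix.matrix_eq_sum_single M]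
        simp only [TensorProduct.tmul_sum]
        have hz : ∀ (s : Finset (Fin n)) (g : Fin n → Y), (∀ i ∈ s, ∃ x, g i - φ x ∈ TB k Y) →
            ∃ x, (∑ i ∈ s, g i) - φ x ∈ TB k Y := by
          intro s g
          induction s using Finset.induction_on with
          | empty =>
            intro _
            exact ⟨0, by rw [map_zero, sub_zero, Finset.sum_empty]; exact Submodule.zero_mem _⟩
          | insert i s hi ih =>
            intro h
            rw [Finset.sum_insert hi]
            exact add _ _ (h i (Finset.mem_insert_self i s))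
              (ih fun l hl => h l (Finset.mem_insert_of_mem hl))
        exact hz _ _ fun i _ => hz _ _ fun l _ => key x i l _

end

end Vale.P179.H737
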