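import Vale.Agent.P179.Allb.Defs
import Vale.Agent.P179.H737.LB

/-!
# ALLB: modules LBC and LBM
-/

namespace Vale.P179.H737

open Module Vale.P179.Sgn Vale.P179.Allb

/-- **Module LBC.** -/
theorem lbc : LBC := by
  intro k _ _ R Λ' _ _ _ _ _ j v hj hv
  exact lB_corner_le v hv.inj hv.mul hv.one (fun a ha => hv.rng a ha)

/-- **Module LBM.** -/
theorem lbm : LBM := by
  classical
  intro k _ Λ _ _ _ J _ _
  rcases isEmpty_or_nonempty J with hJ | ⟨⟨o⟩⟩
  · have hsub : Subsingleton (Matrix J J Λ) := ⟨fun a b => Matrix.ext fun i => (hJ.false i).elim⟩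
    have : lB k (Matrix J J Λ) = 0 := by
      unfold lB
      exact finrank_zero_of_subsingleton
    omega
  · let φ : Λ →ₗ[k] Matrix J J Λ := Matrix.singleLinearMap k o o
    have hφ : ∀ x, φ x = Matrix.single o o x := fun x => rfl
    have hmul : ∀ x y, φ (x * y) = φ x * φ y := by
      intro x y
      rw [hφ, hφ, hφ, Matrix.single_mul_single_same]
    apply lB_le_of_surjective φ
    · intro x hx
      have : TB k Λ ≤ (TB k (Matrix J J Λ)).comap φ := by
        rw [TB, Submodule.span_le]
        rintro y (hy | ⟨a, b, rfl⟩)
        · apply Submodule.subset_span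
          left
          obtain ⟨m, hm⟩ := hy
          have hpow : ∀ m : ℕ, φ y ^ (m + 1) = φ (y ^ (m + 1)) := by
            intro m
            induction m with
            | zero => simp
            | succ m ih => rw [pow_succ, ih, ← hmul, ← pow_succ]
          refine ⟨m + 1, ?_⟩
          rw [hpow, pow_succ, hm, zero_mul, map_zero]
        · apply Submodule.subset_span
          right
          exact ⟨φ a, φ b, by rw [← hmul, ← hmul, map_sub]⟩
      exact this hx
    · intro y
      have key : ∀ (x : Λ) (i l : J),
          ∃ x', Matrix.single i l x - φ x' ∈ TB k (Matrix J J Λ) := by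
        intro x i l
        by_cases hil : i = l
        · subst hil
          refine ⟨x, ?_⟩
          apply Submodule.subset_span
          right
          refine ⟨Matrix.single i o x, Matrix.single o i 1, ?_⟩
          rw [hφ, Matrix.single_mul_single_same, Matrix.single_mul_single_same, mul_one, one_mul]
        · refine ⟨0, ?_⟩
          rw [map_zero, sub_zero]
          apply Submodule.subset_span
          left
          refine ⟨2, ?_⟩
          rw [pow_two, Matrix.single_mul_single_of_ne]
          exact fun h => hil h.symm
      have add : ∀ y z : Matrix J J Λ, (∃ x, y - φ x ∈ TB k (Matrix J J Λ)) →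
          (∃ x, z - φ x ∈ TB k (Matrix J J Λ)) → ∃ x, (y + z) - φ x ∈ TB k (Matrix J J Λ) := by
        rintro y z ⟨x, hx⟩ ⟨x', hx'⟩
        refine ⟨x + x', ?_⟩
        have := (TB k (Matrix J J Λ)).add_mem hx hx'
        rw [map_add]
        rwa [show y + z - (φ x + φ x') = y - φ x + (z - φ x') by abel]
      have hz : ∀ (s : Finset J) (g : J → Matrix J J Λ),
          (∀ i ∈ s, ∃ x, g i - φ x ∈ TB k (Matrix J J Λ)) →
          ∃ x, (∑ i ∈ s, g i) - φ x ∈ TB k (Matrix J J Λ) := by
        intro s g
        induction s using Finset.induction_on with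
        | empty =>
          intro _
          exact ⟨0, by rw [map_zero, sub_zero, Finset.sum_empty]; exact Submodule.zero_mem _⟩
        | insert i s hi ih =>
          intro h
          rw [Finset.sum_insert hi]
          exact add _ _ (h i (Finset.mem_insert_self i s))
            (ih fun l hl => h l (Finset.mem_insert_of_mem hl))
      rw [Matrix.matrix_eq_sum_single y]
      exact hz _ _ fun i _ => hz _ _ fun l _ => key _ i l

end Vale.P179.H737
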