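import Vale.Agent.P179.H815.LL2
import Vale.Agent.P179.H300.Dim
import Vale.Agent.P179.H300.LL4
import Vale.Agent.P179.H737.Circ

/-!
# Lemma L (REL), part 5: from the group algebra of `N` to idempotents of `L`
-/

namespace Vale.P179.H737.R

open Module Vale.P179.H175 Vale.P179.H815 Vale.P179.H815.LL
open Vale.P179.H300.LL (chi chi_idem mul_chi chi_comm chi_mem)

section chi

variable {K L N : Type*} [Field K] [Ring L] [Algebra K L] [CommGroup N] [Finite N]
  (hN : ((Nat.card N : ℕ) : K) ≠ 0) (n : N →* L) (χ : N →* Kˣ)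

include hN in
theorem chi_smul {X : Type*} [AddCommGroup X] [Module K X] [Module L X] [IsScalarTower K L X]
    {v : X} (hv : ∀ t, n t • v = (χ t : K) • v) : chi n χ • v = v := by
  have : Fintype N := Fintype.ofFinite N
  rw [chi, finsum_eq_sum_of_fintype, smul_assoc, Finset.sum_smul]
  have h1 : ∀ t : N, (((χ t⁻¹ : Kˣ) : K) • n t) • v = v := by
    intro t
    rw [smul_assoc, hv, smul_smul, ← Units.val_mul, ← map_mul, inv_mul_cancel, map_one,
      Units.val_one, one_smul]
  rw [Finset.sum_congr rfl fun t _ => h1 t, Finset.sum_const, Finset.card_univ,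
    ← Nat.card_eq_fintype_card, ← Nat.cast_smul_eq_nsmul K, smul_smul, inv_mul_cancel₀ hN, one_smul]

end chi

section one

variable (p : ℕ) [Fact p.Prime] (K : Type) [Field K] [IsAlgClosed K] [CharP K p] (Q : Type)
  [CommGroup Q] [Fintype Q] (N : Type) [CommGroup N] [Finite N] [MulDistribMulAction N Q]
  (hQ : IsPGroup p Q) (hN : ((Nat.card N : ℕ) : K) ≠ 0) (L : Type) [Ring L] [Algebra K L]
  (W : ℚ → Submodule K L) (u : Q →* L) (n : N →* L) (hu : ∀ x, u x ∈ W 0) (hn : ∀ t, n t ∈ W 0)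
  (hnu : ∀ t x, n t * u x = u (t • x) * n t) (F : Type) [AddCommGroup F] [Module K F]
  [Module L F] [IsScalarTower K L F] [FiniteDimensional K F] (V : ℚ → Submodule K F)
  (hV : GrMod W V) (hF : ∃ h : F →ₗ[K] F, ∀ v, ∑ x, u x • h (u x⁻¹ • v) = v)
  (a : L) (ha : a ∈ W 0) (haa : a * a = a) (hau : ∀ x, a * u x = u x * a)
  (han : ∀ t, a * n t = n t * a)

include hQ hN hu hn hnu hV hF ha haa hau han in
/-- DIM for one module. -/
theorem dim_one (χ : N →* Kˣ) (r : ℚ) :
    finrank K ↥(cor1 K F (a * chi n χ) ⊓ V r) = ∑ᶠ ψ : N →* Kˣ,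
      Nat.card {O : MulAction.orbitRel.Quotient N Q //
        ∀ t : N, t • (Quotient.out O : Q) = Quotient.out O → χ t = ψ t} *
      finrank K ↥(cl K F (Set.range u) (a * chi n ψ) ⊓ V r) := by
  classical
  let Z : Submodule K F := cor1 K F a ⊓ V r
  have hZ : ∀ v : F, v ∈ Z ↔ a • v = v ∧ v ∈ V r := fun v => Iff.rfl
  have hst : ∀ l : L, l ∈ W 0 → a * l = l * a → ∀ v ∈ Z, l • v ∈ Z := by
    intro l hl hal v hv
    rw [hZ] at hv ⊢
    refine ⟨?_, ?_⟩
    · rw [← mul_smul, hal, mul_smul, hv.1]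
    · have := hV.smul hl hv.2
      rwa [zero_add] at this
  -- the action on Z
  let act : ∀ {M : Type} [Group M] (m : M →* L), (∀ x, m x ∈ W 0) → (∀ x, a * m x = m x * a) →
      (M →* Module.End K Z) := fun {M} _ m h1 h2 =>
    { toFun := fun x =>
        { toFun := fun v => ⟨m x • (v : F), hst _ (h1 x) (h2 x) _ v.2⟩
          map_add' := fun v w => Subtype.ext (smul_add _ _ _)
          map_smul' := fun c v => Subtype.ext (smul_algebra_smul_comm _ _ _) }
      map_one' := by
        ext v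
        change m 1 • (v : F) = v
        rw [map_one, one_smul]
      map_mul' := fun x y => by
        ext v
        change m (x * y) • (v : F) = m x • m y • (v : F)
        rw [map_mul, mul_smul] }
  have hact : ∀ {M : Type} [Group M] (m : M →* L) (h1 : ∀ x, m x ∈ W 0)
      (h2 : ∀ x, a * m x = m x * a) (x : M) (v : Z), ((act m h1 h2 x v : Z) : F) = m x • (v : F) :=
    fun m h1 h2 x v => rfl
  clear_value act
  have hUle : cor1 K F (a * chi n χ) ⊓ V r ≤ Z := by
    rintro v ⟨hv1, hv2⟩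
    have hv1' : (a * chi n χ) • v = v := hv1
    refine ⟨?_, hv2⟩
    change a • v = v
    rw [← hv1', ← mul_smul, ← mul_assoc, haa]
  have hSle : ∀ ψ : N →* Kˣ, cl K F (Set.range u) (a * chi n ψ) ⊓ V r ≤ Z := by
    rintro ψ v ⟨hv1, hv2⟩
    have hv1' : (a * chi n ψ) • v = v := hv1.2
    refine ⟨?_, hv2⟩
    change a • v = v
    rw [← hv1', ← mul_smul, ← mul_assoc, haa]
  have hchi : ∀ (ψ : N →* Kˣ) (v : Z), (a * chi n ψ) • (v : F) = v ↔
      ∀ t, n t • (v : F) = (ψ t : K) • (v : F) := by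
    intro ψ v
    have hav : a • (v : F) = v := v.2.1
    have hac : a * chi n ψ = chi n ψ * a := chi_comm n ψ han
    constructor
    · intro h t
      rw [← h, ← mul_smul, hac, ← mul_assoc, mul_chi n ψ t, smul_mul_assoc, smul_assoc]
    · intro h
      rw [hac, mul_smul, hav, chi_smul hN n ψ h]
  have key := H300.Dim.dim p K Q N hQ hN Z (act u hu hau) (act n hn han) ?_ ?_ χ
    ((cor1 K F (a * chi n χ) ⊓ V r).comap Z.subtype)
    (fun ψ => (cl K F (Set.range u) (a * chi n ψ) ⊓ V r).comap Z.subtype) ?_ ?_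
  · rw [← (Submodule.comapSubtypeEquivOfLe hUle).finrank_eq, key]
    refine finsum_congr fun ψ => ?_
    rw [← (Submodule.comapSubtypeEquivOfLe (hSle ψ)).finrank_eq]
  · intro t x v
    apply Subtype.ext
    rw [hact, hact, hact, hact, ← mul_smul, ← mul_smul, hnu]
  · intro v hv
    have hv' : ∀ x, u x • (v : F) = v := fun x => by
      have := congrArg Subtype.val (hv x)
      rwa [hact] at this
    obtain ⟨h, hh⟩ := hF
    have h1 : ∑ x, u x • h (v : F) = v := by
      conv_rhs => rw [← hh (v : F)]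
      exact Finset.sum_congr rfl fun x _ => by rw [hv']
    have h2 : ∑ x, u x • cpt V r (h (v : F)) = v := by
      have h3 := congrArg (cpt V r) h1
      rw [map_sum, H175.cpt_of_mem hV.int v.2.2] at h3
      refine Eq.trans ?_ h3
      refine Finset.sum_congr rfl fun x _ => ?_
      rw [hV.cpt_smul (hu x), sub_zero]
    have hw : a • cpt V r (h (v : F)) ∈ Z := by
      refine ⟨?_, ?_⟩
      · change a • a • _ = a • _
        rw [← mul_smul, haa]
      · have := hV.smul ha (H175.cpt_mem hV.int r (h (v : F)))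
        rwa [zero_add] at this
    refine ⟨⟨_, hw⟩, ?_⟩
    apply Subtype.ext
    rw [Submodule.coe_sum]
    have hav : a • (v : F) = v := v.2.1
    have h4 : a • ∑ x, u x • cpt V r (h (v : F)) = v := by rw [h2, hav]
    refine h4.symm.trans ?_
    rw [Finset.smul_sum]
    refine Finset.sum_congr rfl fun x _ => ?_
    rw [hact, ← mul_smul, hau, mul_smul]
  · intro v
    rw [Submodule.mem_comap]
    constructor
    · rintro ⟨h1, -⟩ t
      apply Subtype.ext
      rw [hact]
      exact (hchi χ v).mp h1 t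
    · intro h
      refine ⟨(hchi χ v).mpr fun t => ?_, v.2.2⟩
      have := congrArg Subtype.val (h t)
      rwa [hact] at this
  · intro ψ v
    rw [Submodule.mem_comap]
    constructor
    · rintro ⟨h1, -⟩
      refine ⟨fun x => Subtype.ext ?_, fun t => Subtype.ext ?_⟩
      · rw [hact]
        exact h1.1 _ ⟨x, rfl⟩
      · rw [hact]
        exact (hchi ψ v).mp h1.2 t
    · rintro ⟨h1, h2⟩
      refine ⟨⟨?_, (hchi ψ v).mpr fun t => ?_⟩, v.2.2⟩
      · rintro _ ⟨x, rfl⟩
        have := congrArg Subtype.val (h1 x)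
        rwa [hact] at this
      · have := congrArg Subtype.val (h2 t)
        rwa [hact] at this

include hQ hN hu hn hnu hV hF ha haa hau han in
/-- DIM for one module, graded. -/
theorem gd_one (χ : N →* Kˣ) :
    emb (gd V (cor1 K F (a * chi n χ))) = ∑ᶠ ψ : N →* Kˣ,
      (Nat.card {O : MulAction.orbitRel.Quotient N Q //
        ∀ t : N, t • (Quotient.out O : Q) = Quotient.out O → χ t = ψ t} : ℚ) •
      emb (gd V (cl K F (Set.range u) (a * chi n ψ))) := by
  have : Fintype (N →* Kˣ) := Fintype.ofFinite _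
  rw [finsum_eq_sum_of_fintype]
  have h1 : gd V (cor1 K F (a * chi n χ)) = ∑ ψ : N →* Kˣ,
      Nat.card {O : MulAction.orbitRel.Quotient N Q //
        ∀ t : N, t • (Quotient.out O : Q) = Quotient.out O → χ t = ψ t} •
      gd V (cl K F (Set.range u) (a * chi n ψ)) := by
    apply H815.coeff_ext
    intro r
    have hi := hV.int.submodule_iSupIndep
    rw [H815.coeff_gd hi, dim_one p K Q N hQ hN L W u n hu hn hnu F V hV hF a ha haa hau han χ r,
      finsum_eq_sum_of_fintype, AddMonoidAlgebra.coeff_sum, Finsupp.finsetSum_apply, Nat.cast_sum]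
    refine Finset.sum_congr rfl fun ψ _ => ?_
    rw [Nat.cast_mul, ← H815.coeff_gd hi, AddMonoidAlgebra.coeff_smul, Finsupp.smul_apply,
      nsmul_eq_mul]
  rw [h1, map_sum]
  refine Finset.sum_congr rfl fun ψ _ => ?_
  rw [map_nsmul, Nat.cast_smul_eq_nsmul]

end one

/-- **LL5.** -/
theorem ll5 (p : ℕ) [Fact p.Prime] (K : Type) [Field K] [IsAlgClosed K] [CharP K p] (Q : Type)
    [CommGroup Q] [Fintype Q] (N : Type) [CommGroup N] [Finite N] [MulDistribMulAction N Q]
    (hQ : IsPGroup p Q) (hN : ((Nat.card N : ℕ) : K) ≠ 0) (L : Type) [Ring L] [Algebra K L]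
    [FiniteDimensional K L] (W : ℚ → Submodule K L) (hW : GrAlg W) (u : Q →* L) (n : N →* L)
    (hu : ∀ x, u x ∈ W 0) (hn : ∀ t, n t ∈ W 0) (hnu : ∀ t x, n t * u x = u (t • x) * n t)
    (ν : Type) (F : ν → Type) [∀ i, AddCommGroup (F i)] [∀ i, Module K (F i)]
    [∀ i, Module L (F i)] [∀ i, IsScalarTower K L (F i)] [∀ i, FiniteDimensional K (F i)]
    (V : ∀ i, ℚ → Submodule K (F i)) (hV : ∀ i, GrMod W (V i))
    (hF : ∀ i, ∃ h : F i →ₗ[K] F i, ∀ v, ∑ x, u x • h (u x⁻¹ • v) = v)
    (a : L) (ha : a ∈ W 0) (haa : a * a = a) (hau : ∀ x, a * u x = u x * a)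
    (han : ∀ t, a * n t = n t * a) (χ : N →* Kˣ) :
    (fun i => emb (gd (V i) (cl K (F i) (Set.range u) (a * chi n χ)))) ∈ PP W F V := by
  classical
  change _ ∈ Submodule.span RQ {c : ν → RQ | ∃ b ∈ W 0, b * b = b ∧
        c = fun i => emb (gd (V i) (cor1 K (F i) b))}
  have : Fintype (N →* Kˣ) := Fintype.ofFinite _
  set S : Submodule RQ (ν → RQ) := Submodule.span RQ {c : ν → RQ | ∃ b ∈ W 0, b * b = b ∧
        c = fun i => emb (gd (V i) (cor1 K (F i) b))} with hS
  let d : (N →* Kˣ) → ((ν → RQ) ⧸ S) := fun ψ =>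
    S.mkQ (fun i => emb (gd (V i) (cl K (F i) (Set.range u) (a * chi n ψ))))
  have hd : ∀ χ : N →* Kˣ, ∑ᶠ ψ : N →* Kˣ,
      (Nat.card {O : MulAction.orbitRel.Quotient N Q //
        ∀ t : N, t • (Quotient.out O : Q) = Quotient.out O → χ t = ψ t} : ℚ) • d ψ = 0 := by
    intro χ
    rw [finsum_eq_sum_of_fintype]
    have h1 : (∑ ψ : N →* Kˣ, (Nat.card {O : MulAction.orbitRel.Quotient N Q //
        ∀ t : N, t • (Quotient.out O : Q) = Quotient.out O → χ t = ψ t} : ℚ) • d ψ) =
        S.mkQ (fun i => emb (gd (V i) (cor1 K (F i) (a * chi n χ)))) := by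
      have h2 : (fun i => emb (gd (V i) (cor1 K (F i) (a * chi n χ)))) =
          ∑ ψ : N →* Kˣ, (Nat.card {O : MulAction.orbitRel.Quotient N Q //
            ∀ t : N, t • (Quotient.out O : Q) = Quotient.out O → χ t = ψ t} : ℚ) •
            (fun i => emb (gd (V i) (cl K (F i) (Set.range u) (a * chi n ψ)))) := by
        funext i
        rw [gd_one p K Q N hQ hN L W u n hu hn hnu (F i) (V i) (hV i) (hF i) a ha haa hau han χ,
          finsum_eq_sum_of_fintype, Finset.sum_apply]
        rfl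
      rw [h2, map_sum]
      rfl
    rw [h1]
    refine (Submodule.Quotient.mk_eq_zero S).mpr (Submodule.subset_span ⟨a * chi n χ, ?_, ?_, rfl⟩)
    · have := hW.mul ha (chi_mem n χ hn)
      rwa [add_zero] at this
    · have hac : a * chi n χ = chi n χ * a := chi_comm n χ han
      rw [mul_assoc, ← mul_assoc (chi n χ), ← hac, mul_assoc a (chi n χ), chi_idem hN, ← mul_assoc,
        haa]
  have := circ N K Q 1 (fun t => smul_one t) _ d hd χ
  exact (Submodule.Quotient.mk_eq_zero S).mp this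

end Vale.P179.H737.R
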