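import Vale.Agent.P179.H737.Proj
import Vale.Agent.P179.H843.BB0
import Vale.Agent.P179.H815.Num2

/-!
# REL / A3R, piece P3: idempotents of `B ⊗ Bᵐᵒᵖ` on `Hom_K(B E, X)`
-/

namespace Vale.P179.H737.R

open Module Vale.P179.H175 Vale.P179.H815 Vale.P179.H815.LL Vale.P179.H815.Co
open Vale.P179.H300.Ten Vale.P179.H843.BB
open scoped TensorProduct

section triv

variable {K : Type} [Field K]

theorem internal_triv : DirectSum.IsInternal (fun r : ℚ => if r = 0 then (⊤ : Submodule K K) else ⊥) := by
  classical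
  apply DirectSum.isInternal_submodule_of_iSupIndep_of_iSup_eq_top
  · intro r
    by_cases hr : r = 0
    · have h1 : (⨆ (j : ℚ) (_ : j ≠ r), if j = 0 then (⊤ : Submodule K K) else ⊥) = ⊥ := by
        rw [eq_bot_iff]
        refine iSup₂_le fun j hj => ?_
        rw [if_neg (by rwa [hr] at hj)]
      rw [h1]
      exact disjoint_bot_right
    · simp only [if_neg hr]
      exact disjoint_bot_left
  · rw [eq_top_iff]
    refine le_iSup_of_le 0 ?_
    rw [if_pos rfl]

end triv

section P1

variable {K B X : Type} [Field K] [Ring B] [Algebra K B] [FiniteDimensional K B] [AddCommGroup X]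
  [Module K X] [Module B X] [IsScalarTower K B X] [FiniteDimensional K X]
  {W : ℚ → Submodule K B} {V : ℚ → Submodule K X}

theorem grMod_VH (hW : GrAlg W) (hV : GrMod W V) :
    GrMod W (VH W V : ℚ → Submodule K (HX K B X)) := by
  refine grMod_VC (i := Algebra.ofId K B) hW hV (internal_triv (K := K)) ?_
  intro r c hc
  by_cases hr : r = 0
  · subst hr
    rw [Algebra.ofId_apply, Algebra.algebraMap_eq_smul_one]
    exact Submodule.smul_mem _ _ hW.one
  · simp only [if_neg hr, Submodule.mem_bot] at hc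
    rw [hc, map_zero]
    exact Submodule.zero_mem _

omit [FiniteDimensional K B] [FiniteDimensional K X] in
theorem smul_mem_VH (hW : GrAlg W) (hV : GrMod W V) {r s : ℚ} {a : Bop K B} (ha : a ∈ WTop W r)
    {f : HX K B X} (hf : f ∈ VH W V s) : a • f ∈ VH W V (r + s) := by
  refine WT_induction (p := fun a : Bop K B => a • f ∈ VH W V (r + s)) ?_ ?_ ?_ ?_ ha
  · have : (0 : Bop K B) • f = 0 := zero_smul (Bop K B) f
    rw [this]
    exact Submodule.zero_mem _
  · intro s1 t1 hst x hx y hy u b hb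
    have h1 : ((x ⊗ₜ[K] y : Bop K B) • f) b = x • f (y.unop * b) := mk_smul x y.unop f b
    rw [h1]
    have h2 : y.unop ∈ W t1 := mem_Wop.mp hy
    have h3 := hV.smul hx (hf _ _ (hW.mul h2 hb))
    rwa [show s1 + (t1 + u + s) = u + (r + s) by rw [← hst]; ring] at h3
  · intro x y hx hy
    have : (x + y) • f = x • f + y • f := add_smul _ _ _
    rw [this]
    exact Submodule.add_mem _ hx hy
  · intro c x hx
    have : (c • x) • f = c • x • f := smul_assoc _ _ _
    rw [this]
    exact Submodule.smul_mem _ _ hx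

end P1

/-- **P3.** -/
theorem p3 {K B X : Type} [Field K] [Ring B] [Algebra K B] [FiniteDimensional K B]
    [AddCommGroup X] [Module K X] [Module B X] [IsScalarTower K B X] [FiniteDimensional K X]
    {W : ℚ → Submodule K B} {J : Submodule K B} {n : ℕ} {E : Fin n → B} (hB : Basic W J E)
    (τ : B →ₗ[K] K) (tc : ∀ a b, τ (a * b) = τ (b * a))
    (nd : ∀ a, (∀ b, τ (a * b) = 0) → a = 0) {V : ℚ → Submodule K X} (hV : GrMod W V)
    {a : Bop K B} (ha : a ∈ WTop W 0) (haa : a * a = a) :
    ∃ z : Fin n → H904.ZQ, ∀ m,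
      gd (VF W V (E m)) (cor1 K (FM K B X (E m)) a) = ∑ j, cmat W E m j * z j := by
  have hP : Module.Projective B (HX K B X) := projective_homK τ tc nd
  have hVH := grMod_VH hB.gr hV
  obtain ⟨z, hz⟩ := proj_abs hB hVH (actB X a)
    (fun b f => by
      rw [← actB_smul, ← actB_smul]
      exact smul_comm a b f)
    (fun f => by
      rw [← actB_smul, ← actB_smul]
      have : a • a • f = (a * a) • f := (mul_smul _ _ _).symm
      rw [this, haa])
    (fun r f hf => by
      rw [← actB_smul]
      have := smul_mem_VH hB.gr hV ha hf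
      rwa [zero_add] at this)
  refine ⟨z, fun m => ?_⟩
  change _ = ∑ j, gd W (cor2 K (E m) (E j)) * z j
  rw [← hz (E m) (hB.deg m) (hB.idem m)]
  refine gd_congr fun s => ?_
  have h1 : (cor1 K (FM K B X (E m)) a ⊓ VF W V (E m) s).map (FM.val K B X (E m)) =
      cp (E m) (actB X a) ⊓ VH W V s := by
    ext f
    constructor
    · rintro ⟨g, ⟨hg1, hg2⟩, rfl⟩
      refine ⟨mem_cp.mpr ⟨?_, g.2⟩, hg2⟩
      rw [← actB_smul, ← FM.val_smul]
      exact congrArg _ hg1
    · rintro ⟨hf1, hf2⟩
      have hf1' := mem_cp.mp hf1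
      refine ⟨⟨f, hf1'.2⟩, ⟨Subtype.ext ?_, hf2⟩, rfl⟩
      exact hf1'.1
  rw [← h1]
  exact (Submodule.equivMapOfInjective _ FM.val_inj _).finrank_eq

end Vale.P179.H737.R
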