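import Vale.Agent.P179.H737.P3
import Vale.Agent.P179.H815.LL2

/-!
# REL / A3R, piece P4: fixed points of `YA` and the separability idempotent
-/

namespace Vale.P179.H737.R

open Module Vale.P179.H175 Vale.P179.H815 Vale.P179.H815.LL Vale.P179.H815.Co
open Vale.P179.H300.Ten Vale.P179.H843.BB
open scoped TensorProduct

theorem finrank_map_add' {K X Y : Type*} [Field K] [AddCommGroup X] [Module K X]
    [FiniteDimensional K X] [AddCommGroup Y] [Module K Y] (S : Submodule K X) (f : X →ₗ[K] Y) :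
    finrank K (S.map f) + finrank K ↥(S ⊓ LinearMap.ker f) = finrank K S := by
  have h1 := LinearMap.finrank_range_add_finrank_ker (f.domRestrict S)
  rw [LinearMap.range_domRestrict] at h1
  have h2 : finrank K ↥(LinearMap.ker (f.domRestrict S)) =
      finrank K ↥(S ⊓ LinearMap.ker f) := by
    have h3 : (LinearMap.ker (f.domRestrict S)).map S.subtype = S ⊓ LinearMap.ker f := by
      ext x
      constructor
      · rintro ⟨y, hy, rfl⟩
        exact ⟨y.2, hy⟩
      · rintro ⟨hx1, hx2⟩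
        exact ⟨⟨x, hx1⟩, hx2, rfl⟩
    rw [← h3]
    exact (Submodule.equivMapOfInjective _ S.subtype_injective _).finrank_eq
  rw [h2] at h1
  exact h1

section P4

variable {K A B X : Type} [Field K] [Ring A] [Algebra K A] [Ring B] [Algebra K B] [AddCommGroup X]
  [Module K X] [Module B X] [IsScalarTower K B X]
  {WA : ℚ → Submodule K A} {W : ℚ → Submodule K B} {V : ℚ → Submodule K X}
  (ι : A →ₐ[K] B) {E : B}

/-- `Hom_A(B, X) ⊆ Hom_K(B, X)` -/
def cH : Coind ι X →ₗ[K] HX K B X where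
  toFun f := toHX (Coind.coeLin f)
  map_add' _ _ := rfl
  map_smul' _ _ := rfl

@[simp] theorem cH_apply (f : Coind ι X) (x : B) : cH ι f x = f x := rfl

theorem cH_inj : Function.Injective (cH (X := X) ι) := fun f g h => Coind.ext fun x => by
  have := congrArg (fun g : HX K B X => g x) h
  exact this

variable {ι}

theorem mem_fix_YA [FiniteDimensional K B] (hA : DirectSum.IsInternal WA) {f : FM K B X E} :
    f ∈ fix K (FM K B X E) (YA ι WA) ↔
      ∀ (h : A) (x : B), FM.val K B X E f (ι h * x) = ι h • FM.val K B X E f x := by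
  have key : ∀ h : A, (1 + (mk K (ι h) 1 - mk K 1 (ι h))) • f = f ↔
      ∀ x : B, FM.val K B X E f (ι h * x) = ι h • FM.val K B X E f x := by
    intro h
    have h1 : (1 + (mk K (ι h) 1 - mk K 1 (ι h))) • f =
        f + (mk K (ι h) 1 • f - mk K 1 (ι h) • f) := by
      rw [add_smul, sub_smul, one_smul]
    rw [h1, add_eq_left, sub_eq_zero]
    constructor
    · intro h2 x
      have h3 := congrArg (fun g : FM K B X E => FM.val K B X E g x) h2
      simp only [FM.mk_smul, one_smul, one_mul] at h3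
      exact h3.symm
    · intro h2
      apply FM.ext
      intro x
      rw [FM.mk_smul, FM.mk_smul, one_smul, one_mul]
      exact (h2 x).symm
  constructor
  · intro hf h
    refine induction_gr hA (P := fun h => ∀ x : B, FM.val K B X E f (ι h * x) =
      ι h • FM.val K B X E f x) ?_ ?_ h
    · intro r h hh
      exact (key h).mp (hf _ ⟨r, h, hh, rfl⟩)
    · intro a b ha hb x
      rw [map_add, add_mul, Coind.map_add', ha, hb, add_smul]
  · rintro hf _ ⟨r, h, -, rfl⟩
    exact (key h).mpr (hf h)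

theorem map_fix [FiniteDimensional K B] (hA : DirectSum.IsInternal WA) (r : ℚ) :
    (fix K (FM K B X E) (YA ι WA) ⊓ VF W V E r).map (FM.val K B X E) =
      (cor1 K (Coind ι X) E ⊓ VC ι W V r).map (cH ι) := by
  ext f
  constructor
  · rintro ⟨g, ⟨hg1, hg2⟩, rfl⟩
    rw [SetLike.mem_coe, mem_fix_YA hA] at hg1
    refine ⟨Coind.mk' (Coind.coeLin (FM.val K B X E g)) hg1, ⟨?_, hg2⟩, rfl⟩
    apply Coind.ext
    intro x
    exact FM.val_mul g x
  · rintro ⟨g, ⟨hg1, hg2⟩, rfl⟩
    have hg1' : E • g = g := hg1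
    refine ⟨FM.mk' (cH ι g) (fun x => ?_), ⟨?_, hg2⟩, rfl⟩
    · rw [cH_apply, cH_apply]
      exact congrArg (fun g : Coind ι X => g x) hg1'
    · rw [SetLike.mem_coe, mem_fix_YA hA]
      intro h x
      exact Coind.map_i_mul g h x

/-- **P4**, first half. -/
theorem p4_fix [FiniteDimensional K B] (hA : GrAlg WA) :
    gd (VF W V E) (fix K (FM K B X E) (YA ι WA)) = gd (VC ι W V) (cor1 K (Coind ι X) E) := by
  refine gd_congr fun r => ?_
  rw [(Submodule.equivMapOfInjective _ FM.val_inj _).finrank_eq, map_fix hA.int,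
    ← (Submodule.equivMapOfInjective _ (cH_inj ι) _).finrank_eq]

variable {m : ℕ} {s r : Fin m → B}

/-- Balanced maps and the separability element. -/
theorem sep_bal' (sep : ∀ v : B, (∑ i, (v * s i) ⊗ₜ[K] r i) - (∑ i, s i ⊗ₜ[K] (r i * v)) ∈
    Submodule.span K {z : B ⊗[K] B | ∃ (x y : B) (h : A), z = (x * ι h) ⊗ₜ[K] y - x ⊗ₜ[K] (ι h * y)})
    {M : Type} [AddCommGroup M] [Module K M] (β : B →ₗ[K] B →ₗ[K] M)
    (hβ : ∀ (h : A) (b b' : B), β (b * ι h) b' = β b (ι h * b')) (b : B) :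
    ∑ a, β (b * s a) (r a) = ∑ a, β (s a) (r a * b) := by
  have h1 : ∀ z ∈ Submodule.span K {z : B ⊗[K] B | ∃ (x y : B) (h : A),
      z = (x * ι h) ⊗ₜ[K] y - x ⊗ₜ[K] (ι h * y)}, TensorProduct.lift β z = 0 := by
    intro z hz
    induction hz using Submodule.span_induction with
    | mem z hz =>
      obtain ⟨x, y, h, rfl⟩ := hz
      rw [map_sub, TensorProduct.lift.tmul, TensorProduct.lift.tmul, hβ, sub_self]
    | zero => simp
    | add y z _ _ hy hz => rw [map_add, hy, hz, add_zero]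
    | smul c z _ hz => rw [map_smul, hz, smul_zero]
  have h2 := h1 _ (sep b)
  rw [map_sub, map_sum, map_sum] at h2
  simp only [TensorProduct.lift.tmul] at h2
  exact sub_eq_zero.mp h2

/-- the map `f ↦ ∑ s • f r` -/
def qs (ι : A →ₐ[K] B) (s r : Fin m → B) : Coind ι X →ₗ[K] X where
  toFun f := ∑ a, s a • f (r a)
  map_add' f g := by simp [smul_add, Finset.sum_add_distrib]
  map_smul' c f := by
    simp only [Coind.smulK_apply, RingHom.id_apply, Finset.smul_sum]
    exact Finset.sum_congr rfl fun a _ => smul_algebra_smul_comm _ _ _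

theorem qs_apply (f : Coind ι X) : qs ι s r f = ∑ a, s a • f (r a) := rfl

theorem qs_mul (sep : ∀ v : B, (∑ i, (v * s i) ⊗ₜ[K] r i) - (∑ i, s i ⊗ₜ[K] (r i * v)) ∈
    Submodule.span K {z : B ⊗[K] B | ∃ (x y : B) (h : A), z = (x * ι h) ⊗ₜ[K] y - x ⊗ₜ[K] (ι h * y)})
    (f : Coind ι X) (b : B) : ∑ a, s a • f (r a * b) = b • qs ι s r f := by
  let β : B →ₗ[K] B →ₗ[K] X := LinearMap.mk₂ K (fun x y => x • f y)
    (fun x x' y => add_smul _ _ _) (fun c x y => smul_assoc _ _ _)
    (fun x y y' => by rw [Coind.map_add', smul_add])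
    (fun c x y => by rw [Coind.map_smul', smul_algebra_smul_comm])
  have h := sep_bal' sep β (fun h b b' => by
    change (b * ι h) • f b' = b • f (ι h * b')
    rw [Coind.map_i_mul, mul_smul]) b
  have h1 : ∑ a, (b * s a) • f (r a) = ∑ a, s a • f (r a * b) := h
  rw [← h1, qs_apply, Finset.smul_sum]
  exact Finset.sum_congr rfl fun a _ => mul_smul _ _ _

theorem el_smul (f : FM K B X E) (x : B) :
    FM.val K B X E ((el s r : Bop K B) • f) x = ∑ a, s a • FM.val K B X E f (r a * x) := by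
  rw [el, Finset.sum_smul, map_sum, Coind.sum_apply]
  exact Finset.sum_congr rfl fun a _ => FM.mk_smul _ _ _ _

theorem map_cl [FiniteDimensional K B] (hA : DirectSum.IsInternal WA)
    (sep : ∀ v : B, (∑ i, (v * s i) ⊗ₜ[K] r i) - (∑ i, s i ⊗ₜ[K] (r i * v)) ∈
    Submodule.span K {z : B ⊗[K] B | ∃ (x y : B) (h : A), z = (x * ι h) ⊗ₜ[K] y - x ⊗ₜ[K] (ι h * y)})
    (t : ℚ) :
    (cl K (FM K B X E) (YA ι WA) (1 - el s r) ⊓ VF W V E t).map (FM.val K B X E) =
      ((cor1 K (Coind ι X) E ⊓ VC ι W V t) ⊓ LinearMap.ker (qs ι s r)).map (cH ι) := by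
  have hcl : ∀ g : FM K B X E, ∀ f : Coind ι X, FM.val K B X E g = cH ι f →
      (((1 : Bop K B) - el s r) • g = g ↔ qs ι s r f = 0) := by
    intro g f hgf
    have h1 : ((1 : Bop K B) - el s r) • g = g - (el s r : Bop K B) • g := by
      rw [sub_smul, one_smul]
    rw [h1, sub_eq_self]
    have h2 : ∀ x, FM.val K B X E ((el s r : Bop K B) • g) x = x • qs ι s r f := by
      intro x
      rw [el_smul, hgf, ← qs_mul sep f x]
      rfl
    constructor
    · intro h
      have := h2 1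
      rw [h, one_smul] at this
      exact this.symm
    · intro h
      apply FM.ext
      intro x
      rw [h2 x, h, smul_zero]
      rfl
  ext f
  constructor
  · rintro ⟨g, ⟨hg1, hg2⟩, rfl⟩
    have hg3 : FM.val K B X E g ∈ (fix K (FM K B X E) (YA ι WA) ⊓ VF W V E t).map
        (FM.val K B X E) := ⟨g, ⟨hg1.1, hg2⟩, rfl⟩
    rw [map_fix hA] at hg3
    obtain ⟨f, hf, hfg⟩ := hg3
    refine ⟨f, ⟨hf, ?_⟩, hfg⟩
    exact (hcl g f hfg.symm).mp hg1.2
  · rintro ⟨f, ⟨hf1, hf2⟩, rfl⟩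
    have hf3 : cH ι f ∈ (cor1 K (Coind ι X) E ⊓ VC ι W V t).map (cH ι) := ⟨f, hf1, rfl⟩
    rw [← map_fix hA] at hf3
    obtain ⟨g, hg, hgf⟩ := hf3
    refine ⟨g, ⟨⟨hg.1, ?_⟩, hg.2⟩, hgf⟩
    exact (hcl g f hgf).mpr hf2

/-- **P4**, second half. -/
theorem p4_cl [FiniteDimensional K B] [FiniteDimensional K X] (hW : GrAlg W) (hA : GrAlg WA)
    (hι : ∀ r, ∀ h ∈ WA r, ι h ∈ W r) (hV : GrMod W V) {σ : Fin m → ℚ}
    (hs : ∀ i, s i ∈ W (σ i)) (hr : ∀ i, r i ∈ W (-σ i)) (st : ∑ i, s i * r i = 1)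
    (sep : ∀ v : B, (∑ i, (v * s i) ⊗ₜ[K] r i) - (∑ i, s i ⊗ₜ[K] (r i * v)) ∈
    Submodule.span K {z : B ⊗[K] B | ∃ (x y : B) (h : A), z = (x * ι h) ⊗ₜ[K] y - x ⊗ₜ[K] (ι h * y)}) :
    gd (VF W V E) (cl K (FM K B X E) (YA ι WA) (1 - el s r)) =
      gd (VC ι W V) (cor1 K (Coind ι X) E) - gd V (cor1 K X E) := by
  have hC := grMod_VC (i := ι) hW hV hA.int (fun r h hh => hι r h hh)
  have h1 : gd (VF W V E) (cl K (FM K B X E) (YA ι WA) (1 - el s r)) =
      gd (VC ι W V) (cor1 K (Coind ι X) E ⊓ LinearMap.ker (qs ι s r)) := by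
    refine gd_congr fun t => ?_
    rw [(Submodule.equivMapOfInjective _ FM.val_inj _).finrank_eq, map_cl hA.int sep,
      ← (Submodule.equivMapOfInjective _ (cH_inj ι) _).finrank_eq, inf_right_comm]
  rw [h1]
  apply H815.coeff_ext
  intro t
  rw [AddMonoidAlgebra.coeff_sub, Finsupp.sub_apply, H815.coeff_gd hC.int.submodule_iSupIndep,
    H815.coeff_gd hC.int.submodule_iSupIndep, H815.coeff_gd hV.int.submodule_iSupIndep]
  have h2 := finrank_map_add' (cor1 K (Coind ι X) E ⊓ VC ι W V t) (qs ι s r)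
  have h3 : (cor1 K (Coind ι X) E ⊓ VC ι W V t).map (qs ι s r) = cor1 K X E ⊓ V t := by
    ext y
    constructor
    · rintro ⟨f, ⟨hf1, hf2⟩, rfl⟩
      have hf1' : E • f = f := hf1
      refine ⟨?_, ?_⟩
      · change E • qs ι s r f = qs ι s r f
        rw [← qs_mul sep f E, qs_apply]
        refine Finset.sum_congr rfl fun a _ => ?_
        have : (E • f) (r a) = f (r a) := by rw [hf1']
        rw [← this]
        rfl
      · rw [SetLike.mem_coe, qs_apply]
        refine Submodule.sum_mem _ fun a _ => ?_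
        have := hV.smul (hs a) (hf2 _ _ (hr a))
        rwa [show σ a + (-σ a + t) = t by ring] at this
    · rintro ⟨hy1, hy2⟩
      have hy1' : E • y = y := hy1
      refine ⟨Coind.j y, ⟨?_, j_mem_VC hV hy2⟩, ?_⟩
      · change E • (Coind.j y : Coind ι X) = Coind.j y
        rw [← map_smul, hy1']
      · rw [qs_apply]
        have h4 : ∀ a, s a • (Coind.j y : Coind ι X) (r a) = (s a * r a) • y := fun a =>
          (mul_smul _ _ _).symm
        rw [Finset.sum_congr rfl fun a _ => h4 a, ← Finset.sum_smul, st, one_smul]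
  rw [h3] at h2
  have h5 : finrank K ↥((cor1 K (Coind ι X) E ⊓ LinearMap.ker (qs ι s r)) ⊓ VC ι W V t) =
      finrank K ↥((cor1 K (Coind ι X) E ⊓ VC ι W V t) ⊓ LinearMap.ker (qs ι s r)) := by
    rw [inf_right_comm]
  rw [h5]
  have h6 : (finrank K ↥(cor1 K X E ⊓ V t) : ℤ) +
      (finrank K ↥((cor1 K (Coind ι X) E ⊓ VC ι W V t) ⊓ LinearMap.ker (qs ι s r)) : ℤ) =
      (finrank K ↥(cor1 K (Coind ι X) E ⊓ VC ι W V t) : ℤ) := by exact_mod_cast h2
  linarith

end P4

end Vale.P179.H737.R
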