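import Vale.Agent.P179.H300.EP4
import Vale.Agent.P179.H815.Co7

/-!
# REL / A3R: idempotents of `B ⊗ Bᵐᵒᵖ` cut graded projective modules out of `Hom_K(B, X)`
-/

namespace Vale.P179.H737.R

open Module Vale.P179.H175 Vale.P179.H904 Vale.P179.H815 Vale.P179.H445 Vale.P179.H300

section abs

variable {K B Φ I : Type*} [Field K] [Ring B] [Algebra K B] [FiniteDimensional K B]
  [AddCommGroup Φ] [Module K Φ] [Module B Φ] [IsScalarTower K B Φ] [FiniteDimensional K Φ]
  {W : ℚ → Submodule K B} {J : Submodule K B} {e : I → B} {V : ℚ → Submodule K Φ}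

/-- the space `{x | π x = x, η x = x}` -/
def cp (η : B) (π : Φ →ₗ[K] Φ) : Submodule K Φ :=
  LinearMap.ker (LinearMap.id - π) ⊓ cor1 K Φ η

omit [FiniteDimensional K B] [FiniteDimensional K Φ] in
theorem mem_cp {η : B} {π : Φ →ₗ[K] Φ} {x : Φ} : x ∈ cp η π ↔ π x = x ∧ η • x = x := by
  rw [cp, Submodule.mem_inf, LinearMap.mem_ker, LinearMap.sub_apply, LinearMap.id_apply,
    sub_eq_zero, eq_comm]
  rfl

/-- A graded `B`-linear projection of a graded projective `B`-module has a projective image. -/
theorem proj_abs [Fintype I] [Module.Projective B Φ] (hB : Basic W J e) (hV : GrMod W V)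
    (π : Φ →ₗ[K] Φ) (hπB : ∀ (b : B) x, π (b • x) = b • π x) (hπ : ∀ x, π (π x) = π x)
    (hπV : ∀ r, ∀ x ∈ V r, π x ∈ V r) :
    ∃ z : I → ZQ, ∀ η ∈ W 0, η * η = η →
      gd V (cp η π) = ∑ c, gd W (cor2 K η (e c)) * z c := by
  classical
  let P : Submodule B Φ :=
    { carrier := {x | π x = x}
      add_mem' := fun {x y} hx hy => by
        change π (x + y) = x + y
        rw [map_add, hx, hy]
      zero_mem' := map_zero _
      smul_mem' := fun a x hx => by
        change π (a • x) = a • x
        rw [hπB, hx] }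
  let j : P →ₗ[K] Φ := P.subtype.restrictScalars K
  have hj : Function.Injective j := Subtype.val_injective
  let T : Φ →ₗ[B] P :=
    { toFun := fun x => ⟨π x, hπ x⟩
      map_add' := fun x y => Subtype.ext (map_add _ _ _)
      map_smul' := fun b x => Subtype.ext (hπB b x) }
  have hTj : ∀ x : P, T (j x) = x := fun x => Subtype.ext x.2
  have hTs : Function.Surjective T := fun x => ⟨j x, hTj x⟩
  have hproj : Module.Projective B P :=
    Module.Projective.of_split P.subtype T (LinearMap.ext fun x => hTj x)
  let TK : Φ →ₗ[K] P := T.restrictScalars K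
  have hfd : FiniteDimensional K P := Module.Finite.of_surjective TK hTs
  let V' : ℚ → Submodule K P := fun r => (V r).comap j
  have hker : Homog V (LinearMap.ker TK) := by
    intro x hx r
    have h1 : π x = 0 := congrArg Subtype.val (LinearMap.mem_ker.mp hx)
    refine LinearMap.mem_ker.mpr (Subtype.ext ?_)
    change π (cpt V r x) = 0
    rw [← cpt_map hV.int hV.int π hπV, h1, map_zero]
  have hVT : V' = fun r => (V r).map TK := by
    funext r
    ext x
    constructor
    · intro hx
      exact ⟨j x, hx, hTj x⟩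
    · rintro ⟨y, hy, rfl⟩
      exact hπV r y hy
  have hV' : GrMod W V' :=
    { int := by rw [hVT]; exact internal_map hV.int TK hTs hker
      smul := fun {r s a x} ha hx => hV.smul ha hx }
  refine ⟨fun c => gd V' (cor1 K P (e c)) - gd V' (spn J (⊤ : Submodule K P) ⊓ cor1 K P (e c)),
    fun η hη0 hη => ?_⟩
  rw [← gd_cor1_projective hB hV' hη0 hη]
  refine (gd_congr fun s => ?_).symm
  have h1 : (cor1 K P η ⊓ V' s).map j = cp η π ⊓ V s := by
    ext x
    constructor
    · rintro ⟨y, ⟨hy1, hy2⟩, rfl⟩
      exact ⟨mem_cp.mpr ⟨y.2, congrArg Subtype.val hy1⟩, hy2⟩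
    · rintro ⟨hx1, hx2⟩
      have hx1' := mem_cp.mp hx1
      exact ⟨⟨x, hx1'.1⟩, ⟨Subtype.ext hx1'.2, hx2⟩, rfl⟩
  rw [← h1]
  exact (Submodule.equivMapOfInjective j hj _).finrank_eq

end abs

section homk

universe u v

variable {K : Type u} {B : Type v} [Field K] [Ring B] [Algebra K B] [FiniteDimensional K B]
  {X : Type v} [AddCommGroup X] [Module K X] [Module B X] [IsScalarTower K B X]
  [FiniteDimensional K X]

/-- `Hom_K(B, X)` is free over the symmetric algebra `B`. -/
theorem projective_homK (τ : B →ₗ[K] K) (tc : ∀ a b, τ (a * b) = τ (b * a))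
    (nd : ∀ a, (∀ b, τ (a * b) = 0) → a = 0) :
    Module.Projective B (Co.Coind (Algebra.ofId K B) X) := by
  classical
  let bX := Module.finBasis K X
  let Ψ : (Fin (finrank K X) → B) →ₗ[B] Co.Coind (Algebra.ofId K B) X :=
    { toFun := fun f => Co.Coind.mk' (∑ i, (τ ∘ₗ LinearMap.mulLeft K (f i)).smulRight (bX i)) (by
        intro c b
        rw [Algebra.ofId_apply, ← Algebra.smul_def, map_smul, algebraMap_smul])
      map_add' := fun f g => by
        ext b
        simp [add_mul, add_smul, Finset.sum_add_distrib]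
      map_smul' := fun r f => by
        ext b
        simp only [Co.Coind.mk'_apply, LinearMap.coe_sum, Finset.sum_apply,
          LinearMap.smulRight_apply, LinearMap.comp_apply, LinearMap.mulLeft_apply, Pi.smul_apply,
          smul_eq_mul, RingHom.id_apply, Co.Coind.smulB_apply]
        refine Finset.sum_congr rfl fun i _ => ?_
        rw [mul_assoc, tc r, mul_assoc] }
  have hΨ : ∀ f b, Ψ f b = ∑ i, τ (f i * b) • bX i := by
    intro f b
    simp [Ψ]
  have hinj : Function.Injective Ψ := by
    rw [injective_iff_map_eq_zero]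
    intro f hf
    funext i
    refine nd _ fun b => ?_
    have h1 : ∑ i, τ (f i * b) • bX i = 0 := by rw [← hΨ, hf]; rfl
    exact Fintype.linearIndependent_iff.mp bX.linearIndependent _ h1 i
  have hsurj : Function.Surjective Ψ := by
    -- every functional is `τ (a * ·)`
    have hτ : ∀ g : B →ₗ[K] K, ∃ a, ∀ b, g b = τ (a * b) := by
      let D : B →ₗ[K] (B →ₗ[K] K) :=
        { toFun := fun a => τ ∘ₗ LinearMap.mulLeft K a
          map_add' := fun a b => by ext; simp [add_mul]
          map_smul' := fun c a => by ext; simp }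
      have hD : Function.Injective D := by
        rw [injective_iff_map_eq_zero]
        intro a ha
        exact nd a fun b => LinearMap.congr_fun ha b
      have hfr : finrank K B = finrank K (B →ₗ[K] K) := (Subspace.dual_finrank_eq).symm
      have hDs := (LinearMap.injective_iff_surjective_of_finrank_eq_finrank hfr).mp hD
      intro g
      obtain ⟨a, ha⟩ := hDs g
      exact ⟨a, fun b => by rw [← ha]; rfl⟩
    intro φ
    choose a ha using fun i => hτ ((bX.coord i) ∘ₗ Co.Coind.coeLin φ)
    refine ⟨a, ?_⟩
    ext b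
    rw [hΨ]
    conv_rhs => rw [← bX.sum_repr (φ b)]
    refine Finset.sum_congr rfl fun i _ => ?_
    rw [← ha i b]
    rfl
  exact Module.Projective.of_equiv (LinearEquiv.ofBijective Ψ ⟨hinj, hsurj⟩)

end homk

end Vale.P179.H737.R
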