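import Vale.Agent.P179.H300.EP7

/-!
# REL / EP3rel, part 1: a graded projective bimodule summand of `B`, one-sided statements

`c : B → B` is a graded `(A, A)`-bilinear projection with a two-sided Higman identity; its range
plays the role of the complement of `ι A` in `B` (helper300's EP7, EP8 with `c` in place of
`id - ι ρ`).
-/

namespace Vale.P179.H737.R

open Module Vale.P179.H175 Vale.P179.H904 Vale.P179.H815 Vale.P179.H445 Vale.P179.H300

section defs

variable {K A B Γ : Type*} [Field K] [Ring A] [Algebra K A] [Ring B] [Algebra K B] [Group Γ]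
  [Fintype Γ]

/-- A homogeneous bilinear projection with a two-sided Higman identity. -/
structure Cp (γ : Γ →* A) (ι : A →ₐ[K] B) (WA : ℚ → Submodule K A) (W : ℚ → Submodule K B)
    (c : B →ₗ[K] B) : Prop where
  idem : ∀ b, c (c b) = c b
  left : ∀ a b, c (ι a * b) = ι a * c b
  right : ∀ a b, c (b * ι a) = c b * ι a
  deg : ∀ r, ∀ b ∈ W r, c b ∈ W r
  inj : ∀ r, ∀ h ∈ WA r, ι h ∈ W r
  hig : ∃ θ : B →ₗ[K] B, ∀ b, ∑ x : Γ, ∑ y : Γ, ι (γ x) * θ (ι (γ x⁻¹) * b * ι (γ y)) *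
    ι (γ y⁻¹) = c b

/-- The corner `{b | ι x b = b, b ι y = b, c b = b}`. -/
def Uc (ι : A →ₐ[K] B) (c : B →ₗ[K] B) (x y : A) : Submodule K B :=
  cor2 K (ι x) (ι y) ⊓ LinearMap.ker (LinearMap.id - c)

theorem mem_kerc {c : B →ₗ[K] B} {b : B} : b ∈ LinearMap.ker (LinearMap.id - c) ↔ c b = b := by
  rw [LinearMap.mem_ker, LinearMap.sub_apply, LinearMap.id_apply, sub_eq_zero, eq_comm]

theorem mem_Uc {ι : A →ₐ[K] B} {c : B →ₗ[K] B} {x y : A} {b : B} :
    b ∈ Uc ι c x y ↔ (ι x * b = b ∧ b * ι y = b) ∧ c b = b := by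
  rw [Uc, Submodule.mem_inf, mem_kerc]
  rfl

/-- The span of the `b * ι j`, `j` in `J`, `c b = b`. -/
def Sc (ι : A →ₐ[K] B) (c : B →ₗ[K] B) (J : Submodule K A) : Submodule K B :=
  Submodule.span K {z | ∃ j ∈ J, ∃ b, c b = b ∧ z = b * ι j}

end defs

section psi

variable {K A B Γ : Type*} [Field K] [Ring A] [Algebra K A] [Ring B]
  [Algebra K B] [Group Γ] [Fintype Γ] {γ : Γ →* A} {ι : A →ₐ[K] B}
  {WA : ℚ → Submodule K A} {W : ℚ → Submodule K B} {c : B →ₗ[K] B}

/-- The projection is a one-sided trace. -/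
theorem Cp.exists_psi (C : Cp γ ι WA W c) (hspan : Submodule.span K (Set.range γ) = ⊤) :
    ∃ ψ : B →ₗ[K] B, (∀ b, ∑ x : Γ, ι (γ x) * ψ (ι (γ x⁻¹) * b) = c b) ∧
      (∀ a b, ψ (b * ι a) = ψ b * ι a) ∧ (∀ b, c (ψ b) = ψ b) := by
  classical
  obtain ⟨θ, hθ⟩ := C.hig
  let t : B →ₗ[K] B :=
    { toFun := fun b => ∑ y : Γ, θ (b * ι (γ y)) * ι (γ y⁻¹)
      map_add' := fun b c => by simp [add_mul, Finset.sum_add_distrib]
      map_smul' := fun q b => by simp [Finset.smul_sum] }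
  have ht : ∀ b, t b = ∑ y : Γ, θ (b * ι (γ y)) * ι (γ y⁻¹) := fun b => rfl
  have ht1 : ∀ (g : Γ) b, t (b * ι (γ g)) = t b * ι (γ g) := by
    intro g b
    rw [ht, ht, Finset.sum_mul, ← Equiv.sum_comp (Equiv.mulLeft g) (fun y =>
      θ (b * ι (γ y)) * ι (γ y⁻¹) * ι (γ g))]
    refine Finset.sum_congr rfl fun y _ => ?_
    simp only [Equiv.coe_mulLeft, mul_inv_rev, map_mul, mul_assoc]
    congr 1
    rw [← map_mul ι, ← map_mul γ, inv_mul_cancel, map_one, map_one, mul_one]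
  have ht2 : ∀ a b, t (b * ι a) = t b * ι a := by
    intro a b
    have ha : a ∈ Submodule.span K (Set.range γ) := by rw [hspan]; trivial
    induction ha using Submodule.span_induction with
    | mem a ha => obtain ⟨y, rfl⟩ := ha; exact ht1 y b
    | zero => simp
    | add a c _ _ ha hc => rw [map_add, mul_add, map_add, ha, hc, mul_add]
    | smul q a _ ha => rw [map_smul, mul_smul_comm, map_smul, ha, mul_smul_comm]
  refine ⟨c ∘ₗ t, fun b => ?_, fun a b => ?_, fun b => C.idem _⟩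
  · have h4 : ∑ x : Γ, ι (γ x) * t (ι (γ x⁻¹) * b) = c b := by
      rw [← hθ b]
      refine Finset.sum_congr rfl fun x _ => ?_
      rw [ht, Finset.mul_sum]
      exact Finset.sum_congr rfl fun y _ => (mul_assoc _ _ _).symm
    have h5 := congrArg c h4
    rw [map_sum, C.idem] at h5
    rw [← h5]
    refine Finset.sum_congr rfl fun x _ => ?_
    rw [LinearMap.comp_apply, C.left]
  · rw [LinearMap.comp_apply, LinearMap.comp_apply, ht2, C.right]

/-- The range of `c`, cut on the right by an idempotent of degree `0` of `B`, is a graded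
projective summand. -/
theorem Cp.retr (C : Cp γ ι WA W c) (hspan : Submodule.span K (Set.range γ) = ⊤)
    (hB : H175.GrAlg W) {η : A} (hη0 : η ∈ WA 0) (hη : η * η = η) :
    Retr γ ι W (LinearMap.mulRight K (ι η) ∘ₗ c) := by
  obtain ⟨ψ, h5, h6, h7⟩ := C.exists_psi hspan
  have hηη : ι η * ι η = ι η := by rw [← map_mul, hη]
  refine ⟨fun a b => ?_, fun b => ?_, fun r b hb => ?_, 0, 0, ψ, fun a b => by simp, by simp,
    fun b hb => ?_⟩
  · simp only [LinearMap.comp_apply, LinearMap.mulRight_apply, C.left, mul_assoc]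
  · simp only [LinearMap.comp_apply, LinearMap.mulRight_apply, C.right, C.idem,
      mul_assoc, hηη]
  · have := hB.mul (C.deg r b hb) (C.inj 0 η hη0)
    rwa [add_zero] at this
  · simp only [LinearMap.comp_apply, LinearMap.mulRight_apply] at hb
    have h8 : c b = b := by
      conv_lhs => rw [← hb]
      rw [C.right, C.idem, hb]
    rw [mul_zero, zero_add, h5]
    exact h8

end psi

section aux

variable {K A B Γ I : Type*} [Field K] [Ring A] [Algebra K A] [Ring B]
  [Algebra K B] [Group Γ] [Fintype Γ] {γ : Γ →* A} {ι : A →ₐ[K] B}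
  {WA : ℚ → Submodule K A} {W : ℚ → Submodule K B} {c : B →ₗ[K] B} {J : Submodule K A}
  {A' B' : Type*} [Ring A'] [Algebra K A'] [Ring B'] [Algebra K B']
  {o : A ≃ₗ[K] A'} {o' : B ≃ₗ[K] B'} (ho : ∀ x y, o (x * y) = o y * o x)
  (ho' : ∀ x y, o' (x * y) = o' y * o' x)

/-- the opposite projection -/
def cop (o' : B ≃ₗ[K] B') (c : B →ₗ[K] B) : B' →ₗ[K] B' :=
  o'.toLinearMap ∘ₗ c ∘ₗ o'.symm.toLinearMap

theorem cop_apply (b : B) : cop o' c (o' b) = o' (c b) := by
  change o' (c (o'.symm (o' b))) = _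
  rw [o'.symm_apply_apply]

/-- the opposite data -/
theorem Cp.op (C : Cp γ ι WA W c) :
    Cp (gop ho γ) (aop ho ho' ι) (fun r => sop o (WA r)) (fun r => sop o' (W r)) (cop o' c) where
  idem := fun b => by
    obtain ⟨b, rfl⟩ := o'.surjective b
    rw [cop_apply, cop_apply, C.idem]
  left := fun a b => by
    obtain ⟨a, rfl⟩ := o.surjective a
    obtain ⟨b, rfl⟩ := o'.surjective b
    rw [aop_o, ← ho', cop_apply, cop_apply, C.right, ho']
  right := fun a b => by
    obtain ⟨a, rfl⟩ := o.surjective a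
    obtain ⟨b, rfl⟩ := o'.surjective b
    rw [aop_o, ← ho', cop_apply, cop_apply, C.left, ho']
  deg := fun r b hb => by
    obtain ⟨b, rfl⟩ := o'.surjective b
    rw [cop_apply, op_mem_sop]
    exact C.deg r _ (op_mem_sop.mp hb)
  inj := fun r h hh => by
    rw [aop_apply, op_mem_sop]
    exact C.inj r _ (mem_sop.mp hh)
  hig := by
    obtain ⟨θ, hθ⟩ := C.hig
    refine ⟨cop o' θ, fun b => ?_⟩
    obtain ⟨b, rfl⟩ := o'.surjective b
    have hg : ∀ x : Γ, aop ho ho' ι (gop ho γ x) = o' (ι (γ x⁻¹)) := fun x =>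
      aop_o ho ho' ι (γ x⁻¹)
    rw [cop_apply, ← hθ b, Finset.sum_comm, map_sum]
    refine Finset.sum_congr rfl fun x _ => ?_
    rw [map_sum]
    refine Finset.sum_congr rfl fun y _ => ?_
    rw [hg, hg, hg, hg, inv_inv, inv_inv, ho', ho', mul_assoc (o' (ι (γ y⁻¹)))]
    congr 2
    rw [← ho', ← ho', cop_apply, mul_assoc]

/-- the projection of the opposite data -/
noncomputable abbrev piopc (ι : A →ₐ[K] B) (c : B →ₗ[K] B) (x : A) : B' →ₗ[K] B' :=
  LinearMap.mulRight K (aop ho ho' ι (o x)) ∘ₗ cop o' c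

theorem piopc_apply (x : A) (b : B) : piopc ho ho' ι c x (o' b) = o' (ι x * c b) := by
  rw [piopc, LinearMap.comp_apply, LinearMap.mulRight_apply, cop_apply, aop_o, ho']

theorem piopc_fix (C : Cp γ ι WA W c) {x : A} (hx : x * x = x) (b : B) :
    piopc ho ho' ι c x (o' b) = o' b ↔ ι x * b = b ∧ c b = b := by
  rw [piopc_apply, o'.injective.eq_iff]
  have hxx : ι x * ι x = ι x := by rw [← map_mul, hx]
  constructor
  · intro h
    have h1 : c b = b := by
      conv_lhs => rw [← h]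
      rw [C.left, C.idem, h]
    rw [h1] at h
    exact ⟨h, h1⟩
  · rintro ⟨h1, h2⟩
    rw [h2, h1]

theorem UL_opc (C : Cp γ ι WA W c) {x : A} (hx : x * x = x) (y : A) :
    UL (aop ho ho' ι) (piopc ho ho' ι c x) (o y) = sop o' (Uc ι c x y) := by
  ext b'
  obtain ⟨b, rfl⟩ := o'.surjective b'
  rw [op_mem_sop, mem_Uc]
  constructor
  · rintro ⟨h1, h2⟩
    rw [piopc_fix ho ho' C hx b] at h2
    rw [aop_o, ← ho'] at h1
    exact ⟨⟨h2.1, o'.injective h1⟩, h2.2⟩
  · rintro ⟨⟨h1, h2⟩, h3⟩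
    refine ⟨?_, (piopc_fix ho ho' C hx b).mpr ⟨h1, h3⟩⟩
    rw [aop_o, ← ho', h2]

theorem SL_opc (C : Cp γ ι WA W c) {x : A} (hx : x * x = x) (y : A) :
    SL (aop ho ho' ι) (sop o J) (piopc ho ho' ι c x) ⊓
      UL (aop ho ho' ι) (piopc ho ho' ι c x) (o y) = sop o' (Sc ι c J ⊓ Uc ι c x y) := by
  rw [UL_opc ho ho' C hx, sop_inf]
  have hxx : ι x * ι x = ι x := by rw [← map_mul, hx]
  apply le_antisymm
  · rintro b' ⟨h1, h2⟩
    refine ⟨?_, h2⟩
    clear h2
    unfold SL at h1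
    induction h1 using Submodule.span_induction with
    | mem z hz =>
      obtain ⟨j', hj', b', hb', rfl⟩ := hz
      obtain ⟨j, rfl⟩ := o.surjective j'
      obtain ⟨b, rfl⟩ := o'.surjective b'
      rw [piopc_fix ho ho' C hx b] at hb'
      change _ ∈ sop o' (Sc ι c J)
      rw [aop_o, ← ho', op_mem_sop]
      exact Submodule.subset_span ⟨j, op_mem_sop.mp hj', b, hb'.2, rfl⟩
    | zero => exact zero_mem _
    | add y z _ _ hy hz => exact add_mem hy hz
    | smul c y _ hy => exact Submodule.smul_mem _ _ hy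
  · rintro b' ⟨h1, h2⟩
    refine ⟨?_, h2⟩
    obtain ⟨b, rfl⟩ := o'.surjective b'
    have h1' : b ∈ Sc ι c J := op_mem_sop.mp h1
    have h2' : b ∈ Uc ι c x y := op_mem_sop.mp h2
    have key : ∀ z ∈ Sc ι c J, o' (ι x * z) ∈
        SL (aop ho ho' ι) (sop o J) (piopc ho ho' ι c x) := by
      intro z hz
      unfold Sc at hz
      induction hz using Submodule.span_induction with
      | mem z hz =>
        obtain ⟨j, hj, b, hb, rfl⟩ := hz
        refine Submodule.subset_span ⟨o j, op_mem_sop.mpr hj, o' (ι x * b), ?_, ?_⟩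
        · rw [piopc_fix ho ho' C hx _]
          exact ⟨by rw [← mul_assoc, hxx], by rw [C.left, hb]⟩
        · rw [aop_o, ← ho', mul_assoc]
      | zero => rw [mul_zero, map_zero]; exact zero_mem _
      | add y z _ _ hy hz => rw [mul_add, map_add]; exact add_mem hy hz
      | smul c y _ hy => rw [mul_smul_comm, map_smul]; exact Submodule.smul_mem _ _ hy
    have := key b h1'
    rwa [(mem_Uc.mp h2').1.1] at this

end aux

section right

variable {K A B Γ I : Type*} [Field K] [Ring A] [Algebra K A] [FiniteDimensional K A] [Ring B]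
  [Algebra K B] [FiniteDimensional K B] [Group Γ] [Fintype Γ] {γ : Γ →* A} {ι : A →ₐ[K] B}
  {WA : ℚ → Submodule K A} {W : ℚ → Submodule K B} {c : B →ₗ[K] B} {J : Submodule K A} {ε : I → A}

/-- **(L2)** for the range of `c` as a right module. -/
theorem Cp.gd_right [Fintype I] (C : Cp γ ι WA W c)
    (hspan : Submodule.span K (Set.range γ) = ⊤)
    (hb : Basic WA J ε) (hB : H175.GrAlg W) {x : A} (hx0 : x ∈ WA 0)
    (hx : x * x = x) (b : I) :
    gd W (Uc ι c x (ε b)) = ∑ d, (gd W (Uc ι c x (ε d)) -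
      gd W (Sc ι c J ⊓ Uc ι c x (ε d))) * gd WA (cor2 K (ε d) (ε b)) := by
  let o : A ≃ₗ[K] Aᵐᵒᵖ := MulOpposite.opLinearEquiv K
  let o' : B ≃ₗ[K] Bᵐᵒᵖ := MulOpposite.opLinearEquiv K
  have ho : ∀ x y, o (x * y) = o y * o x := fun _ _ => rfl
  have ho' : ∀ x y, o' (x * y) = o' y * o' x := fun _ _ => rfl
  clear_value o o'
  have hfA : FiniteDimensional K Aᵐᵒᵖ := Module.Finite.equiv o
  have hfB : FiniteDimensional K Bᵐᵒᵖ := Module.Finite.equiv o'
  have C' := C.op ho ho'
  have P := C'.retr (span_gop ho hspan) (grAlg_sop ho' hB)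
    (η := o x) (op_mem_sop.mpr hx0) (by rw [← ho, hx])
  have h := gd_retract (aop ho ho' ι) (span_gop ho hspan) (basic_sop ho hb) (grAlg_sop ho' hB)
    C'.inj P (η := o (ε b)) (op_mem_sop.mpr (hb.deg b)) (by rw [← ho, hb.idem])
  rw [UL_opc ho ho' C hx, gd_sop] at h
  rw [h]
  refine Finset.sum_congr rfl fun d _ => ?_
  rw [SL_opc ho ho' C hx, UL_opc ho ho' C hx, gd_sop, gd_sop, cor2_sop ho, gd_sop, mul_comm]

end right

end Vale.P179.H737.R
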