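import Vale.Agent.P179.H737.REP1
import Vale.Agent.P179.H300.EP8

/-!
# REL / EP3rel, part 2

`gd (ε_a U ε_b) = (C Wm C)_{ab}` for the range `U` of the projection `c`.
-/

namespace Vale.P179.H737.R

open Module Vale.P179.H175 Vale.P179.H904 Vale.P179.H815 Vale.P179.H445 Vale.P179.H300

section left

variable {K A B Γ I : Type*} [Field K] [Ring A] [Algebra K A] [FiniteDimensional K A] [Ring B]
  [Algebra K B] [FiniteDimensional K B] [Group Γ] [Fintype Γ] {γ : Γ →* A} {ι : A →ₐ[K] B}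
  {WA : ℚ → Submodule K A} {W : ℚ → Submodule K B} {c : B →ₗ[K] B} {J : Submodule K A} {ε : I → A}

omit [FiniteDimensional K A] [FiniteDimensional K B] in
theorem Sc_left (C : Cp γ ι WA W c) (a : A) {z : B} (hz : z ∈ Sc ι c J) :
    ι a * z ∈ Sc ι c J := by
  unfold Sc at hz ⊢
  induction hz using Submodule.span_induction with
  | mem z hz =>
    obtain ⟨j, hj, b, hb, rfl⟩ := hz
    exact Submodule.subset_span ⟨j, hj, ι a * b, by rw [C.left, hb],
      (mul_assoc _ _ _).symm⟩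
  | zero => rw [mul_zero]; exact zero_mem _
  | add y z _ _ hy hz => rw [mul_add]; exact add_mem hy hz
  | smul c y _ hy => rw [mul_smul_comm]; exact Submodule.smul_mem _ _ hy

omit [FiniteDimensional K A] [FiniteDimensional K B] in
theorem Sc_right (hb : Basic WA J ε) (a : A) {z : B} (hz : z ∈ Sc ι c J) :
    z * ι a ∈ Sc ι c J := by
  unfold Sc at hz ⊢
  induction hz using Submodule.span_induction with
  | mem z hz =>
    obtain ⟨j, hj, b, hb', rfl⟩ := hz
    exact Submodule.subset_span ⟨j * a, hb.mulR _ _ hj, b, hb', by rw [map_mul, mul_assoc]⟩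
  | zero => rw [zero_mul]; exact zero_mem _
  | add y z _ _ hy hz => rw [add_mul]; exact add_mem hy hz
  | smul c y _ hy => rw [smul_mul_assoc]; exact Submodule.smul_mem _ _ hy

omit [FiniteDimensional K A] [FiniteDimensional K B] in
theorem Sc_psi {ψ : B →ₗ[K] B} (h6 : ∀ a b, ψ (b * ι a) = ψ b * ι a)
    (h7 : ∀ b, c (ψ b) = ψ b) {z : B} (hz : z ∈ Sc ι c J) : ψ z ∈ Sc ι c J := by
  unfold Sc at hz ⊢
  induction hz using Submodule.span_induction with
  | mem z hz =>
    obtain ⟨j, hj, b, hb', rfl⟩ := hz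
    exact Submodule.subset_span ⟨j, hj, ψ b, h7 b, h6 j b⟩
  | zero => rw [map_zero]; exact zero_mem _
  | add y z _ _ hy hz => rw [map_add]; exact add_mem hy hz
  | smul c y _ hy => rw [map_smul]; exact Submodule.smul_mem _ _ hy

omit [FiniteDimensional K A] [FiniteDimensional K B] in
theorem Sc_fix (C : Cp γ ι WA W c) {z : B} (hz : z ∈ Sc ι c J) : c z = z := by
  unfold Sc at hz
  induction hz using Submodule.span_induction with
  | mem z hz =>
    obtain ⟨j, hj, b, hb', rfl⟩ := hz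
    rw [C.right, hb']
  | zero => exact map_zero _
  | add y z _ _ hy hz => rw [map_add, hy, hz]
  | smul c y _ hy => rw [map_smul, hy]

omit [FiniteDimensional K B] in
theorem Sc_homog (C : Cp γ ι WA W c) (hb : Basic WA J ε) (hB : H175.GrAlg W) :
    Homog W (Sc ι c J) := by
  classical
  obtain ⟨S, hS⟩ := exists_finset_cpt hb.gr.int
  intro z hz
  unfold Sc at hz
  induction hz using Submodule.span_induction with
  | mem z hz =>
    obtain ⟨j, hj, b, hb', rfl⟩ := hz
    intro r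
    have h1 : b * ι j = ∑ s ∈ S, b * ι (cpt WA s j) := by
      rw [← Finset.mul_sum, ← map_sum, hS]
    rw [h1, map_sum]
    refine Submodule.sum_mem _ fun s _ => ?_
    rw [cpt_mul_right hB (C.inj s _ (cpt_mem hb.gr.int s j))]
    refine Submodule.subset_span ⟨cpt WA s j, hb.hom j hj s, cpt W (r - s) b, ?_, rfl⟩
    rw [← cpt_map hB.int hB.int c C.deg, hb']
  | zero => intro r; rw [map_zero]; exact zero_mem _
  | add y z _ _ hy hz => intro r; rw [map_add]; exact add_mem (hy r) (hz r)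
  | smul c y _ hy => intro r; rw [map_smul]; exact Submodule.smul_mem _ _ (hy r)

/-- **(L2)** for the top of the range of `c` as a left module. -/
theorem Cp.gd_left [Fintype I] [DecidableEq I] (C : Cp γ ι WA W c)
    (hspan : Submodule.span K (Set.range γ) = ⊤)
    (hb : Basic WA J ε) (hB : H175.GrAlg W) {y : A} (hy0 : y ∈ WA 0)
    (hy : y * y = y) :
    ∃ w : I → ZQ, ∀ x ∈ WA 0, x * x = x →
      gd W (Uc ι c x y) - gd W (Sc ι c J ⊓ Uc ι c x y) =
        ∑ d, gd WA (cor2 K x (ε d)) * w d := by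
  classical
  obtain ⟨ψ, h5, h6, h7⟩ := C.exists_psi hspan
  have hyy : ι y * ι y = ι y := by rw [← map_mul, hy]
  let _ : Module A B := Module.compHom B (ι : A →+* B)
  have hsm : ∀ (a : A) (b : B), a • b = ι a * b := fun _ _ => rfl
  have : IsScalarTower K A B := ⟨fun q a b => by rw [hsm, hsm, map_smul, smul_mul_assoc]⟩
  -- the submodule
  let N : Submodule A B :=
    { carrier := {b | c b * ι y ∈ Sc ι c J}
      add_mem' := fun {b d} hb hd => by
        change c (b + d) * ι y ∈ Sc ι c J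
        rw [map_add, add_mul]
        exact add_mem hb hd
      zero_mem' := by
        change c 0 * ι y ∈ Sc ι c J
        rw [map_zero, zero_mul]
        exact zero_mem _
      smul_mem' := fun a b hb => by
        change c (ι a * b) * ι y ∈ Sc ι c J
        rw [C.left, mul_assoc]
        exact Sc_left C a hb }
  have hN : ∀ b, b ∈ N ↔ c b * ι y ∈ Sc ι c J := fun _ => Iff.rfl
  let mk : B →ₗ[K] (B ⧸ N) := (N.mkQ).restrictScalars K
  have hmk : ∀ b, mk b = 0 ↔ c b * ι y ∈ Sc ι c J := fun b => by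
    change N.mkQ b = 0 ↔ _
    rw [Submodule.mkQ_apply, Submodule.Quotient.mk_eq_zero, hN]
  have hmks : Function.Surjective mk := N.mkQ_surjective
  have hmksm : ∀ (a : A) (b : B), a • mk b = mk (ι a * b) := fun a b => rfl
  have hmkeq : ∀ b d, mk b = mk d ↔ c (b - d) * ι y ∈ Sc ι c J := fun b d => by
    rw [← sub_eq_zero, ← map_sub, hmk]
  have hfd : FiniteDimensional K (B ⧸ N) := Module.Finite.of_surjective mk hmks
  have hfin : Module.Finite A (B ⧸ N) := Module.Finite.of_restrictScalars_finite K A _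
  -- the grading
  let V : ℚ → Submodule K (B ⧸ N) := fun r => (W r).map mk
  have hker : Homog W (LinearMap.ker mk) := by
    intro x hx r
    rw [LinearMap.mem_ker, hmk] at hx ⊢
    have h1 := Sc_homog C hb hB _ hx r
    have h2 := cpt_mul_right hB (C.inj 0 y hy0) r (c x)
    rw [sub_zero, cpt_map hB.int hB.int c C.deg] at h2
    rwa [h2] at h1
  have hV : GrMod WA V :=
    { int := internal_map hB.int mk hmks hker
      smul := fun {r s a x} ha hx => by
        obtain ⟨b, hb', rfl⟩ := hx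
        rw [hmksm]
        exact ⟨ι a * b, hB.mul (C.inj r a ha) hb', rfl⟩ }
  -- projectivity
  obtain ⟨σ, hσ⟩ := mk.exists_rightInverse_of_surjective (LinearMap.range_eq_top.mpr hmks)
  have hσ' : ∀ l, mk (σ l) = l := fun l => LinearMap.congr_fun hσ l
  let Ψ : B →ₗ[K] B := ψ ∘ₗ LinearMap.mulRight K (ι y) ∘ₗ c
  have hΨ : ∀ b, Ψ b = ψ (c b * ι y) := fun _ => rfl
  have hΨ0 : ∀ b, mk b = 0 → mk (Ψ b) = 0 := by
    intro b hb'
    rw [hmk] at hb' ⊢
    rw [hΨ]
    have h8 := Sc_psi h6 h7 hb'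
    rw [Sc_fix C h8]
    exact Sc_right hb y h8
  have hΨeq : ∀ b, mk (Ψ (σ (mk b))) = mk (Ψ b) := by
    intro b
    rw [← sub_eq_zero, ← map_sub, ← map_sub]
    exact hΨ0 _ (by rw [map_sub, hσ', sub_self])
  have hproj : Module.Projective A (B ⧸ N) := by
    refine projective_of_higman hspan 0 0 (mk ∘ₗ Ψ ∘ₗ σ) fun l => ?_
    obtain ⟨b, rfl⟩ := hmks l
    rw [LinearMap.zero_apply, zero_add]
    have h9 : ∀ x : Γ, γ x • (mk ∘ₗ Ψ ∘ₗ σ) (γ x⁻¹ • mk b) =
        mk (ι (γ x) * ψ (ι (γ x⁻¹) * (c b * ι y))) := by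
      intro x
      rw [hmksm, LinearMap.comp_apply, LinearMap.comp_apply, hΨeq, hmksm, hΨ, C.left,
        mul_assoc]
    rw [Finset.sum_congr rfl fun x _ => h9 x, ← map_sum, h5, hmkeq]
    rw [C.right, C.idem, map_sub, C.right, C.idem, sub_mul, mul_assoc, hyy, sub_self]
    exact zero_mem _
  obtain ⟨n, i, r, x, F⟩ := exists_fam hb hV
  refine ⟨mult i r, fun x hx0 hx => ?_⟩
  rw [← sum_mult i r (fun c => gd WA (cor2 K x (ε c))), ← F.gd_cor1 hb.gr hV hb.deg hx0 hx]
  -- the dimension of the corner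
  have hxx : ι x * ι x = ι x := by rw [← map_mul, hx]
  apply coeff_ext
  intro s
  rw [AddMonoidAlgebra.coeff_sub, Finsupp.sub_apply, coeff_gd hB.int.submodule_iSupIndep,
    coeff_gd hB.int.submodule_iSupIndep, coeff_gd hV.int.submodule_iSupIndep]
  have h := finrank_map_add (Uc ι c x y ⊓ W s) mk
  have k1 : (Uc ι c x y ⊓ W s).map mk = cor1 K (B ⧸ N) x ⊓ V s := by
    ext l
    constructor
    · rintro ⟨b, ⟨hb1, hb2⟩, rfl⟩
      refine ⟨?_, b, hb2, rfl⟩
      change x • mk b = mk b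
      rw [hmksm, hb1.1.1]
    · rintro ⟨hl, b, hb', rfl⟩
      have h1 : x • mk b = mk b := hl
      rw [hmksm] at h1
      refine ⟨ι x * (c b * ι y), ⟨mem_Uc.mpr ⟨⟨?_, ?_⟩, ?_⟩, ?_⟩, ?_⟩
      · rw [← mul_assoc, hxx]
      · rw [mul_assoc, mul_assoc, hyy]
      · rw [C.left, C.right, C.idem]
      · have h2 := hB.mul (C.inj 0 x hx0) (hB.mul (C.deg s b hb') (C.inj 0 y hy0))
        rwa [add_zero, zero_add] at h2
      · rw [← h1, hmkeq, map_sub, C.left, C.right, C.idem, C.left, sub_mul,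
          mul_assoc (ι x), mul_assoc (c b), hyy, mul_assoc (ι x), sub_self]
        exact zero_mem _
  have k2 : (Uc ι c x y ⊓ W s) ⊓ LinearMap.ker mk =
      (Sc ι c J ⊓ Uc ι c x y) ⊓ W s := by
    ext b
    constructor
    · rintro ⟨⟨hb1, hb2⟩, hb3⟩
      have h1 := (hmk b).mp hb3
      have hb1' := mem_Uc.mp hb1
      rw [hb1'.2, hb1'.1.2] at h1
      exact ⟨⟨h1, hb1⟩, hb2⟩
    · rintro ⟨⟨hb1, hb2⟩, hb3⟩
      refine ⟨⟨hb2, hb3⟩, (hmk b).mpr ?_⟩
      have hb2' := mem_Uc.mp hb2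
      rw [hb2'.2, hb2'.1.2]
      exact hb1
  rw [k1, k2] at h
  have h' : (finrank K ↥(cor1 K (B ⧸ N) x ⊓ V s) : ℤ) +
      (finrank K ↥((Sc ι c J ⊓ Uc ι c x y) ⊓ W s) : ℤ) =
      (finrank K ↥(Uc ι c x y ⊓ W s) : ℤ) := by exact_mod_cast h
  linarith

/-- The graded dimensions of the corners of the range of `c`. -/
theorem Cp.gd_mid [Fintype I] [DecidableEq I] (C : Cp γ ι WA W c)
    (hspan : Submodule.span K (Set.range γ) = ⊤)
    (hb : Basic WA J ε) (hB : H175.GrAlg W) :
    ∃ Wm : Matrix I I ZQ, ∀ a b, gd W (Uc ι c (ε a) (ε b)) =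
      ∑ a', ∑ b', gd WA (cor2 K (ε a) (ε a')) * Wm a' b' * gd WA (cor2 K (ε b') (ε b)) := by
  choose w hw using fun d : I => C.gd_left hspan hb hB (hb.deg d) (hb.idem d)
  refine ⟨Matrix.of fun a d => w d a, fun a b => ?_⟩
  rw [C.gd_right hspan hb hB (hb.deg a) (hb.idem a) b, Finset.sum_comm]
  refine Finset.sum_congr rfl fun d _ => ?_
  rw [hw d (ε a) (hb.deg a) (hb.idem a), Finset.sum_mul]
  rfl

end left

end Vale.P179.H737.R
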