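import Vale.Agent.P179.H904.Sig

/-!
The matrix identities of the signature argument, over the ring of Laurent polynomials with
rational exponents.
-/

namespace Vale.P179.H737.R

open Matrix Vale.P179.H904
open scoped ComplexOrder

/-! ## Laurent polynomials with rational exponents -/

/-- Laurent polynomials with rational exponents and rational coefficients. -/
abbrev RQ : Type := AddMonoidAlgebra ℚ ℚ

/-- The monomial `T^r`. -/
noncomputable def tq (r : ℚ) : RQ := AddMonoidAlgebra.single r 1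

theorem tq_mul (r s : ℚ) : tq r * tq s = tq (r + s) := by
  simp [tq, AddMonoidAlgebra.single_mul_single]

@[simp] theorem tq_zero : tq 0 = 1 := rfl

/-- The unit `T^r`. -/
noncomputable def tqU (r : ℚ) : RQˣ where
  val := tq r
  inv := tq (-r)
  val_inv := by simp [tq_mul]
  inv_val := by simp [tq_mul]

/-- `T^r -> T^(-r)`. -/
noncomputable def barQ : RQ →+* RQ :=
  AddMonoidAlgebra.mapDomainRingHom ℚ (negAddMonoidHom : ℚ →+ ℚ)

@[simp] theorem barQ_single (r : ℚ) (n : ℚ) :
    barQ (AddMonoidAlgebra.single r n) = AddMonoidAlgebra.single (-r) n := by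
  simp [barQ]

@[simp] theorem barQ_tq (r : ℚ) : barQ (tq r) = tq (-r) := by simp [tq]

theorem barQ_barQ (f : RQ) : barQ (barQ f) = f := by
  have : barQ.comp barQ = RingHom.id RQ := by
    apply AddMonoidAlgebra.ringHom_ext <;> intro r <;> simp
  exact RingHom.congr_fun this f

/-- The phase `exp(i a θ)`. -/
noncomputable def ph (a : ℝ) (θ : ℝ) : ℂ := Complex.exp (((a * θ : ℝ) : ℂ) * Complex.I)

theorem ph_mul (a b θ : ℝ) : ph a θ * ph b θ = ph (a + b) θ := by
  unfold ph
  rw [← Complex.exp_add]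
  congr 1
  push_cast
  ring

@[simp] theorem ph_zero_left (θ : ℝ) : ph 0 θ = 1 := by simp [ph]

@[simp] theorem ph_zero_right (a : ℝ) : ph a 0 = 1 := by simp [ph]

theorem star_ph (a θ : ℝ) : star (ph a θ) = ph (-a) θ := by
  unfold ph
  rw [Complex.star_def, ← Complex.exp_conj]
  congr 1
  simp

theorem continuous_ph (a : ℝ) : Continuous (ph a) := by
  unfold ph
  fun_prop

/-- The monoid homomorphism `r -> exp(i r θ)`. -/
noncomputable def phHom (θ : ℝ) : Multiplicative ℚ →* ℂ where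
  toFun r := ph ((Multiplicative.toAdd r : ℚ) : ℝ) θ
  map_one' := by simp
  map_mul' r s := by simp [ph_mul]

/-- Evaluation at `q = exp(i θ)`. -/
noncomputable def evq (θ : ℝ) : RQ →+* ℂ :=
  (AddMonoidAlgebra.lift ℚ ℂ ℚ (phHom θ)).toRingHom

@[simp] theorem evq_single (θ : ℝ) (r : ℚ) (n : ℚ) :
    evq θ (AddMonoidAlgebra.single r n) = (n : ℂ) * ph (r : ℝ) θ := by
  simp [evq, phHom, AddMonoidAlgebra.lift_single, Rat.smul_def]

@[simp] theorem evq_tq (θ : ℝ) (r : ℚ) : evq θ (tq r) = ph (r : ℝ) θ := by simp [tq]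

theorem evq_barQ (θ : ℝ) (f : RQ) : evq θ (barQ f) = star (evq θ f) := by
  have : (evq θ).comp barQ = (starRingEnd ℂ).comp (evq θ) := by
    apply AddMonoidAlgebra.ringHom_ext
    · intro r
      simp
    · intro r
      have := star_ph (r : ℝ) θ
      simp only [Complex.star_def] at this
      simp [this]
  exact RingHom.congr_fun this f

theorem evq_eq_sum (θ : ℝ) (f : RQ) :
    evq θ f = ∑ r ∈ f.coeff.support, (f.coeff r : ℂ) * ph (r : ℝ) θ := by
  conv_lhs => rw [← AddMonoidAlgebra.sum_coeff_single f, Finsupp.sum, map_sum]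
  simp

theorem continuous_evq (f : RQ) : Continuous (fun θ => evq θ f) := by
  simp_rw [evq_eq_sum]
  exact continuous_finsetSum _ fun r _ => continuous_const.mul (continuous_ph _)

/-! ## Matrices -/

section mat

variable {m n l : Type*}

/-- Conjugate transpose over `RQ`. -/
noncomputable def ct (A : Matrix m n RQ) : Matrix n m RQ := (A.map barQ)ᵀ

@[simp] theorem ct_apply (A : Matrix m n RQ) (i : n) (j : m) : ct A i j = barQ (A j i) := rfl

@[simp] theorem ct_ct (A : Matrix m n RQ) : ct (ct A) = A := by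
  ext i j
  simp [barQ_barQ]

theorem ct_mul [Fintype n] (A : Matrix m n RQ) (B : Matrix n l RQ) :
    ct (A * B) = ct B * ct A := by
  ext i j
  simp [Matrix.mul_apply, mul_comm]

theorem ct_smul (c : RQ) (A : Matrix m n RQ) : ct (c • A) = barQ c • ct A := by
  ext i j
  simp

@[simp] theorem ct_one [DecidableEq n] : ct (1 : Matrix n n RQ) = 1 := by
  ext i j
  simp only [ct_apply, Matrix.one_apply, apply_ite barQ, map_one, map_zero]
  simp [eq_comm]

theorem ct_add (A B : Matrix m n RQ) : ct (A + B) = ct A + ct B := by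
  ext i j
  simp

theorem ct_sub (A B : Matrix m n RQ) : ct (A - B) = ct A - ct B := by
  ext i j
  simp

/-- Evaluation of a matrix. -/
noncomputable def ev (θ : ℝ) (A : Matrix m n RQ) : Matrix m n ℂ := A.map (evq θ)

theorem ev_mul [Fintype n] (θ : ℝ) (A : Matrix m n RQ) (B : Matrix n l RQ) :
    ev θ (A * B) = ev θ A * ev θ B := by
  simp [ev, Matrix.map_mul]

theorem ev_ct (θ : ℝ) (A : Matrix m n RQ) : ev θ (ct A) = (ev θ A)ᴴ := by
  ext i j
  simp [ev, evq_barQ]

theorem ev_one [DecidableEq n] (θ : ℝ) : ev θ (1 : Matrix n n RQ) = 1 := by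
  simp [ev]

theorem ev_smul (θ : ℝ) (c : RQ) (A : Matrix m n RQ) : ev θ (c • A) = evq θ c • ev θ A := by
  ext i j
  simp [ev]

theorem ev_det [Fintype n] [DecidableEq n] (θ : ℝ) (A : Matrix n n RQ) :
    (ev θ A).det = evq θ A.det := by
  simp [ev, RingHom.map_det]

theorem continuous_ev (A : Matrix m n RQ) : Continuous (fun θ => ev θ A) := by
  refine continuous_matrix fun i j => ?_
  exact continuous_evq _

end mat

section main

variable {ι κ : Type*} [Fintype ι] [Fintype κ] [DecidableEq ι] [DecidableEq κ]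

/-- The algebraic input (Hermitian form and explicit inverse). -/
theorem alg_core {N : ℚ} {CH W : Matrix κ κ RQ} {CB z : Matrix ι ι RQ} {y u : Matrix κ ι RQ}
    {u' : Matrix ι κ RQ}
    (hCH : ct CH = tq (-N) • CH) (hCB : ct CB = tq (-N) • CB)
    (i1 : y * CB = CH * u) (i2 : CB * ct y = u' * CH)
    (i3 : u * ct y = 1 + W * CH) (i4 : y * u' = 1 + CH * W)
    (i5 : u' * y = 1 + CB * z) (i6 : ct y * u = 1 + z * CB)
    (hdet : CH.det ≠ 0) :
    ct z = tq N • z := by
  have reg : ∀ X : Matrix κ ι RQ, CH * X = 0 → X = 0 := by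
    intro X hX
    have h1 : CH.adjugate * (CH * X) = 0 := by rw [hX]; simp
    rw [← Matrix.mul_assoc, Matrix.adjugate_mul, Matrix.smul_mul, Matrix.one_mul] at h1
    refine Matrix.ext fun i j => ?_
    have h2 := congrFun (congrFun h1 i) j
    simp only [Matrix.smul_apply, smul_eq_mul, Matrix.zero_apply] at h2
    simpa using (mul_eq_zero.mp h2).resolve_left hdet
  -- `u = ct u'`
  have hu : u = ct u' := by
    have h1 := congrArg ct i2
    rw [ct_mul, ct_mul, ct_ct, hCB, hCH, Matrix.smul_mul, Matrix.mul_smul, i1] at h1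
    have h2 : tq (-N) • (CH * (u - ct u')) = 0 := by
      rw [Matrix.mul_sub, smul_sub, h1, sub_self]
    have h3 : CH * (u - ct u') = 0 := by
      have := congrArg (fun M => tq N • M) h2
      simpa [smul_smul, tq_mul] using this
    exact sub_eq_zero.mp (reg _ h3)
  set Δ : Matrix ι ι RQ := z - tq (-N) • ct z with hΔ
  have h1 : CB * Δ = 0 := by
    have h2 := congrArg ct i6
    rw [ct_mul, ct_ct, ct_add, ct_one, ct_mul, hCB, hu, ct_ct, Matrix.smul_mul] at h2
    rw [hΔ, Matrix.mul_sub, Matrix.mul_smul]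
    have h3 : CB * z = u' * y - 1 := by rw [i5]; simp
    have h4 : tq (-N) • (CB * ct z) = u' * y - 1 := by rw [h2]; simp
    rw [h3, h4, sub_self]
  have h2 : u * Δ = 0 := by
    apply reg
    rw [← Matrix.mul_assoc, ← i1, Matrix.mul_assoc, h1, Matrix.mul_zero]
  have h3 : Δ = 0 := by
    have h4 : (1 + z * CB) * Δ = 0 := by rw [← i6, Matrix.mul_assoc, h2, Matrix.mul_zero]
    rw [Matrix.add_mul, Matrix.mul_assoc, h1, Matrix.mul_zero, add_zero, Matrix.one_mul] at h4
    exact h4
  have h5 : z = tq (-N) • ct z := sub_eq_zero.mp h3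
  have h6 := congrArg (fun M => tq N • M) h5
  simp only [smul_smul, tq_mul, add_neg_cancel, tq_zero, one_smul] at h6
  exact h6.symm

/-- The normalised matrix `Q` over `RQ`. -/
noncomputable def Qm (N : ℚ) (CH : Matrix κ κ RQ) (z : Matrix ι ι RQ) (y : Matrix κ ι RQ) :
    Matrix (κ ⊕ ι) (κ ⊕ ι) RQ :=
  fromBlocks (tq (-N / 2) • CH) y (ct y) (tq (N / 2) • z)

theorem ct_fromBlocks {a b c d : Type*} (A : Matrix a b RQ) (B : Matrix a c RQ)
    (C : Matrix d b RQ) (D : Matrix d c RQ) :
    ct (fromBlocks A B C D) = fromBlocks (ct A) (ct C) (ct B) (ct D) := by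
  ext i j
  rcases i with i | i <;> rcases j with j | j <;> rfl

omit [Fintype ι] [Fintype κ] [DecidableEq ι] [DecidableEq κ] in
theorem ct_Qm {N : ℚ} {CH : Matrix κ κ RQ} {z : Matrix ι ι RQ} {y : Matrix κ ι RQ}
    (hCH : ct CH = tq (-N) • CH) (hz : ct z = tq N • z) : ct (Qm N CH z y) = Qm N CH z y := by
  rw [Qm, ct_fromBlocks, ct_ct, ct_smul, ct_smul, hCH, hz, smul_smul, smul_smul]
  simp only [barQ_tq, tq_mul]
  congr 2 <;> congr 2 <;> ring

theorem Qm_mul {N : ℚ} {CH W : Matrix κ κ RQ} {CB z : Matrix ι ι RQ} {y u : Matrix κ ι RQ}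
    {u' : Matrix ι κ RQ} (i1 : y * CB = CH * u) (i4 : y * u' = 1 + CH * W)
    (i6 : ct y * u = 1 + z * CB) :
    Qm N CH z y * fromBlocks (-(tq (N / 2) • W)) u u' (-(tq (-N / 2) • CB)) =
      fromBlocks 1 0 (-(tq (N / 2) • (ct y * W)) + tq (N / 2) • (z * u')) 1 := by
  rw [Qm, fromBlocks_multiply]
  congr 1
  · rw [Matrix.mul_neg, Matrix.smul_mul, Matrix.mul_smul, smul_smul, tq_mul, i4]
    have : -N / 2 + N / 2 = (0 : ℚ) := by ring
    rw [this, tq_zero, one_smul]
    abel
  · rw [Matrix.smul_mul, Matrix.mul_neg, Matrix.mul_smul, i1]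
    abel
  · rw [Matrix.mul_neg, Matrix.mul_smul, Matrix.smul_mul]
  · rw [Matrix.mul_neg, Matrix.smul_mul, Matrix.mul_smul, smul_smul, tq_mul, i6]
    have : N / 2 + -N / 2 = (0 : ℚ) := by ring
    rw [this, tq_zero, one_smul]
    abel

/-- **Signature inequality.**  Rational-exponent Laurent matrices satisfying the six identities;
`CH` is positive definite at `q = 1`, and normalised negative definite at some point of the
circle. -/
theorem sig_ineq {N : ℚ} {CH W : Matrix κ κ RQ} {CB z : Matrix ι ι RQ} {y u : Matrix κ ι RQ}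
    {u' : Matrix ι κ RQ}
    (hCH : ct CH = tq (-N) • CH) (hCB : ct CB = tq (-N) • CB)
    (i1 : y * CB = CH * u) (i2 : CB * ct y = u' * CH)
    (i3 : u * ct y = 1 + W * CH) (i4 : y * u' = 1 + CH * W)
    (i5 : u' * y = 1 + CB * z) (i6 : ct y * u = 1 + z * CB)
    (hpos : (ev 0 CH).PosDef) (θ₀ : ℝ) (hneg : (-(ev θ₀ (tq (-N / 2) • CH))).PosDef) :
    Fintype.card κ ≤ Fintype.card ι := by
  have hdet : CH.det ≠ 0 := by
    intro h
    have h1 := hpos.det_pos
    rw [ev_det, h, map_zero] at h1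
    exact lt_irrefl _ h1
  have hz := alg_core hCH hCB i1 i2 i3 i4 i5 i6 hdet
  set Q := Qm N CH z y with hQ
  have hQct : ct Q = Q := ct_Qm hCH hz
  have hherm : ∀ θ, (-(ev θ Q)).IsHermitian := by
    intro θ
    have : (ev θ Q).IsHermitian := by
      unfold Matrix.IsHermitian
      rw [← ev_ct, hQct]
    exact this.neg
  have hdetQ : ∀ θ, (-(ev θ Q)).det ≠ 0 := by
    intro θ h
    have h1 : (ev θ Q).det = 0 := by
      rw [Matrix.det_neg] at h
      exact (mul_eq_zero.mp h).resolve_left (pow_ne_zero _ (by norm_num))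
    have h2 := congrArg Matrix.det (Qm_mul (N := N) i1 i4 i6)
    rw [Matrix.det_mul, Matrix.det_fromBlocks_zero₁₂, Matrix.det_one, Matrix.det_one,
      mul_one] at h2
    have h3 := congrArg (evq θ) h2
    rw [map_mul, ← hQ, ← ev_det, h1, zero_mul, map_one] at h3
    exact zero_ne_one h3
  have hcont : Continuous (fun θ => -(ev θ Q)) := (continuous_ev Q).neg
  -- corners
  have corner : ∀ θ, (fromRows (1 : Matrix κ κ ℂ) (0 : Matrix ι κ ℂ))ᴴ * ev θ Q *
      fromRows (1 : Matrix κ κ ℂ) (0 : Matrix ι κ ℂ) = ev θ (tq (-N / 2) • CH) := by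
    intro θ
    have : ev θ Q = fromBlocks (ev θ (tq (-N / 2) • CH)) (ev θ y) (ev θ (ct y))
        (ev θ (tq (N / 2) • z)) := by
      rw [hQ, Qm, ev, fromBlocks_map]
      rfl
    rw [this, conjTranspose_fromRows_eq_fromCols_conjTranspose, fromCols_mul_fromBlocks,
      fromCols_mul_fromRows]
    simp
  refine card_le_of_path (n := κ ⊕ ι) (ι := ι) (κ := κ) hcont hherm hdetQ ?_ 0 θ₀ ?_ ?_
  · rw [Fintype.card_sum, add_comm]
  · refine ⟨fromRows 1 0, ?_⟩
    rw [Matrix.mul_neg, Matrix.neg_mul, neg_neg, corner]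
    rw [ev_smul]
    simpa using hpos
  · refine ⟨fromRows 1 0, ?_⟩
    rw [Matrix.mul_neg, Matrix.neg_mul, corner]
    exact hneg

end main

end Vale.P179.H737.R
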