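import Mathlib

/-!
# ALLB: the twisted permutation basis of `Lam (x) End(W)`
-/

namespace Vale.P179.H737

open Module
open scoped TensorProduct

/-- a `D x D`-stable basis with twisted diagonal stabilisers (`γ : Γ →* L`). -/
structure TwB {k L Γ ι : Type} [Field k] [Ring L] [Algebra k L] [Group Γ]
    (γ : Γ →* L) (D : Subgroup Γ) (b : Basis ι k L) : Prop where
  /-- stability -/
  st : ∀ x ∈ D, ∀ y ∈ D, ∀ i, ∃ j, γ x * b i * γ y = b j
  /-- stabilisers -/
  tw : ∀ i, ∃ σ : Γ, ∀ x ∈ D, ∀ y ∈ D, γ x * b i = b i * γ y → y = σ⁻¹ * x * σ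

/-- a `D`-conjugation stable basis -/
def CjB {k M Γ κ : Type} [Field k] [Ring M] [Algebra k M] [Group Γ]
    (δ : Γ →* M) (D : Subgroup Γ) (c : Basis κ k M) : Prop :=
  ∀ x ∈ D, ∀ i, ∃ j, δ x * c i * δ x⁻¹ = c j

section

variable {k L M Γ ι κ : Type} [Field k] [Ring L] [Algebra k L] [Ring M] [Algebra k M] [Group Γ]
  {γ : Γ →* L} {δ : Γ →* M} {D : Subgroup Γ} {b : Basis ι k L} {c : Basis κ k M}

theorem mm (γ : Γ →* L) (x : Γ) : γ x * γ x⁻¹ = 1 := by
  rw [← map_mul, mul_inv_cancel, map_one]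

theorem mm' (γ : Γ →* L) (x : Γ) : γ x⁻¹ * γ x = 1 := by
  rw [← map_mul, inv_mul_cancel, map_one]

/-- the orbit relation -/
def orb (γ : Γ →* L) (D : Subgroup Γ) (b : Basis ι k L) : Setoid ι where
  r i j := ∃ x ∈ D, ∃ y ∈ D, γ x * b i * γ y = b j
  iseqv := by
    refine ⟨fun i => ⟨1, D.one_mem, 1, D.one_mem, by simp⟩, ?_, ?_⟩
    · rintro i j ⟨x, hx, y, hy, h⟩
      refine ⟨x⁻¹, D.inv_mem hx, y⁻¹, D.inv_mem hy, ?_⟩
      rw [← h]
      calc γ x⁻¹ * (γ x * b i * γ y) * γ y⁻¹ = (γ x⁻¹ * γ x) * b i * (γ y * γ y⁻¹) := by noncomm_ring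
        _ = b i := by rw [mm, mm', one_mul, mul_one]
    · rintro i j l ⟨x, hx, y, hy, h⟩ ⟨x', hx', y', hy', h'⟩
      refine ⟨x' * x, D.mul_mem hx' hx, y * y', D.mul_mem hy hy', ?_⟩
      rw [← h', ← h, map_mul, map_mul]
      noncomm_ring

/-- the two-sided translation of a basis -/
noncomputable def trB (δ : Γ →* M) (c : Basis κ k M) (u v : Γ) : Basis κ k M :=
  c.map (LinearEquiv.ofLinearMap ((LinearMap.mulLeft k (δ u)).comp (LinearMap.mulRight k (δ v)))
    ((LinearMap.mulLeft k (δ u⁻¹)).comp (LinearMap.mulRight k (δ v⁻¹)))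
    (by
      ext m
      simp only [LinearMap.comp_apply, LinearMap.mulLeft_apply, LinearMap.mulRight_apply,
        LinearMap.id_apply]
      calc δ u * (δ u⁻¹ * (m * δ v⁻¹) * δ v) = (δ u * δ u⁻¹) * m * (δ v⁻¹ * δ v) := by noncomm_ring
        _ = m := by rw [mm, mm', one_mul, mul_one])
    (by
      ext m
      simp only [LinearMap.comp_apply, LinearMap.mulLeft_apply, LinearMap.mulRight_apply,
        LinearMap.id_apply]
      calc δ u⁻¹ * (δ u * (m * δ v) * δ v⁻¹) = (δ u⁻¹ * δ u) * m * (δ v * δ v⁻¹) := by noncomm_ring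
        _ = m := by rw [mm, mm', one_mul, mul_one]))

theorem trB_apply (δ : Γ →* M) (c : Basis κ k M) (u v : Γ) (l : κ) :
    trB δ c u v l = δ u * c l * δ v := by
  simp [trB, mul_assoc]

open scoped Classical in
/-- the basis of a tensor product from a basis on the left and a family of bases on the right -/
noncomputable def tenB (b : Basis ι k L) (c : ι → Basis κ k M) : Basis (Σ _ : ι, κ) k (L ⊗[k] M) :=
  (Finsupp.basis fun i => c i).map (TensorProduct.equivFinsuppOfBasisLeft b).symm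

theorem tenB_apply (b : Basis ι k L) (c : ι → Basis κ k M) (z : Σ _ : ι, κ) :
    tenB b c z = b z.1 ⊗ₜ[k] c z.1 z.2 := by
  classical
  rw [tenB, Basis.map_apply, LinearEquiv.symm_apply_eq, Finsupp.coe_basis]
  ext i
  simp only [TensorProduct.equivFinsuppOfBasisLeft_apply_tmul_apply, Basis.repr_self,
    Finsupp.single_apply]
  split_ifs <;> simp

theorem tmul_basis_eq {b : Basis ι k L} {i j : ι} {m m' : M} (hm : m ≠ 0)
    (h : b i ⊗ₜ[k] m = b j ⊗ₜ[k] m') : i = j ∧ m = m' := by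
  classical
  have h1 := congrArg (TensorProduct.equivFinsuppOfBasisLeft b) h
  have h2 := DFunLike.congr_fun h1 i
  rw [TensorProduct.equivFinsuppOfBasisLeft_apply_tmul_apply,
    TensorProduct.equivFinsuppOfBasisLeft_apply_tmul_apply, Basis.repr_self, Basis.repr_self,
    Finsupp.single_eq_same, one_smul, Finsupp.single_apply] at h2
  split_ifs at h2 with hij
  · exact ⟨hij.symm, by rw [h2, one_smul]⟩
  · rw [zero_smul] at h2
    exact absurd h2 hm

/-- the diagonal homomorphism -/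
noncomputable def diag (γ : Γ →* L) (δ : Γ →* M) : Γ →* L ⊗[k] M where
  toFun g := γ g ⊗ₜ[k] δ g
  map_one' := by rw [map_one, map_one]; rfl
  map_mul' x y := by rw [map_mul, map_mul, Algebra.TensorProduct.tmul_mul_tmul]

theorem diag_apply (γ : Γ →* L) (δ : Γ →* M) (g : Γ) :
    diag (k := k) γ δ g = γ g ⊗ₜ[k] δ g := rfl

/-- **TENSOR-PERM.** The twisted permutation basis of `L ⊗ M` (`D` abelian): `(x, y)` fixes the
basis element `(i, l)` iff it fixes `b i` and `x` fixes `c l`. -/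
theorem exists_tensor_basis (hD : ∀ x ∈ D, ∀ y ∈ D, x * y = y * x) (hb : TwB γ D b)
    (hc : CjB δ D c) :
    ∃ c' : ι → Basis κ k M,
      TwB (diag (k := k) γ δ) D (tenB b c') ∧
      ∀ (i : ι) (l : κ) (x : Γ), x ∈ D → ∀ y ∈ D,
        (diag (k := k) γ δ x * tenB b c' ⟨i, l⟩ = tenB b c' ⟨i, l⟩ * diag (k := k) γ δ y ↔
          γ x * b i = b i * γ y ∧ δ x * c l = c l * δ x) := by
  classical
  let O := orb γ D b
  let rep : ι → ι := fun i => (Quotient.mk O i).out
  have hrep : ∀ i, ∃ x ∈ D, ∃ y ∈ D, γ x * b (rep i) * γ y = b i := fun i => Quotient.mk_out (s := O) i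
  have hrepeq : ∀ i j, (∃ x ∈ D, ∃ y ∈ D, γ x * b i * γ y = b j) → rep i = rep j := by
    intro i j h
    have : Quotient.mk O i = Quotient.mk O j := Quotient.sound (s := O) h
    simp only [rep, this]
  choose u hu v hv huv using hrep
  choose s hs using hb.tw
  let c' : ι → Basis κ k M := fun i => trB δ c (u i) (s (rep i) * v i)
  have hc' : ∀ i l, c' i l = δ (u i) * c l * δ (s (rep i) * v i) := fun i l => trB_apply _ _ _ _ _
  have hval : ∀ i l, tenB b c' ⟨i, l⟩ = b i ⊗ₜ[k] (δ (u i) * c l * δ (s (rep i) * v i)) := by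
    intro i l
    rw [tenB_apply, hc']
  have hne : ∀ i l, c' i l ≠ 0 := fun i l => (c' i).ne_zero l
  -- if `(x, y)` fixes `b i ⊗ m` then it fixes `b i` and `m`
  have hfst : ∀ (i : ι) (l : κ) (x : Γ), x ∈ D → ∀ y ∈ D,
      diag (k := k) γ δ x * tenB b c' ⟨i, l⟩ = tenB b c' ⟨i, l⟩ * diag (k := k) γ δ y →
      γ x * b i = b i * γ y ∧ δ x * c' i l = c' i l * δ y := by
    intro i l x hx y hy h
    rw [tenB_apply, diag_apply, diag_apply, Algebra.TensorProduct.tmul_mul_tmul,
      Algebra.TensorProduct.tmul_mul_tmul] at h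
    obtain ⟨j, hj⟩ := hb.st x hx y⁻¹ (D.inv_mem hy) i
    have h2 : b j ⊗ₜ[k] (δ x * c' i l * δ y⁻¹) = b i ⊗ₜ[k] c' i l := by
      have := congrArg (fun z => z * (γ y⁻¹ ⊗ₜ[k] δ y⁻¹)) h
      simp only [Algebra.TensorProduct.tmul_mul_tmul] at this
      rw [hj, mul_assoc (b i), mm, mul_one, mul_assoc (c' i l), mm, mul_one] at this
      exact this
    obtain ⟨h3, h3'⟩ := tmul_basis_eq (hne i l) h2.symm
    have h4 : γ x * b i * γ y⁻¹ = b i := by rw [hj, h3]
    refine ⟨?_, ?_⟩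
    · calc γ x * b i = γ x * b i * γ y⁻¹ * γ y := by rw [mul_assoc _ (γ y⁻¹), mm', mul_one]
        _ = b i * γ y := by rw [h4]
    · calc δ x * c' i l = δ x * c' i l * δ y⁻¹ * δ y := by rw [mul_assoc _ (δ y⁻¹), mm', mul_one]
        _ = c' i l * δ y := by rw [← h3']
  refine ⟨c', ⟨?_, ?_⟩, ?_⟩
  · rintro x hx y hy ⟨i, l⟩
    obtain ⟨j, hj⟩ := hb.st x hx y hy i
    have hij : rep i = rep j := hrepeq i j ⟨x, hx, y, hy, hj⟩
    -- the element `r`
    have hr : (u j)⁻¹ * (x * u i) ∈ D := D.mul_mem (D.inv_mem (hu j)) (D.mul_mem hx (hu i))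
    have hr' : v j * (v i * y)⁻¹ ∈ D := D.mul_mem (hv j) (D.inv_mem (D.mul_mem (hv i) hy))
    have key : γ ((u j)⁻¹ * (x * u i)) * b (rep i) = b (rep i) * γ (v j * (v i * y)⁻¹) := by
      have h1 : γ (x * u i) * b (rep i) * γ (v i * y) = γ (u j) * b (rep i) * γ (v j) := by
        rw [map_mul, map_mul]
        calc γ x * γ (u i) * b (rep i) * (γ (v i) * γ y) = γ x * (γ (u i) * b (rep i) * γ (v i)) * γ y := by noncomm_ring
          _ = b j := by rw [huv, hj]
          _ = γ (u j) * b (rep i) * γ (v j) := by rw [hij, huv]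
      calc γ ((u j)⁻¹ * (x * u i)) * b (rep i)
          = γ (u j)⁻¹ * (γ (x * u i) * b (rep i) * γ (v i * y)) * γ (v i * y)⁻¹ := by
            rw [map_mul γ (u j)⁻¹]
            calc γ (u j)⁻¹ * γ (x * u i) * b (rep i)
                = γ (u j)⁻¹ * γ (x * u i) * b (rep i) * (γ (v i * y) * γ (v i * y)⁻¹) := by
                  rw [mm, mul_one]
              _ = _ := by noncomm_ring
        _ = γ (u j)⁻¹ * (γ (u j) * b (rep i) * γ (v j)) * γ (v i * y)⁻¹ := by rw [h1]
        _ = (γ (u j)⁻¹ * γ (u j)) * b (rep i) * (γ (v j) * γ (v i * y)⁻¹) := by noncomm_ring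
        _ = b (rep i) * γ (v j * (v i * y)⁻¹) := by rw [mm', one_mul, map_mul]
    have htw := hs (rep i) _ hr _ hr' key
    obtain ⟨l', hl'⟩ := hc _ hr l
    refine ⟨⟨j, l'⟩, ?_⟩
    rw [hval, hval, diag_apply, diag_apply, Algebra.TensorProduct.tmul_mul_tmul,
      Algebra.TensorProduct.tmul_mul_tmul, hj, ← hl', ← hij]
    congr 1
    have e1 : x * u i = u j * ((u j)⁻¹ * (x * u i)) := by group
    have e2 : s (rep i) * v i * y = ((u j)⁻¹ * (x * u i))⁻¹ * (s (rep i) * v j) := by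
      have h3 : s (rep i) * (v j * (v i * y)⁻¹) * (s (rep i))⁻¹ = (u j)⁻¹ * (x * u i) := by
        rw [htw]; group
      rw [← h3]; group
    calc δ x * (δ (u i) * c l * δ (s (rep i) * v i)) * δ y
        = δ (x * u i) * c l * δ (s (rep i) * v i * y) := by
          rw [map_mul δ x, map_mul δ _ y]; noncomm_ring
      _ = δ (u j * ((u j)⁻¹ * (x * u i))) * c l *
          δ (((u j)⁻¹ * (x * u i))⁻¹ * (s (rep i) * v j)) := by rw [← e1, ← e2]
      _ = _ := by
          rw [map_mul δ (u j), map_mul δ ((u j)⁻¹ * (x * u i))⁻¹]; noncomm_ring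
  · rintro ⟨i, l⟩
    obtain ⟨σ, hσ⟩ := hb.tw i
    exact ⟨σ, fun x hx y hy h => hσ x hx y hy (hfst i l x hx y hy h).1⟩
  · intro i l x hx y hy
    -- if `(x, y)` fixes `b i` then it fixes the representative
    have hfix : γ x * b i = b i * γ y → y = (s (rep i))⁻¹ * x * s (rep i) := by
      intro h
      apply hs (rep i) x hx y hy
      have h5 : γ x * (γ (u i) * b (rep i) * γ (v i)) = (γ (u i) * b (rep i) * γ (v i)) * γ y := by
        rw [huv]; exact h
      have h6 : γ (u i) * (γ x * b (rep i)) * γ (v i) = γ (u i) * (b (rep i) * γ y) * γ (v i) := by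
        calc γ (u i) * (γ x * b (rep i)) * γ (v i) = γ (u i * x) * b (rep i) * γ (v i) := by
              rw [map_mul]; noncomm_ring
          _ = γ (x * u i) * b (rep i) * γ (v i) := by rw [hD _ (hu i) _ hx]
          _ = γ x * (γ (u i) * b (rep i) * γ (v i)) := by rw [map_mul]; noncomm_ring
          _ = (γ (u i) * b (rep i) * γ (v i)) * γ y := h5
          _ = γ (u i) * b (rep i) * γ (v i * y) := by rw [map_mul]; noncomm_ring
          _ = γ (u i) * b (rep i) * γ (y * v i) := by rw [hD _ (hv i) _ hy]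
          _ = γ (u i) * (b (rep i) * γ y) * γ (v i) := by rw [map_mul]; noncomm_ring
      calc γ x * b (rep i) = (γ (u i)⁻¹ * γ (u i)) * (γ x * b (rep i)) * (γ (v i) * γ (v i)⁻¹) := by
            rw [mm, mm', one_mul, mul_one]
        _ = γ (u i)⁻¹ * (γ (u i) * (γ x * b (rep i)) * γ (v i)) * γ (v i)⁻¹ := by noncomm_ring
        _ = γ (u i)⁻¹ * (γ (u i) * (b (rep i) * γ y) * γ (v i)) * γ (v i)⁻¹ := by rw [h6]
        _ = (γ (u i)⁻¹ * γ (u i)) * (b (rep i) * γ y) * (γ (v i) * γ (v i)⁻¹) := by noncomm_ring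
        _ = b (rep i) * γ y := by rw [mm, mm', one_mul, mul_one]
    have hcomm : y = (s (rep i))⁻¹ * x * s (rep i) →
        (δ x * c' i l = c' i l * δ y ↔ δ x * c l = c l * δ x) := by
      intro h
      have hsx : s (rep i) * y = x * s (rep i) := by
        rw [h]; group
      have e1 : δ x * c' i l = δ (u i) * (δ x * c l) * δ (s (rep i) * v i) := by
        rw [hc']
        calc δ x * (δ (u i) * c l * δ (s (rep i) * v i)) = δ (x * u i) * c l * δ (s (rep i) * v i) := by
              rw [map_mul δ x]; noncomm_ring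
          _ = δ (u i * x) * c l * δ (s (rep i) * v i) := by rw [hD _ (hu i) _ hx]
          _ = _ := by rw [map_mul δ (u i)]; noncomm_ring
      have e2 : c' i l * δ y = δ (u i) * (c l * δ x) * δ (s (rep i) * v i) := by
        have : s (rep i) * v i * y = x * (s (rep i) * v i) := by
          rw [mul_assoc, hD _ (hv i) _ hy, ← mul_assoc, hsx, mul_assoc]
        rw [hc']
        calc δ (u i) * c l * δ (s (rep i) * v i) * δ y = δ (u i) * c l * δ (s (rep i) * v i * y) := by
              rw [map_mul δ _ y]; noncomm_ring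
          _ = δ (u i) * c l * δ (x * (s (rep i) * v i)) := by rw [this]
          _ = _ := by rw [map_mul δ x]; noncomm_ring
      rw [e1, e2]
      constructor
      · intro hh
        have := congrArg (fun z => δ (u i)⁻¹ * z * δ (s (rep i) * v i)⁻¹) hh
        calc δ x * c l = (δ (u i)⁻¹ * δ (u i)) * (δ x * c l) * (δ (s (rep i) * v i) * δ (s (rep i) * v i)⁻¹) := by
              rw [mm, mm', one_mul, mul_one]
          _ = δ (u i)⁻¹ * (δ (u i) * (δ x * c l) * δ (s (rep i) * v i)) * δ (s (rep i) * v i)⁻¹ := by noncomm_ring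
          _ = δ (u i)⁻¹ * (δ (u i) * (c l * δ x) * δ (s (rep i) * v i)) * δ (s (rep i) * v i)⁻¹ := this
          _ = (δ (u i)⁻¹ * δ (u i)) * (c l * δ x) * (δ (s (rep i) * v i) * δ (s (rep i) * v i)⁻¹) := by noncomm_ring
          _ = c l * δ x := by rw [mm, mm', one_mul, mul_one]
      · intro hh
        rw [hh]
    constructor
    · intro h
      obtain ⟨h4, h5⟩ := hfst i l x hx y hy h
      exact ⟨h4, (hcomm (hfix h4)).1 h5⟩
    · rintro ⟨h1, h2⟩
      rw [tenB_apply, diag_apply, diag_apply, Algebra.TensorProduct.tmul_mul_tmul,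
        Algebra.TensorProduct.tmul_mul_tmul]
      show (γ x * b i) ⊗ₜ[k] (δ x * c' i l) = (b i * γ y) ⊗ₜ[k] (c' i l * δ y)
      rw [h1, (hcomm (hfix h1)).2 h2]

end

end Vale.P179.H737
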